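import Crest.Agent.R339.P.Ftc

/-! Row 339, part P: from the KKT conditions to stationarity (pure real analysis). -/

set_option autoImplicit false

noncomputable section

namespace Crest.Agent.R339.P

open MeasureTheory ProbabilityTheory Real Set Function


/-- the data of the analysis -/
structure AD (b c₀ : ℝ) (K : ℕ) (c : ℕ → ℝ) (e g h k : ℝ → ℝ) : Prop where
  par : Par b K c
  low : c₀ ≤ c 0
  c0 : 0 ≤ c₀
  he : FTC 0 1 e g
  hg : FTC 0 1 g fun t => h t - 2 * cT K c t * k t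
  e0 : e 0 = 0
  g0 : ∀ t ∈ Icc (0 : ℝ) 1, g t ∈ Icc 0 (b ^ 2)
  h0 : ∀ t, 0 ≤ h t
  h1 : h 1 ≤ 4 * b ^ 4
  k0 : ∀ t ∈ Icc (0 : ℝ) 1, k t ∈ Icc 0 (b ^ 3)
  mono : ∀ l < K, MonotoneOn (fun t => h t - 2 * c l * k t) (Icc (l / K : ℝ) ((l + 1) / K))
  kkt0 : c₀ < c 0 → ∫ t in ((0 : ℕ) / K : ℝ)..(((0 : ℕ) + 1) / K : ℝ), (e t - t) ≤ 0
  kkt : ∀ l : ℕ, l + 1 < K → c l < c (l + 1) →
    0 ≤ ∫ t in (l / K : ℝ)..((l + 1) / K : ℝ), (e t - t) ∧
      ∫ t in ((l + 1 : ℕ) / K : ℝ)..(((l + 1 : ℕ) + 1) / K : ℝ), (e t - t) ≤ 0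

/-- `i` is a jump point of the order parameter -/
def Atom (c₀ : ℝ) (c : ℕ → ℝ) (i : ℕ) : Prop := (i = 0 ∧ c₀ < c 0) ∨ ∃ l, i = l + 1 ∧ c l < c i

variable {b c₀ : ℝ} {K : ℕ} {c : ℕ → ℝ} {e g h k : ℝ → ℝ}

theorem cT_eq {l : ℕ} (c : ℕ → ℝ) (hl : l < K) {t : ℝ} (ht : t ∈ Ico (l / K : ℝ) ((l + 1) / K)) :
    cT K c t = c l := by

  have hK : (0 : ℝ) < K := Nat.cast_pos.2 (by omega)
  obtain ⟨h1, h2⟩ := ht
  rw [div_le_iff₀ hK] at h1
  rw [lt_div_iff₀ hK] at h2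
  have : ⌊t * K⌋₊ = l := (Nat.floor_eq_iff (le_trans (Nat.cast_nonneg l) h1)).2 ⟨h1, h2⟩
  unfold cT idx
  rw [this, min_eq_left (by omega)]

theorem exists_cell (hK : 0 < K) {t : ℝ} (ht : t ∈ Ico (0 : ℝ) 1) :
    ∃ l < K, t ∈ Ico (l / K : ℝ) ((l + 1) / K) := by

  have hK' : (0 : ℝ) < K := Nat.cast_pos.2 hK
  have h0 : 0 ≤ t * K := mul_nonneg ht.1 hK'.le
  refine ⟨⌊t * K⌋₊, (Nat.floor_lt h0).2 (by nlinarith [ht.2]), ?_, ?_⟩
  · rw [div_le_iff₀ hK']; exact Nat.floor_le h0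
  · rw [lt_div_iff₀ hK']; exact Nat.lt_floor_add_one _

theorem anal_cell_le (K l : ℕ) : (l / K : ℝ) ≤ (l + 1) / K := by
  gcongr; linarith

theorem anal_cell_lt (hK : 0 < K) (l : ℕ) : (l / K : ℝ) < (l + 1) / K := by
  have : (0 : ℝ) < K := Nat.cast_pos.2 hK
  gcongr; linarith

theorem anal_grid_mem {l : ℕ} (hl : l ≤ K) : (l / K : ℝ) ∈ Icc (0 : ℝ) 1 :=
  ⟨by positivity, div_le_one_of_le₀ (Nat.cast_le.2 hl) (Nat.cast_nonneg K)⟩

theorem anal_cell_sub {l : ℕ} (hl : l < K) : Icc (l / K : ℝ) ((l + 1) / K) ⊆ Icc 0 1 := by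
  have := (anal_grid_mem (l := l + 1) hl).2
  push_cast at this
  exact Icc_subset_Icc (by positivity) this

theorem anal_pos {A B : ℝ} {f : ℝ → ℝ} (hAB : A < B) (hf : ContinuousOn f (Icc A B))
    (h : ∀ t ∈ Ioo A B, 0 < f t) : 0 < ∫ t in A..B, f t :=
  intervalIntegral.intervalIntegral_pos_of_pos_on (hf.intervalIntegrable_of_Icc hAB.le) h hAB

theorem anal_neg {A B : ℝ} {f : ℝ → ℝ} (hAB : A < B) (hf : ContinuousOn f (Icc A B))
    (h : ∀ t ∈ Ioo A B, f t < 0) : ∫ t in A..B, f t < 0 := by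
  have := anal_pos (f := fun t => -f t) hAB hf.neg fun t ht => neg_pos.2 (h t ht)
  rw [intervalIntegral.integral_neg] at this
  linarith

/-- `h - 2 c_l k + 2 c_l b³` does not decrease from cell to cell; downward induction on the cell from
`h 1 ≤ 4 b⁴` -/
theorem AD.deriv_le (D : AD b c₀ K c e g h k) {l : ℕ} (hl : l < K) {t : ℝ}
    (ht : t ∈ Icc (l / K : ℝ) ((l + 1) / K)) : |h t - 2 * c l * k t| ≤ 6 * b ^ 4 := by

  have hb := D.par.hb
  have Q : ∀ n m : ℕ, m + n = K → h (m / K) + 2 * c m * (b ^ 3 - k (m / K)) ≤ 6 * b ^ 4 := by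
    intro n
    induction n with
    | zero =>
      intro m hm
      have hK : (K : ℝ) ≠ 0 := Nat.cast_ne_zero.2 D.par.hK.ne'
      obtain rfl : m = K := by omega
      rw [div_self hK]
      have h1 := D.k0 1 ⟨zero_le_one, le_rfl⟩
      have h2 := mul_le_mul (D.par.le m) (sub_le_self (b ^ 3) h1.1) (sub_nonneg.2 h1.2) (by linarith)
      nlinarith [D.h1]
    | succ n ih =>
      intro m hm
      have h1 := ih (m + 1) (by omega)
      have h2 := D.mono m (by omega) (left_mem_Icc.2 (anal_cell_le K m))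
        (right_mem_Icc.2 (anal_cell_le K m)) (anal_cell_le K m)
      have h3 := D.k0 _ (anal_grid_mem (l := m + 1) (by omega : m + 1 ≤ K))
      have h4 := mul_le_mul_of_nonneg_right (D.par.mono (Nat.le_succ m)) (sub_nonneg.2 h3.2)
      push_cast at h1 h4
      simp only [Nat.succ_eq_add_one] at h2 h4
      linarith
  have h1 := Q (K - (l + 1)) (l + 1) (by omega)
  have h2 := D.mono l hl ht (right_mem_Icc.2 (anal_cell_le K l)) ht.2
  have h3 := D.k0 _ (anal_grid_mem (l := l + 1) (by omega : l + 1 ≤ K))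
  have h4 := mul_le_mul_of_nonneg_right (D.par.mono (Nat.le_succ l)) (sub_nonneg.2 h3.2)
  have h5 := D.k0 t (anal_cell_sub hl ht)
  have h6 := mul_le_mul (D.par.le l) h5.2 h5.1 (by linarith)
  have h7 := mul_pos (D.par.pos l) (by positivity : 0 < b ^ 3)
  have h8 : 0 < b ^ 4 := by positivity
  push_cast at h1 h4
  simp only [Nat.succ_eq_add_one] at h2 h4
  rw [abs_le]
  constructor <;> nlinarith [D.h0 t]

theorem AD.lip (D : AD b c₀ K c e g h k) {s t : ℝ} (hs : s ∈ Icc (0 : ℝ) 1)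
    (ht : t ∈ Icc (0 : ℝ) 1) : |g t - g s| ≤ 6 * b ^ 4 * |t - s| := by

  have key : ∀ s ∈ Icc (0 : ℝ) 1, ∀ t ∈ Icc (0 : ℝ) 1, s ≤ t → |g t - g s| ≤ 6 * b ^ 4 * (t - s) := by
    intro s hs t ht hst
    have hb : ∀ r ∈ Ioo s t, |h r - 2 * cT K c r * k r| ≤ 6 * b ^ 4 := fun r hr => by
      obtain ⟨l, hl, hr'⟩ := exists_cell D.par.hK (t := r) ⟨by linarith [hs.1, hr.1], by linarith [ht.2, hr.2]⟩
      rw [cT_eq c hl hr']
      exact D.deriv_le hl (Ico_subset_Icc_self hr')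
    have h1 := D.hg.sub_le hs.1 hst ht.2 fun r hr => (abs_le.1 (hb r hr)).2
    have h2 := D.hg.le_sub hs.1 hst ht.2 fun r hr => (abs_le.1 (hb r hr)).1
    rw [abs_le]; constructor <;> linarith
  rcases le_total s t with hst | hst
  · rw [abs_of_nonneg (sub_nonneg.2 hst)]; exact key s hs t ht hst
  · rw [abs_sub_comm, abs_sub_comm t, abs_of_nonneg (sub_nonneg.2 hst)]; exact key t ht s hs hst

/-- With `D t = e t - t`: if `g > 1 + δ`... on the one or two cells around the atom then `D` is strictly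
increasing there, contradicting the KKT signs (`D 0 = 0` for `i = 0`); so `g ≤ 1` somewhere. -/
theorem AD.g_atom (D : AD b c₀ K c e g h k) {i : ℕ} (hi : i < K) (ha : Atom c₀ c i) :
    g (i / K) ≤ 1 + 6 * b ^ 4 / K := by

  by_contra hne
  have hK := D.par.hK
  have hK' : (0 : ℝ) < K := Nat.cast_pos.2 hK
  have hb := D.par.hb
  obtain ⟨δ, hδ, hg⟩ : ∃ δ : ℝ, 0 < δ ∧ ∀ r ∈ Icc (0 : ℝ) 1, |r - i / K| ≤ 1 / K → 1 + δ ≤ g r := by
    refine ⟨g (i / K) - (1 + 6 * b ^ 4 / K), by linarith, fun r hr hr' => ?_⟩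
    have h1 := (abs_le.1 (D.lip (anal_grid_mem hi.le) hr)).1
    have h2 := mul_le_mul_of_nonneg_left hr' (by positivity : 0 ≤ 6 * b ^ 4)
    rw [mul_one_div] at h2
    linarith
  have hinc : ∀ s t : ℝ, 0 ≤ s → s < t → t ≤ 1 → i / K - 1 / K ≤ s → t ≤ i / K + 1 / K →
      e s - s < e t - t := fun s t hs hst ht h1 h2 => by
    have := D.he.le_sub hs hst.le ht (C := 1 + δ) fun r hr =>
      hg r ⟨by linarith [hr.1], by linarith [hr.2]⟩
        (abs_le.2 ⟨by linarith [hr.1], by linarith [hr.2]⟩)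
    nlinarith
  have hc : ContinuousOn (fun t => e t - t) (Icc 0 1) := D.he.continuousOn.sub continuousOn_id
  have hpos : 0 ≤ e (i / K) - i / K → 0 < ∫ t in (i / K : ℝ)..((i + 1) / K), (e t - t) := fun h0 =>
    anal_pos (anal_cell_lt hK i) (hc.mono (anal_cell_sub hi)) fun t ht => by
      have h1 := (anal_cell_sub hi (Ioo_subset_Icc_self ht)).2
      have h2 := ht.2
      rw [add_div] at h2
      exact h0.trans_lt (hinc _ t (by positivity) ht.1 h1 (sub_le_self _ (by positivity)) h2.le)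
  rcases ha with ⟨rfl, h0⟩ | ⟨l, rfl, hl⟩
  · have := hpos (by simp [D.e0])
    linarith [D.kkt0 h0]
  · obtain ⟨k1, k2⟩ := D.kkt l hi hl
    rcases le_or_gt 0 (e ((l + 1 : ℕ) / K) - (l + 1 : ℕ) / K) with h0 | h0
    · linarith [hpos h0]
    · have := anal_neg (anal_cell_lt hK l) (hc.mono (anal_cell_sub (by omega))) fun t ht => by
        have h1 := (anal_cell_sub (by omega : l < K) (Ioo_subset_Icc_self ht)).1
        have h2 := ht.1
        refine (hinc t _ h1 (by push_cast; exact ht.2) (anal_grid_mem hi.le).2 ?_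
          (le_add_of_nonneg_right (by positivity))).trans h0
        push_cast
        rw [add_div]
        linarith
      linarith

theorem AD.e_atom (D : AD b c₀ K c e g h k) {i : ℕ} (hi : i < K) (ha : Atom c₀ c i) :
    |e (i / K) - i / K| ≤ (b ^ 2 + 1) / K := by

  have hK := D.par.hK
  have hK' : (0 : ℝ) < K := Nat.cast_pos.2 hK
  have hc : ContinuousOn (fun t => e t - t) (Icc 0 1) := D.he.continuousOn.sub continuousOn_id
  have hlip : ∀ s t : ℝ, 0 ≤ s → s ≤ t → t ≤ 1 → t - s ≤ 1 / K →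
      -((b ^ 2 + 1) / K) ≤ (e t - t) - (e s - s) := fun s t hs hst ht h1 => by
    have := D.he.le_sub hs hst ht (C := 0) fun r hr =>
      (D.g0 r ⟨by linarith [hr.1], by linarith [hr.2]⟩).1
    have h2 : (1 / K : ℝ) ≤ (b ^ 2 + 1) / K := by gcongr; nlinarith
    linarith
  rcases ha with ⟨rfl, h0⟩ | ⟨l, rfl, hl⟩
  · simp only [Nat.cast_zero, zero_div, D.e0, sub_zero, abs_zero]; positivity
  · obtain ⟨k1, k2⟩ := D.kkt l hi hl
    rw [abs_le]
    constructor
    · by_contra hne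
      have := anal_neg (anal_cell_lt hK l) (hc.mono (anal_cell_sub (by omega))) fun t ht => by
        have h1 := (anal_cell_sub (by omega : l < K) (Ioo_subset_Icc_self ht)).1
        have := hlip t ((l + 1 : ℕ) / K) h1 (by push_cast; exact ht.2.le) (anal_grid_mem hi.le).2
          (by push_cast; rw [add_div]; linarith [ht.1])
        linarith
      linarith
    · by_contra hne
      have := anal_pos (anal_cell_lt hK (l + 1)) (hc.mono (anal_cell_sub hi)) fun t ht => by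
        have h1 := (anal_cell_sub hi (Ioo_subset_Icc_self ht)).2
        have h2 := ht.2
        rw [add_div] at h2
        have := hlip ((l + 1 : ℕ) / K) t (by positivity) ht.1.le h1 (by linarith)
        linarith
      linarith

theorem anal_cT (hK : 0 < K) {i j : ℕ} (hj : j ≤ K) (hc : ∀ l, i ≤ l → l < j → c l = c i) {r : ℝ}
    (hr : r ∈ Ioo (i / K : ℝ) (j / K)) : cT K c r = c i := by
  have hK' : (0 : ℝ) < K := Nat.cast_pos.2 hK
  obtain ⟨l, hl, hr'⟩ := exists_cell hK (t := r)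
    ⟨le_trans (by positivity) hr.1.le, hr.2.trans_le (anal_grid_mem hj).2⟩
  have h1 := (div_lt_div_iff_of_pos_right hK').1 (hr.1.trans hr'.2)
  have h2 := (div_lt_div_iff_of_pos_right hK').1 (hr'.1.trans_lt hr.2)
  have h3 : i < l + 1 := by exact_mod_cast h1
  have h4 : l < j := by exact_mod_cast h2
  rw [cT_eq c hl hr', hc l (by omega) h4]

/-- on a gap `h - 2 c k` is monotone, so `g` is below the maximum of its end values -/
theorem AD.g_gap (D : AD b c₀ K c e g h k) {i j : ℕ} (hij : i ≤ j) (hj : j ≤ K)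
    (hc : ∀ l, i ≤ l → l < j → c l = c i) {t : ℝ} (ht : t ∈ Icc (i / K : ℝ) (j / K)) :
    g t ≤ max (g (i / K)) (g (j / K)) := by

  have hK := D.par.hK
  have hm : ∀ n : ℕ, i + n ≤ j →
      MonotoneOn (fun t => h t - 2 * c i * k t) (Icc (i / K : ℝ) ((i + n : ℕ) / K)) := by
    intro n
    induction n with
    | zero => intro _; simp
    | succ n ih =>
      intro hn
      have h1 := D.mono (i + n) (by omega)
      rw [hc (i + n) (by omega) (by omega)] at h1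
      have h2 : (i / K : ℝ) ≤ (i + n : ℕ) / K := by gcongr; omega
      have h3 := (ih (by omega)).union_right h1 (isGreatest_Icc h2) (isLeast_Icc (anal_cell_le K _))
      rw [Icc_union_Icc_eq_Icc h2 (anal_cell_le K _)] at h3
      rw [← add_assoc, Nat.cast_succ]
      exact h3
  have hm' := hm (j - i) (by omega)
  rw [show i + (j - i) = j by omega] at hm'
  have h0 : (0 : ℝ) ≤ i / K := by positivity
  have h1 : (j / K : ℝ) ≤ 1 := (anal_grid_mem hj).2
  rcases le_total (h t - 2 * c i * k t) 0 with hq | hq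
  · have := D.hg.sub_le h0 ht.1 (ht.2.trans h1) (C := 0) fun r hr => by
      have hr' : r ∈ Ioo (i / K : ℝ) (j / K) := ⟨hr.1, hr.2.trans_le ht.2⟩
      rw [anal_cT hK hj hc hr']
      exact (hm' (Ioo_subset_Icc_self hr') ht hr.2.le).trans hq
    exact le_max_of_le_left (by linarith)
  · have := D.hg.le_sub (h0.trans ht.1) ht.2 h1 (C := 0) fun r hr => by
      have hr' : r ∈ Ioo (i / K : ℝ) (j / K) := ⟨ht.1.trans_lt hr.1, hr.2⟩
      rw [anal_cT hK hj hc hr']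
      exact hq.trans (hm' ht (Ioo_subset_Icc_self hr') hr.1.le)
    exact le_max_of_le_right (by linarith)

/-- For `t` in the cell `l < L` let `j > l` be least with `c l < c j` or `j = L`.. (an atom `≤ L`), `i ≤ l`
least with `c i = c l`; `i` is an atom or `i = 0`, `c 0 = c₀`, and then `g' ≥ -2 c₀ b³` on `[0, j/K]`. -/
theorem AD.g_le (D : AD b c₀ K c e g h k) {L : ℕ} (hL : L < K) (ha : Atom c₀ c L) {t : ℝ}
    (ht : t ∈ Icc (0 : ℝ) (L / K)) : g t ≤ 1 + (6 * b ^ 4 / K + 2 * c₀ * b ^ 3) := by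

  have hK := D.par.hK
  have hK' : (0 : ℝ) < K := Nat.cast_pos.2 hK
  have hb := D.par.hb
  have hρ : 0 ≤ 2 * c₀ * b ^ 3 := by have := D.c0; positivity
  rcases ht.2.eq_or_lt with rfl | htL
  · linarith [D.g_atom hL ha]
  have hL1 := (anal_grid_mem hL.le).2
  obtain ⟨l, hl, htl⟩ := exists_cell hK (t := t) ⟨ht.1, htL.trans_le hL1⟩
  have hlL : l < L := by
    exact_mod_cast (div_lt_div_iff_of_pos_right hK').1 (htl.1.trans_lt htL)
  have hi : ∃ i, c i = c l := ⟨l, rfl⟩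
  have hj : ∃ j, l < j ∧ (c l < c j ∨ j = L) := ⟨L, hlL, Or.inr rfl⟩
  obtain ⟨i, hi1, hi2, hi3⟩ : ∃ i, c i = c l ∧ i ≤ l ∧ ∀ m < i, c m ≠ c l :=
    ⟨Nat.find hi, Nat.find_spec hi, Nat.find_min' hi rfl, fun m hm => Nat.find_min hi hm⟩
  obtain ⟨j, ⟨hj1, hj2⟩, hj3, hj4⟩ : ∃ j, (l < j ∧ (c l < c j ∨ j = L)) ∧ j ≤ L ∧
      ∀ m < j, ¬(l < m ∧ (c l < c m ∨ m = L)) :=
    ⟨Nat.find hj, Nat.find_spec hj, Nat.find_min' hj ⟨hlL, Or.inr rfl⟩, fun m hm => Nat.find_min hj hm⟩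
  have hc : ∀ m, i ≤ m → m < j → c m = c i := fun m h1 h2 => by
    refine le_antisymm ?_ (D.par.mono h1)
    rw [hi1]
    rcases le_or_gt m l with h3 | h3
    · exact D.par.mono h3
    · exact not_lt.1 fun h4 => hj4 m h2 ⟨h3, Or.inl h4⟩
  have hja : Atom c₀ c j := by
    rcases hj2 with h1 | rfl
    · obtain ⟨j', rfl⟩ : ∃ j', j = j' + 1 := ⟨j - 1, by omega⟩
      exact Or.inr ⟨j', rfl, by rw [hc j' (by omega) (by omega), hi1]; exact h1⟩
    · exact ha
  have gj := D.g_atom (by omega : j < K) hja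
  have htj : t ≤ j / K := by
    refine htl.2.le.trans ?_
    gcongr; exact_mod_cast hj1
  have hti : (i / K : ℝ) ≤ t := le_trans (by gcongr) htl.1
  by_cases hia : Atom c₀ c i
  · have gi := D.g_atom (by omega : i < K) hia
    exact (D.g_gap (by omega) (by omega) hc ⟨hti, htj⟩).trans (max_le (by linarith) (by linarith))
  · have hi0 : i = 0 := by
      rcases i with _ | i
      · rfl
      · exact absurd (Or.inr ⟨i, rfl, lt_of_le_of_ne (D.par.mono (Nat.le_succ i))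
          (by rw [hi1]; exact hi3 i (by omega))⟩) hia
    subst hi0
    have hc0 : c 0 = c₀ := le_antisymm (not_lt.1 fun h => hia (Or.inl ⟨rfl, h⟩)) D.low
    have hj5 := (anal_grid_mem (by omega : j ≤ K)).2
    have := D.hg.le_sub ht.1 htj hj5 (C := -(2 * c₀ * b ^ 3)) fun r hr => by
      rw [anal_cT hK (by omega) hc ⟨hti.trans_lt hr.1, hr.2⟩, hc0]
      have := mul_le_mul_of_nonneg_left (D.k0 r ⟨by linarith [hr.1, ht.1], by linarith [hr.2]⟩).2 D.c0
      linarith [D.h0 r]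
    nlinarith [ht.1]

theorem AD.main (D : AD b c₀ K c e g h k) {L : ℕ} (hL : L < K) (ha : Atom c₀ c L) {η : ℝ}
    (hη : 13 * b ^ 4 / K + (b ^ 2 + 1) / K + 4 * c₀ * b ^ 3 ≤ η) :
    g (L / K) ≤ 1 + η ∧ (∀ t ∈ Icc (0 : ℝ) (L / K), |e t - t| ≤ η) ∧
      ∫ t in (0 : ℝ)..(L / K), |g t - 1| ≤ η := by

  have hK := D.par.hK
  have hK' : (0 : ℝ) < K := Nat.cast_pos.2 hK
  have hb := D.par.hb
  have hρ : 0 ≤ c₀ * b ^ 3 := by have := D.c0; positivity
  have hA : 0 ≤ b ^ 4 / K := by positivity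
  have hσ : 0 ≤ (b ^ 2 + 1) / K := by positivity
  have hq := anal_grid_mem hL.le
  have e1 := abs_le.1 (D.e_atom hL ha)
  have g1 := D.g_atom hL ha
  rw [mul_div_assoc] at hη g1
  have gl : ∀ t ∈ Icc (0 : ℝ) (L / K), g t ≤ 1 + (6 * (b ^ 4 / K) + 2 * c₀ * b ^ 3) := fun t ht => by
    rw [← mul_div_assoc]; exact D.g_le hL ha ht
  refine ⟨by linarith, fun t ht => ?_, ?_⟩
  · have h1 := D.he.sub_le le_rfl ht.1 (ht.2.trans hq.2) fun r hr =>
      gl r ⟨hr.1.le, hr.2.le.trans ht.2⟩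
    have h2 := D.he.sub_le ht.1 ht.2 hq.2 fun r hr => gl r ⟨ht.1.trans hr.1.le, hr.2.le⟩
    rw [D.e0] at h1
    have h3 := mul_le_mul_of_nonneg_left (ht.2.trans hq.2)
      (by linarith : 0 ≤ 6 * (b ^ 4 / K) + 2 * c₀ * b ^ 3)
    have h4 := mul_le_mul_of_nonneg_left (by linarith [ht.1, hq.2] : L / K - t ≤ 1)
      (by linarith : 0 ≤ 6 * (b ^ 4 / K) + 2 * c₀ * b ^ 3)
    rw [abs_le]; constructor <;> linarith
  · obtain ⟨i1, i2⟩ := D.he 0 ⟨le_rfl, zero_le_one⟩ _ hq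
    have h1 : ∫ t in (0 : ℝ)..(L / K), |g t - 1| ≤
        ∫ t in (0 : ℝ)..(L / K), ((1 + 2 * (6 * (b ^ 4 / K) + 2 * c₀ * b ^ 3)) - g t) :=
      intervalIntegral.integral_mono_on hq.1 (i1.sub intervalIntegrable_const).abs
        (intervalIntegrable_const.sub i1) fun t ht => by
          have := gl t ht
          rw [abs_le]; constructor <;> linarith
    rw [intervalIntegral.integral_sub intervalIntegrable_const i1, ← i2, D.e0,
      intervalIntegral.integral_const, smul_eq_mul] at h1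
    have h3 := mul_le_mul_of_nonneg_left hq.2
      (by linarith : 0 ≤ 6 * (b ^ 4 / K) + 2 * c₀ * b ^ 3)
    linarith

/-- no atom at the final time -/
theorem last_integral_neg (hK : 0 < K) (he : FTC 0 1 e g) (g0 : ∀ t ∈ Icc (0 : ℝ) 1, 0 ≤ g t)
    {κ : ℝ} (h1 : e 1 ≤ 1 - κ) (hκ : 1 / K < κ) :
    ∫ t in ((K - 1 : ℕ) / K : ℝ)..(((K - 1 : ℕ) + 1) / K : ℝ), (e t - t) < 0 := by

  have hK' : (0 : ℝ) < K := Nat.cast_pos.2 hK
  have hl : K - 1 < K := by omega
  refine anal_neg (anal_cell_lt hK _)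
    ((he.continuousOn.sub continuousOn_id).mono (anal_cell_sub hl)) fun t ht => ?_
  have h2 := anal_cell_sub hl (Ioo_subset_Icc_self ht)
  have h3 := he.le_sub h2.1 h2.2 le_rfl (C := 0) fun r hr => g0 r ⟨by linarith [hr.1, h2.1], hr.2.le⟩
  have h4 := ht.1
  rw [Nat.cast_sub hK, Nat.cast_one, sub_div, div_self hK'.ne'] at h4
  linarith

end Crest.Agent.R339.P
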