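import Crest.Agent.R339.P.Defs

/-! Row 339, part P: primitives. -/

set_option autoImplicit false

noncomputable section

namespace Crest.Agent.R339.P

open MeasureTheory ProbabilityTheory Real Set Function


variable {A B : ℝ} {f f' g g' : ℝ → ℝ}

theorem FTC.of_hasDerivAt (hc : ContinuousOn f (Icc A B)) (hc' : ContinuousOn f' (Icc A B))
    (hd : ∀ t ∈ Ioo A B, HasDerivAt f (f' t) t) : FTC A B f f' := by
  have key : ∀ s ∈ Icc A B, ∀ t ∈ Icc A B, s ≤ t →
      IntervalIntegrable f' volume s t ∧ f t - f s = ∫ r in s..t, f' r := by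
    intro s hs t ht hst
    have hsub : Icc s t ⊆ Icc A B := Icc_subset_Icc hs.1 ht.2
    have hi : IntervalIntegrable f' volume s t :=
      (hc'.mono hsub).intervalIntegrable_of_Icc hst
    exact ⟨hi, (intervalIntegral.integral_eq_sub_of_hasDerivAt_of_le hst (hc.mono hsub)
      (fun x hx => hd x ⟨hs.1.trans_lt hx.1, hx.2.trans_le ht.2⟩) hi).symm⟩
  intro s hs t ht
  rcases le_total s t with h | h
  · exact key s hs t ht h
  · obtain ⟨h1, h2⟩ := key t ht s hs h
    refine ⟨h1.symm, ?_⟩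
    rw [intervalIntegral.integral_symm, ← h2]
    ring

theorem FTC.mono (h : FTC A B f f') {A' B' : ℝ} (hA : A ≤ A') (hB : B' ≤ B) : FTC A' B' f f' := by
  exact fun s hs t ht => h s (Icc_subset_Icc hA hB hs) t (Icc_subset_Icc hA hB ht)

/-- the derivative may be changed at the right end point -/
theorem FTC.congr (h : FTC A B f f') (e : ∀ t ∈ Icc A B, f t = g t)
    (e' : ∀ t ∈ Ico A B, f' t = g' t) : FTC A B g g' := by
  intro s hs t ht
  obtain ⟨h1, h2⟩ := h s hs t ht
  have hae : ∀ᵐ x ∂(volume : Measure ℝ), x ∈ uIoc s t → f' x = g' x := by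
    have hB : ∀ᵐ x ∂(volume : Measure ℝ), x ≠ B := by
      simp [ae_iff]
    filter_upwards [hB] with x hx hm
    have := uIcc_subset_Icc hs ht (uIoc_subset_uIcc hm)
    exact e' x ⟨this.1, lt_of_le_of_ne this.2 hx⟩
  refine ⟨h1.congr_ae ((ae_restrict_iff' measurableSet_uIoc).2 hae), ?_⟩
  rw [← e s hs, ← e t ht, h2]
  exact intervalIntegral.integral_congr_ae hae

theorem FTC.shift (h : FTC 0 B f f') (a : ℝ) :
    FTC a (a + B) (fun t => f (t - a)) (fun t => f' (t - a)) := by
  intro s hs t ht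
  obtain ⟨h1, h2⟩ := h (s - a) ⟨by linarith [hs.1], by linarith [hs.2]⟩ (t - a)
    ⟨by linarith [ht.1], by linarith [ht.2]⟩
  refine ⟨?_, ?_⟩
  · simpa using h1.comp_sub_right a
  · rw [intervalIntegral.integral_comp_sub_right f' a]
    exact h2

theorem FTC.trans {C : ℝ} (h : FTC A B f f') (h' : FTC B C f f') (hAB : A ≤ B) (hBC : B ≤ C) :
    FTC A C f f' := by
  have key : ∀ s ∈ Icc A C,
      IntervalIntegrable f' volume s B ∧ f B - f s = ∫ r in s..B, f' r := by
    intro s hs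
    rcases le_total s B with h1 | h1
    · exact h s ⟨hs.1, h1⟩ B ⟨hAB, le_rfl⟩
    · exact h' s ⟨h1, hs.2⟩ B ⟨le_rfl, hBC⟩
  intro s hs t ht
  obtain ⟨a1, a2⟩ := key s hs
  obtain ⟨b1, b2⟩ := key t ht
  refine ⟨a1.trans b1.symm, ?_⟩
  rw [← intervalIntegral.integral_add_adjacent_intervals a1 b1.symm,
    intervalIntegral.integral_symm t B, ← a2, ← b2]
  ring

theorem FTC.glue {K : ℕ} (hK : 0 < K)
    (h : ∀ l < K, FTC (l / K : ℝ) ((l + 1) / K) f f') : FTC 0 1 f f' := by
  have hK' : (0 : ℝ) < K := by exact_mod_cast hK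
  have key : ∀ l : ℕ, l + 1 ≤ K → FTC 0 ((l + 1) / K : ℝ) f f' := by
    intro l
    induction l with
    | zero => intro hl; simpa using h 0 hl
    | succ n ih =>
      intro hl
      have h1 := h (n + 1) hl
      push_cast at h1 ⊢
      exact (ih (by omega)).trans h1 (by positivity) (by gcongr; linarith)
  obtain ⟨l, rfl⟩ : ∃ l, K = l + 1 := ⟨K - 1, by omega⟩
  have := key l le_rfl
  push_cast at this hK'
  rwa [div_self hK'.ne'] at this

theorem FTC.add (h : FTC A B f f') (h' : FTC A B g g') :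
    FTC A B (fun t => f t + g t) (fun t => f' t + g' t) := by
  intro s hs t ht
  obtain ⟨a1, a2⟩ := h s hs t ht
  obtain ⟨b1, b2⟩ := h' s hs t ht
  refine ⟨a1.add b1, ?_⟩
  rw [intervalIntegral.integral_add a1 b1, ← a2, ← b2]
  ring

theorem FTC.const_mul (a : ℝ) (h : FTC A B f f') :
    FTC A B (fun t => a * f t) (fun t => a * f' t) := by
  intro s hs t ht
  obtain ⟨a1, a2⟩ := h s hs t ht
  refine ⟨a1.const_mul a, ?_⟩
  rw [intervalIntegral.integral_const_mul, ← a2]
  ring

theorem FTC.id (A B : ℝ) : FTC A B (fun t => t) (fun _ => 1) := by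
  intro s _ t _
  simp

theorem FTC.continuousOn (h : FTC A B f f') : ContinuousOn f (Icc A B) := by
  rcases le_or_gt A B with hAB | hAB
  · have h1 := (h A ⟨le_rfl, hAB⟩ B ⟨hAB, le_rfl⟩).1
    have h2 := intervalIntegral.continuousOn_primitive_interval' h1 left_mem_uIcc
    rw [uIcc_of_le hAB] at h2
    refine (continuousOn_const (c := f A)).add h2 |>.congr fun t ht => ?_
    have := (h A ⟨le_rfl, hAB⟩ t ht).2
    simp only [Pi.add_apply]
    linarith
  · rw [Icc_eq_empty (not_le.2 hAB)]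
    exact continuousOn_empty _

theorem FTC.sub_le (h : FTC A B f f') {s t C : ℝ} (hs : A ≤ s) (hst : s ≤ t) (ht : t ≤ B)
    (hC : ∀ r ∈ Ioo s t, f' r ≤ C) : f t - f s ≤ C * (t - s) := by
  obtain ⟨h1, h2⟩ := h s ⟨hs, hst.trans ht⟩ t ⟨hs.trans hst, ht⟩
  have := intervalIntegral.integral_mono_on_of_le_Ioo hst h1
    (intervalIntegrable_const (c := C)) hC
  rw [intervalIntegral.integral_const, smul_eq_mul] at this
  linarith

theorem FTC.le_sub (h : FTC A B f f') {s t C : ℝ} (hs : A ≤ s) (hst : s ≤ t) (ht : t ≤ B)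
    (hC : ∀ r ∈ Ioo s t, C ≤ f' r) : C * (t - s) ≤ f t - f s := by
  obtain ⟨h1, h2⟩ := h s ⟨hs, hst.trans ht⟩ t ⟨hs.trans hst, ht⟩
  have := intervalIntegral.integral_mono_on_of_le_Ioo hst
    (intervalIntegrable_const (c := C)) h1 hC
  rw [intervalIntegral.integral_const, smul_eq_mul] at this
  linarith

theorem FTC.monotoneOn (h : FTC A B f f') (h0 : ∀ r ∈ Ioo A B, 0 ≤ f' r) :
    MonotoneOn f (Icc A B) := by
  intro s hs t ht hst
  have := h.le_sub hs.1 hst ht.2 (C := 0)
    fun r hr => h0 r ⟨hs.1.trans_lt hr.1, hr.2.trans_le ht.2⟩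
  linarith

/-- Gronwall: on steps of length `δ ≤ 1 / (2 C)`, or by iteration `f t ≤ f 0 + C ∫ f`; `f` is
continuous, so one may also use `g t = f 0 + C ∫_0^t f`, which is `C¹` with `g' ≤ C g`. -/
theorem FTC.gronwall (h : FTC 0 1 f f') {C : ℝ} (hC : 0 ≤ C)
    (hle : ∀ r ∈ Icc (0 : ℝ) 1, f' r ≤ C * f r) : f 1 ≤ f 0 * exp C := by
  have hc := h.continuousOn
  let F : ℝ → ℝ := fun t => f (projIcc 0 1 zero_le_one t)
  have hF : Continuous F :=
    hc.comp_continuous (continuous_subtype_val.comp continuous_projIcc) fun t => (projIcc _ _ _ t).2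
  have hFf : ∀ t ∈ Icc (0 : ℝ) 1, F t = f t := fun t ht => by
    simp only [F, projIcc_of_mem _ ht]
  let G : ℝ → ℝ := fun t => f 0 + C * ∫ r in (0 : ℝ)..t, F r
  have hG : ∀ t, HasDerivAt G (C * F t) t := fun t =>
    ((hF.deriv_integral F 0 t ▸
      (intervalIntegral.differentiable_integral_of_continuous hF t).hasDerivAt).const_mul C).const_add _
  have hfG : ∀ t ∈ Icc (0 : ℝ) 1, f t ≤ G t := by
    intro t ht
    obtain ⟨h1, h2⟩ := h 0 ⟨le_rfl, zero_le_one⟩ t ht
    have h3 := intervalIntegral.integral_mono_on ht.1 h1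
      ((hF.intervalIntegrable 0 t).const_mul C) fun r hr => by
        have hr' : r ∈ Icc (0 : ℝ) 1 := ⟨hr.1, hr.2.trans ht.2⟩
        rw [hFf r hr']
        exact hle r hr'
    rw [intervalIntegral.integral_const_mul] at h3
    simp only [G]
    linarith
  have hH : ∀ t, HasDerivAt (fun t => G t * exp (-C * t))
      (C * F t * exp (-C * t) + G t * (exp (-C * t) * (-C * 1))) t := fun t =>
    (hG t).mul ((hasDerivAt_id t).const_mul (-C)).exp
  have hanti : AntitoneOn (fun t => G t * exp (-C * t)) (Icc 0 1) := by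
    refine antitoneOn_of_deriv_nonpos (convex_Icc 0 1)
      (fun t _ => (hH t).continuousAt.continuousWithinAt)
      (fun t _ => (hH t).differentiableAt.differentiableWithinAt) fun t ht => ?_
    have ht' : t ∈ Icc (0 : ℝ) 1 := interior_subset ht
    rw [(hH t).deriv, hFf t ht']
    have h1 := hfG t ht'
    have h2 := exp_pos (-C * t)
    have : C * f t * exp (-C * t) + G t * (exp (-C * t) * (-C * 1)) =
        -(C * exp (-C * t) * (G t - f t)) := by ring
    rw [this, neg_nonpos]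
    exact mul_nonneg (mul_nonneg hC h2.le) (by linarith)
  have h1 := hanti ⟨le_rfl, zero_le_one⟩ ⟨zero_le_one, le_rfl⟩ zero_le_one
  have h0 : G 0 = f 0 := by simp [G]
  simp only [h0, mul_zero, exp_zero, mul_one] at h1
  have h2 := hfG 1 ⟨zero_le_one, le_rfl⟩
  calc f 1 ≤ G 1 := h2
    _ = G 1 * exp (-C) * exp C := by rw [mul_assoc, ← exp_add]; simp
    _ ≤ f 0 * exp C := mul_le_mul_of_nonneg_right h1 (exp_pos C).le

end Crest.Agent.R339.P
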