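import Crest.Agent.R339.P.StepB

/-! Row 339, part P: the generator calculus. -/

set_option autoImplicit false

noncomputable section

namespace Crest.Agent.R339.P

open MeasureTheory ProbabilityTheory Real Set Function


variable {c : ℝ} {φ : ℝ → ℝ} {ψ ψx χ ψ' ψx' χ' : ℝ → ℝ → ℝ}

@[simp] theorem lin2_apply (a b : ℝ) (p : ℝ × ℝ) : lin2 a b p = a * p.1 + b * p.2 := by
  simp [lin2]

theorem gen_fd {f : ℝ × ℝ → ℝ} {L L' : ℝ × ℝ →L[ℝ] ℝ} {p : ℝ × ℝ} (h : HasFDerivAt f L p)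
    (e : ∀ q, L q = L' q) : HasFDerivAt f L' p :=
  (ContinuousLinearMap.ext e : L = L') ▸ h

theorem gen_dx {f : ℝ → ℝ → ℝ} {a b τ x : ℝ} (h : HasFDerivAt (uncurry f) (lin2 a b) (τ, x)) :
    HasDerivAt (f τ) b x := by
  have h1 : HasDerivAt (fun y : ℝ => ((τ, y) : ℝ × ℝ)) ((0, 1) : ℝ × ℝ) x :=
    (hasDerivAt_const x τ).prodMk (hasDerivAt_id x)
  have h2 := h.comp_hasDerivAt x h1
  simp only [lin2_apply, mul_zero, mul_one, zero_add] at h2
  exact h2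

theorem Gen.congr (h : Gen c φ ψ ψx χ) (e : ∀ τ x, ψ τ x = ψ' τ x) (ex : ∀ τ x, ψx τ x = ψx' τ x)
    (eχ : ∀ τ x, χ τ x = χ' τ x) : Gen c φ ψ' ψx' χ' := by
  have h1 : ψ = ψ' := funext fun τ => funext fun x => e τ x
  have h2 : ψx = ψx' := funext fun τ => funext fun x => ex τ x
  have h3 : χ = χ' := funext fun τ => funext fun x => eχ τ x
  rw [← h1, ← h2, ← h3]
  exact h

theorem Gen.const (c : ℝ) (φ : ℝ → ℝ) (a : ℝ) :
    Gen c φ (fun _ _ => a) (fun _ _ => 0) (fun _ _ => 0) := by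
  refine ⟨CG.const a, CG.const 0, CG.const 0, fun _ _ => 0, CG.const 0, fun τ _ x => ⟨?_, ?_⟩⟩
  · refine gen_fd (hasFDerivAt_const a (τ, x)) fun p => ?_
    simp
  · exact hasDerivAt_const x (0 : ℝ)

theorem Gen.add (h : Gen c φ ψ ψx χ) (h' : Gen c φ ψ' ψx' χ') :
    Gen c φ (fun τ x => ψ τ x + ψ' τ x) (fun τ x => ψx τ x + ψx' τ x)
      (fun τ x => χ τ x + χ' τ x) := by
  obtain ⟨a, ha, hd⟩ := h.ex
  obtain ⟨a', ha', hd'⟩ := h'.ex
  refine ⟨h.cg.add h'.cg, h.cgx.add h'.cgx, h.cgχ.add h'.cgχ, fun τ x => a τ x + a' τ x,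
    ha.add ha', fun τ hτ x => ⟨?_, (hd τ hτ x).2.add (hd' τ hτ x).2⟩⟩
  refine gen_fd ((hd τ hτ x).1.add (hd' τ hτ x).1) fun p => ?_
  simp only [add_apply, lin2_apply]
  ring

theorem Gen.const_mul (a : ℝ) (h : Gen c φ ψ ψx χ) :
    Gen c φ (fun τ x => a * ψ τ x) (fun τ x => a * ψx τ x) (fun τ x => a * χ τ x) := by
  obtain ⟨b, hb, hd⟩ := h.ex
  refine ⟨h.cg.const_mul a, h.cgx.const_mul a, h.cgχ.const_mul a, fun τ x => a * b τ x,
    hb.const_mul a, fun τ hτ x => ⟨?_, (hd τ hτ x).2.const_mul a⟩⟩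
  refine gen_fd ((hd τ hτ x).1.const_mul a) fun p => ?_
  simp only [smul_apply, lin2_apply, smul_eq_mul]
  ring

/-- the product rule; `HasDerivAt (ψ τ) (ψx τ x) x` follows from the Fréchet derivative -/
theorem Gen.mul (h : Gen c φ ψ ψx χ) (h' : Gen c φ ψ' ψx' χ') :
    Gen c φ (fun τ x => ψ τ x * ψ' τ x) (fun τ x => ψ τ x * ψx' τ x + ψx τ x * ψ' τ x)
      (fun τ x => ψ τ x * χ' τ x + χ τ x * ψ' τ x + ψx τ x * ψx' τ x) := by
  obtain ⟨a, ha, hd⟩ := h.ex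
  obtain ⟨a', ha', hd'⟩ := h'.ex
  refine ⟨h.cg.mul h'.cg, (h.cg.mul h'.cgx).add (h.cgx.mul h'.cg),
    ((h.cg.mul h'.cgχ).add (h.cgχ.mul h'.cg)).add (h.cgx.mul h'.cgx),
    fun τ x => (ψx τ x * ψx' τ x + ψ τ x * a' τ x) + (a τ x * ψ' τ x + ψx τ x * ψx' τ x),
    ((h.cgx.mul h'.cgx).add (h.cg.mul ha')).add ((ha.mul h'.cg).add (h.cgx.mul h'.cgx)),
    fun τ hτ x => ⟨?_, ?_⟩⟩
  · refine gen_fd ((hd τ hτ x).1.mul (hd' τ hτ x).1) fun p => ?_
    simp only [add_apply, smul_apply, lin2_apply,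
      smul_eq_mul, uncurry_apply_pair]
    ring
  · exact ((gen_dx (hd τ hτ x).1).mul (hd' τ hτ x).2).add
      ((hd τ hτ x).2.mul (gen_dx (hd' τ hτ x).1))

theorem cg_U (h : Nice φ) (hc : 0 < c) : CG (U c φ) := by
  have e : U c φ = fun τ x => c⁻¹ * mk c φ 1 τ x := funext fun τ => funext fun x => U_eq h hc τ x
  rw [e]
  exact (cg_mk h c 1).const_mul _

theorem cg_V (h : Nice φ) (hc : 0 < c) : CG (V c φ) := by
  have e : V c φ = fun τ x => c⁻¹ * (mk c φ 2 τ x - mk c φ 1 τ x * mk c φ 1 τ x) :=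
    funext fun τ => funext fun x => by rw [V_eq h hc τ x]; ring
  rw [e]
  exact ((cg_mk h c 2).sub ((cg_mk h c 1).mul (cg_mk h c 1))).const_mul _

theorem cg_W (h : Nice φ) (hc : 0 < c) : CG (W c φ) := by
  have e : W c φ = fun τ x => c⁻¹ * (mk c φ 3 τ x - 3 * (mk c φ 1 τ x * mk c φ 2 τ x)
      + 2 * (mk c φ 1 τ x * (mk c φ 1 τ x * mk c φ 1 τ x))) :=
    funext fun τ => funext fun x => by rw [W_eq h hc τ x]; ring
  rw [e]
  exact (((cg_mk h c 3).sub (((cg_mk h c 1).mul (cg_mk h c 2)).const_mul 3)).add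
    (((cg_mk h c 1).mul ((cg_mk h c 1).mul (cg_mk h c 1))).const_mul 2)).const_mul _

theorem cg_Z (h : Nice φ) (hc : 0 < c) : CG (Z c φ) := by
  have e : Z c φ = fun τ x => c⁻¹ * (mk c φ 4 τ x - 4 * (mk c φ 1 τ x * mk c φ 3 τ x)
      - 3 * (mk c φ 2 τ x * mk c φ 2 τ x)
      + 12 * ((mk c φ 1 τ x * mk c φ 1 τ x) * mk c φ 2 τ x)
      - 6 * ((mk c φ 1 τ x * mk c φ 1 τ x) * (mk c φ 1 τ x * mk c φ 1 τ x))) :=
    funext fun τ => funext fun x => by rw [Z_eq h hc τ x]; ring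
  rw [e]
  have h11 := (cg_mk h c 1).mul (cg_mk h c 1)
  exact (((((cg_mk h c 4).sub (((cg_mk h c 1).mul (cg_mk h c 3)).const_mul 4)).sub
    (((cg_mk h c 2).mul (cg_mk h c 2)).const_mul 3)).add
    ((h11.mul (cg_mk h c 2)).const_mul 12)).sub ((h11.mul h11).const_mul 6)).const_mul _

theorem gen_id (h : Nice φ) (hc : 0 < c) :
    Gen c φ (fun _ x => x) (fun _ _ => 1) (fun τ x => c * U c φ τ x) := by
  refine ⟨CG.of_eg continuous_id EG.id, CG.const 1, (cg_U h hc).const_mul c, fun _ _ => 0,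
    CG.const 0, fun τ _ x => ⟨?_, hasDerivAt_const x (1 : ℝ)⟩⟩
  refine gen_fd (hasFDerivAt_snd (𝕜 := ℝ) (p := (τ, x))) fun p => ?_
  simp

/-- `m k = E_k / E_0` is a martingale: `∂_τ m_k = (m_{k+2} - m_2 m_k) / 2`, `c U = m_1`,
`∂_xx m_k = m_{k+2} - 2 m_1 m_{k+1} - m_2 m_k + 2 m_1² m_k` -/
theorem gen_mk (h : Nice φ) (hc : 0 < c) (k : ℕ) :
    Gen c φ (mk c φ k) (fun τ x => mk c φ (k + 1) τ x - mk c φ 1 τ x * mk c φ k τ x)
      (fun _ _ => 0) := by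
  have m := cg_mk h c
  refine ⟨m k, (m (k + 1)).sub ((m 1).mul (m k)), CG.const 0,
    fun τ x => (mk c φ (k + 1 + 1) τ x - mk c φ 1 τ x * mk c φ (k + 1) τ x) -
      ((mk c φ (1 + 1) τ x - mk c φ 1 τ x * mk c φ 1 τ x) * mk c φ k τ x +
        mk c φ 1 τ x * (mk c φ (k + 1) τ x - mk c φ 1 τ x * mk c φ k τ x)),
    ((m _).sub ((m 1).mul (m _))).sub ((((m _).sub ((m 1).mul (m 1))).mul (m k)).add
      ((m 1).mul ((m _).sub ((m 1).mul (m k))))), fun τ hτ x => ⟨?_, ?_⟩⟩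
  · have h0 := (Ek_zero_pos h c τ x).ne'
    have h1 := hasFDerivAt_Ek h c k hτ x
    have h2 := hasFDerivAt_Ek h c 0 hτ x
    have h3 := (hasDerivAt_inv (x := uncurry (Ek c φ 0) (τ, x)) h0).comp_hasFDerivAt (τ, x) h2
    have h4 := h1.mul h3
    have e : uncurry (mk c φ k) = uncurry (Ek c φ k) * ((fun y : ℝ => y⁻¹) ∘ uncurry (Ek c φ 0)) := by
      funext p
      simp only [uncurry, mk, Pi.mul_apply, comp_apply, div_eq_mul_inv]
    rw [e]
    refine gen_fd h4 fun p => ?_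
    simp only [add_apply, smul_apply, lin2_apply,
      smul_eq_mul, uncurry_apply_pair, comp_apply, U_eq h hc, mk, zero_add]
    field_simp
    ring
  · exact (hasDerivAt_mk h c (k + 1) τ x).sub
      ((hasDerivAt_mk h c 1 τ x).mul (hasDerivAt_mk h c k τ x))

/-- `∂_τ Φ = m_2 / (2 c) = (V + c U²) / 2` -/
theorem gen_PH (h : Nice φ) (hc : 0 < c) :
    Gen c φ (PH c φ) (U c φ) (fun τ x => c / 2 * U c φ τ x ^ 2) := by
  refine ⟨cg_PH h hc, cg_U h hc, ?_, V c φ, cg_V h hc, fun τ hτ x => ⟨?_, (h.chStep hc τ).hd1 x⟩⟩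
  · have e : (fun τ x => c / 2 * U c φ τ x ^ 2) = fun τ x => c / 2 * (U c φ τ x * U c φ τ x) :=
      funext fun τ => funext fun x => by ring
    rw [e]
    exact ((cg_U h hc).mul (cg_U h hc)).const_mul _
  · have h0 := (Ek_zero_pos h c τ x).ne'
    have h2 := hasFDerivAt_Ek h c 0 hτ x
    have h3 := (h2.log h0).const_mul c⁻¹
    have e : uncurry (PH c φ) = fun p => c⁻¹ * log (uncurry (Ek c φ 0) p) := by
      funext p
      exact chStep_eq c p.1 φ p.2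
    rw [e]
    refine gen_fd h3 fun p => ?_
    simp only [smul_apply, lin2_apply,
      smul_eq_mul, uncurry_apply_pair, U_eq h hc, V_eq h hc, mk, zero_add]
    field_simp
    ring

theorem gen_U (h : Nice φ) (hc : 0 < c) : Gen c φ (U c φ) (V c φ) (fun _ _ => 0) := by
  refine ((gen_mk h hc 1).const_mul c⁻¹).congr (fun τ x => (U_eq h hc τ x).symm)
    (fun τ x => ?_) fun τ x => mul_zero _
  rw [V_eq h hc]
  ring

theorem gen_V (h : Nice φ) (hc : 0 < c) :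
    Gen c φ (V c φ) (W c φ) (fun τ x => -(c * V c φ τ x ^ 2)) := by
  have m := gen_mk h hc
  refine (((m 2).add (((m 1).mul (m 1)).const_mul (-1))).const_mul c⁻¹).congr (fun τ x => ?_)
    (fun τ x => ?_) fun τ x => ?_
  · rw [V_eq h hc]
    ring
  · rw [W_eq h hc]
    ring
  · rw [V_eq h hc]
    field_simp
    ring

theorem gen_W (h : Nice φ) (hc : 0 < c) :
    Gen c φ (W c φ) (Z c φ) (fun τ x => -(3 * c * V c φ τ x * W c φ τ x)) := by
  have m := gen_mk h hc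
  refine ((((m 3).add (((m 1).mul (m 2)).const_mul (-3))).add
    (((m 1).mul ((m 1).mul (m 1))).const_mul 2)).const_mul c⁻¹).congr (fun τ x => ?_)
    (fun τ x => ?_) fun τ x => ?_
  · rw [W_eq h hc]
    ring
  · rw [Z_eq h hc]
    ring
  · rw [V_eq h hc, W_eq h hc]
    field_simp
    ring

end Crest.Agent.R339.P
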