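import Crest.Agent.R339.P.Law
import Crest.Agent.R339.P.Gen
import Crest.Agent.R339.P.Ftc

/-! Row 339, part P: Dynkin formula inside a cell. -/

set_option autoImplicit false

noncomputable section

namespace Crest.Agent.R339.P

open MeasureTheory ProbabilityTheory Real Set Function


variable {μ : Measure ℝ} {φ : ℝ → ℝ} {ψ ψx χ : ℝ → ℝ → ℝ} {c Δ s : ℝ}

/-- the weight `exp (-c Φ)` at the start of the cell -/
def dynW (c Δ : ℝ) (φ : ℝ → ℝ) (y : ℝ) : ℝ := exp (-c * chStep c Δ φ y)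

theorem dyn_eg_w (h : Nice φ) (hc : 0 < c) : EG (dynW c Δ φ) := (h.chStep hc Δ).eg_exp (-c)

theorem dyn_cont_w (h : Nice φ) (hc : 0 < c) : Continuous (dynW c Δ φ) := by
  have := (h.chStep hc Δ).cont
  unfold dynW; fun_prop

theorem dyn_rep (hμ : EM μ) (h : Nice φ) (hc : 0 < c) (Δ s : ℝ) {f : ℝ → ℝ} (hm : Measurable f) :
    ∫ x, f x ∂law μ φ c Δ s = ∫ p : ℝ × ℝ, (f (p.1 + √s * p.2) *
      Ek c φ 0 (Δ - s) (p.1 + √s * p.2)) * dynW c Δ φ p.1 ∂μ.prod γ₁ := by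
  rw [integral_law hμ h hc Δ s hm]
  refine integral_congr_ae (Filter.Eventually.of_forall fun p => ?_)
  simp only [dynW]
  rw [← exp_chStep h hc, mul_assoc, ← exp_add]
  congr 2; ring

theorem dyn_int (hμ : EM μ) (C : ℝ) :
    Integrable (fun p : ℝ × ℝ => exp (C * (1 + |p.1|)) * exp (C * (1 + |p.2|))) (μ.prod γ₁) :=
  integrable_prod_of_le hμ (C := C) (by fun_prop) fun p => by
    rw [abs_of_pos (by positivity)]

theorem dyn_cont {G : ℝ → ℝ → ℝ} {w : ℝ → ℝ} (hG : CG G) (hw : Continuous w) (τ s : ℝ) :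
    Continuous fun p : ℝ × ℝ => G τ (p.1 + √s * p.2) * w p.1 := by
  have := hG.cont τ
  fun_prop

theorem dyn_bound {G : ℝ → ℝ → ℝ} {w : ℝ → ℝ} (hG : CG G) (hw : EG w) :
    ∃ C : ℝ, 0 ≤ C ∧ ∀ τ ∈ Icc (0 : ℝ) 1, ∀ s ∈ Icc (0 : ℝ) 1, ∀ p : ℝ × ℝ,
      |G τ (p.1 + √s * p.2) * w p.1| ≤ exp (C * (1 + |p.1|)) * exp (C * (1 + |p.2|)) := by
  obtain ⟨C, hC0, hC⟩ := hG.exists_nonneg
  obtain ⟨D, hD0, hD⟩ := hw.exists_nonneg
  refine ⟨C + D, by positivity, fun τ hτ s hs p => ?_⟩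
  rw [abs_mul, ← exp_add]
  refine (mul_le_mul (hC τ hτ _) (hD _) (abs_nonneg _) (exp_pos _).le).trans ?_
  rw [← exp_add, exp_le_exp]
  have h1 : √s ≤ 1 := sqrt_le_one.2 hs.2
  have h2 : |p.1 + √s * p.2| ≤ |p.1| + |p.2| := by
    refine (abs_add_le _ _).trans ?_
    rw [abs_mul, abs_of_nonneg (sqrt_nonneg s)]
    nlinarith [abs_nonneg p.2]
  nlinarith [abs_nonneg p.1, abs_nonneg p.2, mul_le_mul_of_nonneg_left h2 hC0,
    mul_nonneg hD0 (abs_nonneg p.2)]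

theorem dyn_integrable (hμ : EM μ) {G : ℝ → ℝ → ℝ} {w : ℝ → ℝ} (hG : CG G) (hw : EG w)
    (hw' : Continuous w) {τ s : ℝ} (hτ : τ ∈ Icc (0 : ℝ) 1) (hs : s ∈ Icc (0 : ℝ) 1) :
    Integrable (fun p : ℝ × ℝ => G τ (p.1 + √s * p.2) * w p.1) (μ.prod γ₁) := by
  obtain ⟨C, -, hC⟩ := dyn_bound hG hw
  exact integrable_prod_of_le hμ (dyn_cont hG hw' τ s).measurable (hC τ hτ s hs)

theorem dyn_deriv (hμ : EM μ) (hΔ : Δ ≤ 1) {G Gt Gx Gxx : ℝ → ℝ → ℝ} {w : ℝ → ℝ} (hG : CG G)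
    (hGt : CG Gt) (hGx : CG Gx) (hGxx : CG Gxx) (hw : EG w) (hw' : Continuous w)
    (hd : ∀ τ, 0 < τ → ∀ x, HasFDerivAt (uncurry G) (lin2 (Gt τ x) (Gx τ x)) (τ, x) ∧
      HasDerivAt (Gx τ) (Gxx τ x) x) (hs : s ∈ Ioo 0 Δ) :
    HasDerivAt (fun s => ∫ p : ℝ × ℝ, G (Δ - s) (p.1 + √s * p.2) * w p.1 ∂μ.prod γ₁)
      (∫ p : ℝ × ℝ, (Gxx (Δ - s) (p.1 + √s * p.2) / 2 - Gt (Δ - s) (p.1 + √s * p.2)) * w p.1
        ∂μ.prod γ₁) s := by
  have := hμ.prob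
  obtain ⟨Ct, -, hCt⟩ := dyn_bound hGt hw
  obtain ⟨Cx, hCx0, hCx⟩ := dyn_bound hGx hw
  have hs0 := hs.1
  have hτ : Δ - s ∈ Icc (0 : ℝ) 1 := ⟨by linarith [hs.2], by linarith⟩
  have hs1 : s ∈ Icc (0 : ℝ) 1 := ⟨hs0.le, by linarith [hs.2]⟩
  have hsq : 0 < √(s / 2) := sqrt_pos.2 (by linarith)
  have hgx : ∀ r ∈ Ioo (s / 2) Δ, ∀ p : ℝ × ℝ,
      |Gx (Δ - r) (p.1 + √r * p.2) * w p.1 * (p.2 / (2 * √r))| ≤
        (2 * √(s / 2))⁻¹ * (exp ((Cx + 1) * (1 + |p.1|)) * exp ((Cx + 1) * (1 + |p.2|))) := by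
    intro r hr p
    have h1 := hCx (Δ - r) ⟨by linarith [hr.2], by linarith [hr.1]⟩ r
      ⟨by linarith [hr.1], by linarith [hr.2]⟩ p
    have h2 : √(s / 2) ≤ √r := sqrt_le_sqrt hr.1.le
    have h3 : |p.2 / (2 * √r)| ≤ (2 * √(s / 2))⁻¹ * exp (1 + |p.2|) := by
      rw [abs_div, abs_of_pos (by linarith : 0 < 2 * √r), div_eq_inv_mul]
      refine mul_le_mul (inv_anti₀ (by linarith) (by linarith)) ?_ (abs_nonneg _) (by positivity)
      linarith [add_one_le_exp (1 + |p.2|)]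
    rw [abs_mul]
    refine (mul_le_mul h1 h3 (abs_nonneg _) (by positivity)).trans ?_
    rw [mul_left_comm]
    refine mul_le_mul_of_nonneg_left ?_ (by positivity)
    rw [← exp_add, ← exp_add, ← exp_add, exp_le_exp]
    nlinarith [abs_nonneg p.1]
  have key := hasDerivAt_integral_of_dominated_loc_of_deriv_le (μ := μ.prod γ₁) (x₀ := s)
    (s := Ioo (s / 2) Δ) (F := fun s (p : ℝ × ℝ) => G (Δ - s) (p.1 + √s * p.2) * w p.1)
    (F' := fun r (p : ℝ × ℝ) => Gx (Δ - r) (p.1 + √r * p.2) * w p.1 * (p.2 / (2 * √r)) -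
      Gt (Δ - r) (p.1 + √r * p.2) * w p.1)
    (bound := fun p => (2 * √(s / 2))⁻¹ *
      (exp ((Cx + 1) * (1 + |p.1|)) * exp ((Cx + 1) * (1 + |p.2|))) +
      exp (Ct * (1 + |p.1|)) * exp (Ct * (1 + |p.2|)))
    (Ioo_mem_nhds (by linarith) hs.2)
    (Filter.Eventually.of_forall fun r => (dyn_cont hG hw' _ _).aestronglyMeasurable)
    (dyn_integrable hμ hG hw hw' hτ hs1)
    (((dyn_cont hGx hw' _ _).mul (by fun_prop)).sub (dyn_cont hGt hw' _ _)).aestronglyMeasurable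
    (Filter.Eventually.of_forall fun p r hr => by
      refine (abs_sub _ _).trans (add_le_add (hgx r hr p) ?_)
      exact hCt (Δ - r) ⟨by linarith [hr.2], by linarith [hr.1]⟩ r
        ⟨by linarith [hr.1], by linarith [hr.2]⟩ p)
    (((dyn_int hμ _).const_mul _).add (dyn_int hμ _))
    (Filter.Eventually.of_forall fun p r hr => by
      have hr0 : 0 < r := by linarith [hr.1]
      have h1 : HasDerivAt (fun r : ℝ => (Δ - r, p.1 + √r * p.2)) (-1, 1 / (2 * √r) * p.2) r :=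
        ((hasDerivAt_id r).const_sub Δ).prodMk
          (((hasDerivAt_sqrt hr0.ne').mul_const p.2).const_add p.1)
      have h2 := ((hd (Δ - r) (by linarith [hr.2]) (p.1 + √r * p.2)).1.comp_hasDerivAt r
        h1).mul_const (w p.1)
      refine HasDerivAt.congr_deriv h2 ?_
      simp only [lin2_apply]
      ring)
  refine key.2.congr_deriv ?_
  have i1 := dyn_integrable hμ hGt hw hw' hτ hs1
  have i2 := dyn_integrable hμ hGxx hw hw' hτ hs1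
  have i3 : Integrable (fun p : ℝ × ℝ =>
      Gx (Δ - s) (p.1 + √s * p.2) * w p.1 * (p.2 / (2 * √s))) (μ.prod γ₁) :=
    ((dyn_int hμ (Cx + 1)).const_mul _).mono'
      ((dyn_cont hGx hw' _ _).mul (by fun_prop)).aestronglyMeasurable
      (Filter.Eventually.of_forall fun p => hgx s ⟨by linarith, hs.2⟩ p)
  have e : ∫ p : ℝ × ℝ, Gx (Δ - s) (p.1 + √s * p.2) * w p.1 * (p.2 / (2 * √s)) ∂μ.prod γ₁ =
      ∫ p : ℝ × ℝ, (1 / 2) * (Gxx (Δ - s) (p.1 + √s * p.2) * w p.1) ∂μ.prod γ₁ := by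
    rw [integral_prod _ i3, integral_prod _ (i2.const_mul _)]
    refine integral_congr_ae (Filter.Eventually.of_forall fun y => ?_)
    have h1 := gauss_ibp_comp (fun x => (hd (Δ - s) (by linarith [hs.2]) x).2) (hGx.eg hτ)
      (hGxx.eg hτ) y (√s)
    have hq : √s ≠ 0 := (sqrt_pos.2 hs0).ne'
    calc ∫ g, Gx (Δ - s) (y + √s * g) * w y * (g / (2 * √s)) ∂γ₁
        = ∫ g, (w y / (2 * √s)) * (g * Gx (Δ - s) (y + √s * g)) ∂γ₁ := by
          congr 1; funext g; ring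
      _ = (w y / 2) * ∫ g, Gxx (Δ - s) (y + √s * g) ∂γ₁ := by
          rw [integral_const_mul, h1]; field_simp
      _ = ∫ g, 1 / 2 * (Gxx (Δ - s) (y + √s * g) * w y) ∂γ₁ := by
          rw [← integral_const_mul]; congr 1; funext g; ring
  rw [integral_sub i3 i1, e, ← integral_sub (i2.const_mul _) i1]
  congr 1; funext p; ring

theorem continuousOn_law (hμ : EM μ) (h : Nice φ) (hc : 0 < c) (hΔ : Δ ≤ 1) (hψ : CG ψ) :
    ContinuousOn (fun s => ∫ x, ψ (Δ - s) x ∂law μ φ c Δ s) (Icc 0 Δ) := by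
  have hG := hψ.mul (cg_Ek h c 0)
  obtain ⟨C, -, hC⟩ := dyn_bound hG (dyn_eg_w (Δ := Δ) h hc)
  have key : ContinuousOn (fun s => ∫ p : ℝ × ℝ, (ψ (Δ - s) (p.1 + √s * p.2) *
      Ek c φ 0 (Δ - s) (p.1 + √s * p.2)) * dynW c Δ φ p.1 ∂μ.prod γ₁) (Icc 0 Δ) := by
    refine continuousOn_of_dominated
      (bound := fun p : ℝ × ℝ => exp (C * (1 + |p.1|)) * exp (C * (1 + |p.2|))) (fun s _ => ?_)
      (fun s hs => Filter.Eventually.of_forall fun p => ?_) (dyn_int hμ C)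
      (Filter.Eventually.of_forall fun p => ?_)
    · exact (dyn_cont hG (dyn_cont_w h hc) (Δ - s) s).aestronglyMeasurable
    · exact hC (Δ - s) ⟨by linarith [hs.2], by linarith [hs.1]⟩ s ⟨hs.1, hs.2.trans hΔ⟩ p
    · refine (Continuous.mul ?_ continuous_const).continuousOn
      exact hG.1.comp (f := fun s : ℝ => (Δ - s, p.1 + √s * p.2)) (by fun_prop)
  exact key.congr fun s _ => dyn_rep hμ h hc Δ s (hψ.cont _).measurable

theorem hasDerivAt_law (hμ : EM μ) (h : Nice φ) (hc : 0 < c) (hΔ : Δ ≤ 1) (hG : Gen c φ ψ ψx χ)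
    (hs : s ∈ Ioo 0 Δ) :
    HasDerivAt (fun s => ∫ x, ψ (Δ - s) x ∂law μ φ c Δ s) (∫ x, χ (Δ - s) x ∂law μ φ c Δ s) s := by
  obtain ⟨ψxx, hxx, hd⟩ := hG.ex
  have hE := cg_Ek h c
  have hU := cg_U h hc
  have key := dyn_deriv hμ hΔ (G := fun τ x => ψ τ x * Ek c φ 0 τ x)
    (Gt := fun τ x => (c * U c φ τ x * ψx τ x + (1 / 2) * ψxx τ x - χ τ x) * Ek c φ 0 τ x +
      (1 / 2) * (ψ τ x * Ek c φ 2 τ x))
    (Gx := fun τ x => ψx τ x * Ek c φ 0 τ x + ψ τ x * Ek c φ 1 τ x)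
    (Gxx := fun τ x => ψxx τ x * Ek c φ 0 τ x + 2 * (ψx τ x * Ek c φ 1 τ x) + ψ τ x * Ek c φ 2 τ x)
    (hG.cg.mul (hE 0))
    ((((((hU.const_mul c).mul hG.cgx).add (hxx.const_mul _)).sub hG.cgχ).mul (hE 0)).add
      ((hG.cg.mul (hE 2)).const_mul _))
    ((hG.cgx.mul (hE 0)).add (hG.cg.mul (hE 1)))
    (((hxx.mul (hE 0)).add ((hG.cgx.mul (hE 1)).const_mul 2)).add (hG.cg.mul (hE 2)))
    (dyn_eg_w (Δ := Δ) h hc) (dyn_cont_w h hc) (fun τ hτ x => ?_) hs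
  · have e1 : (fun s => ∫ x, ψ (Δ - s) x ∂law μ φ c Δ s) = _ :=
      funext fun s => dyn_rep hμ h hc Δ s (hG.cg.cont _).measurable
    rw [e1, dyn_rep hμ h hc Δ s (hG.cgχ.cont _).measurable]
    refine key.congr_deriv ?_
    congr 1; funext p
    have hp := (Ek_zero_pos h c (Δ - s) (p.1 + √s * p.2)).ne'
    rw [U_eq h hc, mk]
    field_simp
    ring
  · obtain ⟨h1, h2⟩ := hd τ hτ x
    have h3 : HasDerivAt (ψ τ) (ψx τ x) x := by
      have := h1.comp_hasDerivAt x ((hasDerivAt_const x τ).prodMk (hasDerivAt_id x))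
      refine HasDerivAt.congr_deriv this ?_
      simp
    refine ⟨?_, ?_⟩
    · refine (h1.mul (hasFDerivAt_Ek h c 0 hτ x)).congr_fderiv ?_
      ext <;> simp <;> ring
    · refine ((h2.mul (hasDerivAt_Ek h c 0 τ x)).add
        (h3.mul (hasDerivAt_Ek h c 1 τ x))).congr_deriv ?_
      ring

theorem ftc_law (hμ : EM μ) (h : Nice φ) (hc : 0 < c) (hΔ : Δ ≤ 1) (hG : Gen c φ ψ ψx χ) :
    FTC 0 Δ (fun s => ∫ x, ψ (Δ - s) x ∂law μ φ c Δ s)
      (fun s => ∫ x, χ (Δ - s) x ∂law μ φ c Δ s) := by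
  exact FTC.of_hasDerivAt (continuousOn_law hμ h hc hΔ hG.cg) (continuousOn_law hμ h hc hΔ hG.cgχ)
    fun _ hs => hasDerivAt_law hμ h hc hΔ hG hs

end Crest.Agent.R339.P
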