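import Crest.Agent.R339.P.Chain
import Crest.Agent.R339.P.Dyn
import Crest.Agent.R339.P.Ftc

/-! Row 339, part P: the global functions of time. -/

set_option autoImplicit false

noncomputable section

namespace Crest.Agent.R339.P

open MeasureTheory ProbabilityTheory Real Set Function


variable {b : ℝ} {K : ℕ} {c : ℕ → ℝ}

theorem glob_sub (h : Par b K c) {l : ℕ} (hl : l < K) {t : ℝ}
    (ht : t ∈ Icc (l / K : ℝ) ((l + 1) / K)) : t ∈ Icc (0 : ℝ) 1 := by
  have hK : (0 : ℝ) < K := by exact_mod_cast h.hK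
  have h1 : ((l : ℝ) + 1) ≤ K := by exact_mod_cast hl
  exact ⟨le_trans (by positivity) ht.1, ht.2.trans ((div_le_one hK).2 h1)⟩

theorem glob_cT {l : ℕ} (c : ℕ → ℝ) (hl : l < K) {t : ℝ}
    (ht : t ∈ Ico (l / K : ℝ) ((l + 1) / K)) : cT K c t = c l := by
  unfold cT
  rw [idx_eq hl ht]

theorem glob_int (h : Par b K c) {t : ℝ} (ht : t ∈ Icc (0 : ℝ) 1) {f : ℝ → ℝ} (hf : EG f)
    (hc : Continuous f) : Integrable f (muT b K c t) :=
  (em_muT h ht).integrable hf hc.measurable

theorem glob_bs (h : Par b K c) {t : ℝ} (ht : t ∈ Icc (0 : ℝ) 1) {f : ℝ → ℝ} (hf : BS 0 f) :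
    Integrable f (muT b K c t) := glob_int h ht hf.eg hf.cont

theorem glob_pow {f : ℝ → ℝ} (hf : BS 0 f) (n : ℕ) : BS 0 fun x => f x ^ n := by
  induction n with
  | zero => simpa using BS.const 0 1
  | succ n ih => simpa only [pow_succ] using ih.mul hf

theorem glob_nice (h : Par b K c) (t : ℝ) : Nice (PhT b K c t) := (adm_PhT h t).toNice

theorem glob_xu (h : Par b K c) {t : ℝ} (ht : t ∈ Icc (0 : ℝ) 1) :
    Integrable (fun x => x * deriv (PhT b K c t) x) (muT b K c t) :=
  glob_int h ht (EG.id.mul ((glob_nice h t).bs 0).eg)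
    (continuous_id.mul ((glob_nice h t).bs 0).cont)

theorem glob_xx (h : Par b K c) {t : ℝ} (ht : t ∈ Icc (0 : ℝ) 1) :
    Integrable (fun x : ℝ => x ^ 2) (muT b K c t) :=
  glob_int h ht (by simpa only [pow_two] using EG.id.mul EG.id) (continuous_id.pow 2)

theorem glob_le (h : Par b K c) {t : ℝ} (ht : t ∈ Icc (0 : ℝ) 1) {f : ℝ → ℝ} (hf : BS 0 f)
    {C : ℝ} (hC : ∀ x, f x ≤ C) : ∫ x, f x ∂muT b K c t ≤ C := by
  haveI := (em_muT h ht).prob
  calc ∫ x, f x ∂muT b K c t ≤ ∫ _, C ∂muT b K c t :=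
        integral_mono (glob_bs h ht hf) (integrable_const C) hC
    _ = C := by simp

theorem glob_one (h : Par b K c) : ((K : ℝ) / K) = 1 :=
  div_self (by exact_mod_cast h.hK.ne')

theorem glob_PhT_one (h : Par b K c) : PhT b K c 1 = Fb b := by
  rw [← glob_one h, PhT_grid h le_rfl, Ph_last]

theorem glob_muT_zero (h : Par b K c) : muT b K c 0 = Measure.dirac 0 := by
  have := muT_grid h (Nat.zero_le K)
  simpa [mu] using this

/-- Dynkin formula in one cell, in global time (`ftc_law`, `FTC.shift`, `PhT_cell`, `muT_cell`) -/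
theorem ftc_cell (h : Par b K c) {l : ℕ} (hl : l < K) {H X : (ℝ → ℝ) → ℝ → ℝ} {ψx : ℝ → ℝ → ℝ}
    (hG : Gen (c l) (Ph b K c (l + 1)) (fun τ => H (chStep (c l) τ (Ph b K c (l + 1)))) ψx
      (fun τ => X (chStep (c l) τ (Ph b K c (l + 1))))) :
    FTC (l / K : ℝ) ((l + 1) / K) (ET b K c H) (ET b K c X) := by
  have h1 := (ftc_law (em_mu h l) (adm_Ph h (l + 1)).toNice (h.pos l) h.delta_mem.2 hG).shift
    (l / K : ℝ)
  rw [← add_div] at h1
  refine h1.congr (fun t ht => ?_) (fun t ht => ?_)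
  · unfold ET
    rw [PhT_cell h hl ht, muT_cell h hl ht]
    rfl
  · unfold ET
    rw [PhT_cell h hl (Ico_subset_Icc_self ht), muT_cell h hl (Ico_subset_Icc_self ht)]
    rfl

theorem ftc_e (h : Par b K c) : FTC 0 1 (eT b K c) (gT b K c) := by
  refine FTC.glue h.hK fun l hl => ?_
  have hn := (adm_Ph h (l + 1)).toNice
  exact ftc_cell h hl (((gen_U hn (h.pos l)).mul (gen_U hn (h.pos l))).congr
    (fun τ x => (pow_two _).symm) (fun τ x => rfl) (fun τ x => by ring))

theorem ftc_g (h : Par b K c) :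
    FTC 0 1 (gT b K c) (fun t => hT b K c t - 2 * cT K c t * kT b K c t) := by
  refine FTC.glue h.hK fun l hl => ?_
  have hn := (adm_Ph h (l + 1)).toNice
  have h1 := ftc_cell h hl (H := fun φ x => d2 φ x ^ 2)
    (X := fun φ x => d3 φ x ^ 2 - 2 * c l * d2 φ x ^ 3)
    (((gen_V hn (h.pos l)).mul (gen_V hn (h.pos l))).congr
      (fun τ x => (pow_two _).symm) (fun τ x => rfl) (fun τ x => by ring))
  refine h1.congr (fun t _ => rfl) (fun t ht => ?_)
  have ht' := glob_sub h hl (Ico_subset_Icc_self ht)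
  have hp := glob_nice h t
  rw [glob_cT c hl ht]
  unfold hT kT ET
  rw [integral_sub (glob_bs h ht' (glob_pow (hp.bs3 0) 2))
    ((glob_bs h ht' (glob_pow (hp.bs2 0) 3)).const_mul _), integral_const_mul]

theorem ftc_a (h : Par b K c) : FTC 0 1 (aT b K c) (fun t => -(cT K c t * gT b K c t)) := by
  refine FTC.glue h.hK fun l hl => ?_
  have hn := (adm_Ph h (l + 1)).toNice
  have h1 := ftc_cell h hl (H := fun φ x => d2 φ x) (X := fun φ x => -(c l * d2 φ x ^ 2))
    (gen_V hn (h.pos l))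
  refine h1.congr (fun t _ => rfl) (fun t ht => ?_)
  rw [glob_cT c hl ht]
  unfold gT ET
  rw [integral_neg, integral_const_mul]

theorem ftc_Phi (h : Par b K c) :
    FTC 0 1 (ET b K c fun φ x => φ x) (fun t => cT K c t / 2 * eT b K c t) := by
  refine FTC.glue h.hK fun l hl => ?_
  have hn := (adm_Ph h (l + 1)).toNice
  have h1 := ftc_cell h hl (H := fun φ x => φ x) (X := fun φ x => c l / 2 * deriv φ x ^ 2)
    (gen_PH hn (h.pos l))
  refine h1.congr (fun t _ => rfl) (fun t ht => ?_)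
  rw [glob_cT c hl ht]
  unfold eT ET
  rw [integral_const_mul]

theorem ftc_energy (h : Par b K c) :
    FTC 0 1 (ET b K c fun φ x => x * deriv φ x - φ x)
      (fun t => aT b K c t + cT K c t / 2 * eT b K c t) := by
  refine FTC.glue h.hK fun l hl => ?_
  have hn := (adm_Ph h (l + 1)).toNice
  have h1 := ftc_cell h hl (H := fun φ x => x * deriv φ x - φ x)
    (X := fun φ x => d2 φ x + c l / 2 * deriv φ x ^ 2)
    ((((gen_id hn (h.pos l)).mul (gen_U hn (h.pos l))).add
      ((gen_PH hn (h.pos l)).const_mul (-1))).congr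
      (fun τ x => by ring) (fun τ x => rfl) (fun τ x => by ring))
  refine h1.congr (fun t _ => rfl) (fun t ht => ?_)
  have ht' := glob_sub h hl (Ico_subset_Icc_self ht)
  have hp := glob_nice h t
  rw [glob_cT c hl ht]
  unfold aT eT ET
  rw [integral_add (glob_bs h ht' (hp.bs2 0))
    ((glob_bs h ht' (glob_pow (hp.bs 0) 2)).const_mul _), integral_const_mul]

theorem ftc_sq (h : Par b K c) :
    FTC 0 1 (ET b K c fun _ x => x ^ 2)
      (fun t => 1 + 2 * cT K c t * ET b K c (fun φ x => x * deriv φ x) t) := by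
  refine FTC.glue h.hK fun l hl => ?_
  have hn := (adm_Ph h (l + 1)).toNice
  have h1 := ftc_cell h hl (H := fun _ x => x ^ 2)
    (X := fun φ x => 1 + 2 * c l * (x * deriv φ x))
    (((gen_id hn (h.pos l)).mul (gen_id hn (h.pos l))).congr
      (fun τ x => (pow_two _).symm) (fun τ x => rfl) (fun τ x => by ring))
  refine h1.congr (fun t _ => rfl) (fun t ht => ?_)
  have ht' := glob_sub h hl (Ico_subset_Icc_self ht)
  haveI := (em_muT h ht').prob
  rw [glob_cT c hl ht]
  unfold ET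
  rw [integral_add (integrable_const _) ((glob_xu h ht').const_mul _), integral_const_mul]
  simp

/-- `L (w² - 2 c v³) = z² - 12 c v w² + 6 c² v⁴` -/
theorem mono_cell (hGap : GapStmt) (h : Par b K c) {l : ℕ} (hl : l < K) :
    MonotoneOn (fun t => hT b K c t - 2 * c l * kT b K c t) (Icc (l / K : ℝ) ((l + 1) / K)) := by
  have hn := (adm_Ph h (l + 1)).toNice
  have hV := gen_V hn (h.pos l)
  have hW := gen_W hn (h.pos l)
  have h1 := ftc_cell h hl (H := fun φ x => d3 φ x ^ 2 - 2 * c l * d2 φ x ^ 3)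
    (X := fun φ x => d4 φ x ^ 2 - 12 * c l * d2 φ x * d3 φ x ^ 2 + 6 * c l ^ 2 * d2 φ x ^ 4)
    (((hW.mul hW).add (((hV.mul hV).mul hV).const_mul (-(2 * c l)))).congr
      (fun τ x => by ring) (fun τ x => rfl) (fun τ x => by ring))
  have h2 : FTC (l / K : ℝ) ((l + 1) / K) (fun t => hT b K c t - 2 * c l * kT b K c t)
      (ET b K c fun φ x =>
        d4 φ x ^ 2 - 12 * c l * d2 φ x * d3 φ x ^ 2 + 6 * c l ^ 2 * d2 φ x ^ 4) := by
    refine h1.congr (fun t ht => ?_) (fun t _ => rfl)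
    have ht' := glob_sub h hl ht
    have hp := glob_nice h t
    unfold hT kT ET
    rw [integral_sub (glob_bs h ht' (glob_pow (hp.bs3 0) 2))
      ((glob_bs h ht' (glob_pow (hp.bs2 0) 3)).const_mul _), integral_const_mul]
  refine h2.monotoneOn fun r hr => ?_
  have h3 := hGap b K c h l hl (r - l / K) ⟨by linarith [hr.1], by
    have := hr.2
    rw [add_div] at this
    linarith⟩
  unfold ET
  rw [PhT_cell h hl (Ioo_subset_Icc_self hr), muT_cell h hl (Ioo_subset_Icc_self hr)]
  exact h3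

theorem eT_zero (h : Par b K c) : eT b K c 0 = 0 := by
  unfold eT ET
  rw [glob_muT_zero h, integral_dirac]
  simp [(adm_PhT h 0).deriv_zero]

theorem eT_grid (h : Par b K c) {l : ℕ} (hl : l ≤ K) : eT b K c (l / K) = eG b K c l := by
  unfold eT ET eG
  rw [PhT_grid h hl, muT_grid h hl]

theorem aT_grid (h : Par b K c) {l : ℕ} (hl : l ≤ K) : aT b K c (l / K) = aG b K c l := by
  unfold aT ET aG
  rw [PhT_grid h hl, muT_grid h hl]

theorem gT_pos (h : Par b K c) {t : ℝ} (ht : t ∈ Icc (0 : ℝ) 1) : 0 < gT b K c t := by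
  haveI := (em_muT h ht).prob
  unfold gT ET
  have hp := adm_PhT h t
  rw [integral_pos_iff_support_of_nonneg (fun x => sq_nonneg _)
    (glob_bs h ht (glob_pow (hp.toNice.bs2 0) 2))]
  have e : (support fun x => d2 (PhT b K c t) x ^ 2) = univ :=
    eq_univ_of_forall fun x => (pow_pos (hp.pos x) 2).ne'
  rw [e]
  simp

theorem gT_le (h : Par b K c) {t : ℝ} (ht : t ∈ Icc (0 : ℝ) 1) : gT b K c t ≤ b ^ 2 := by
  have hp := adm_PhT h t
  exact glob_le h ht (glob_pow (hp.toNice.bs2 0) 2)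
    fun x => pow_le_pow_left₀ (hp.pos x).le (hp.d2_le x) 2

theorem aT_mem (h : Par b K c) {t : ℝ} (ht : t ∈ Icc (0 : ℝ) 1) : aT b K c t ∈ Icc 0 b := by
  have hp := adm_PhT h t
  exact ⟨integral_nonneg fun x => (hp.pos x).le, glob_le h ht (hp.toNice.bs2 0) hp.d2_le⟩

theorem kT_mem (h : Par b K c) {t : ℝ} (ht : t ∈ Icc (0 : ℝ) 1) : kT b K c t ∈ Icc 0 (b ^ 3) := by
  have hp := adm_PhT h t
  exact ⟨integral_nonneg fun x => (pow_pos (hp.pos x) 3).le,
    glob_le h ht (glob_pow (hp.toNice.bs2 0) 3)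
      fun x => pow_le_pow_left₀ (hp.pos x).le (hp.d2_le x) 3⟩

theorem hT_nonneg (b : ℝ) (K : ℕ) (c : ℕ → ℝ) (t : ℝ) : 0 ≤ hT b K c t := by
  exact integral_nonneg fun x => sq_nonneg _

theorem hT_one_le (h : Par b K c) : hT b K c 1 ≤ 4 * b ^ 4 := by
  refine glob_le h ⟨zero_le_one, le_rfl⟩ (glob_pow ((glob_nice h 1).bs3 0) 2) fun x => ?_
  rw [glob_PhT_one h]
  exact d3_Fb_sq_le h.b_pos x

/-- `v ≤ (1 + v²) / 2` -/
theorem aT_le (h : Par b K c) {t : ℝ} (ht : t ∈ Icc (0 : ℝ) 1) :
    aT b K c t ≤ (1 + gT b K c t) / 2 := by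
  haveI := (em_muT h ht).prob
  have hp := glob_nice h t
  have h2 := glob_bs h ht (glob_pow (hp.bs2 0) 2)
  unfold aT gT ET
  calc ∫ x, d2 (PhT b K c t) x ∂muT b K c t
      ≤ ∫ x, (1 + d2 (PhT b K c t) x ^ 2) / 2 ∂muT b K c t :=
        integral_mono (glob_bs h ht (hp.bs2 0)) (((integrable_const 1).add h2).div_const 2)
          fun x => by
            dsimp only
            nlinarith [sq_nonneg (d2 (PhT b K c t) x - 1)]
    _ = _ := by
        rw [integral_div, integral_add (integrable_const 1) h2]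
        simp

/-- `m = E x² + 2` has `m' ≤ 1 + b (1 + E x²) ≤ b m`, so `E X_1² ≤ 2 exp b`; `exists_sech_ge` with
`R = 4 exp b`. -/
theorem exists_kappa {b : ℝ} (hb : 1 ≤ b) :
    ∃ κ : ℝ, 0 < κ ∧ ∀ (K : ℕ) (c : ℕ → ℝ), Par b K c → eT b K c 1 ≤ 1 - κ := by
  have hb0 : 0 < b := by linarith
  obtain ⟨κ, hκ, hs⟩ := exists_sech_ge hb0 (R := 4 * exp b) (by positivity)
  refine ⟨κ / 2, by positivity, fun K c h => ?_⟩
  have h2 : FTC 0 1 (fun t => ET b K c (fun _ x => x ^ 2) t + 2)
      (fun t => 1 + 2 * cT K c t * ET b K c (fun φ x => x * deriv φ x) t) := by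
    intro s hs t ht
    obtain ⟨a1, a2⟩ := ftc_sq h s hs t ht
    exact ⟨a1, by rw [← a2]; ring⟩
  have h3 := h2.gronwall hb0.le fun r hr => by
    haveI := (em_muT h hr).prob
    have hp := glob_nice h r
    have a1 : 2 * ET b K c (fun φ x => x * deriv φ x) r ≤ 1 + ET b K c (fun _ x => x ^ 2) r := by
      unfold ET
      calc 2 * ∫ x, x * deriv (PhT b K c r) x ∂muT b K c r
          = ∫ x, 2 * (x * deriv (PhT b K c r) x) ∂muT b K c r := (integral_const_mul _ _).symm
        _ ≤ ∫ x, 1 + x ^ 2 ∂muT b K c r :=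
            integral_mono ((glob_xu h hr).const_mul _) ((integrable_const 1).add (glob_xx h hr))
              fun x => by
                dsimp only
                have := sq_le_one_iff_abs_le_one (deriv (PhT b K c r) x) |>.2 (hp.lip x)
                nlinarith [sq_nonneg (x - deriv (PhT b K c r) x)]
        _ = _ := by
            rw [integral_add (integrable_const 1) (glob_xx h hr)]
            simp
    have a2 : 0 ≤ ET b K c (fun _ x => x ^ 2) r := integral_nonneg fun x => sq_nonneg _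
    have a3 : 0 < cT K c r := h.pos _
    have a4 : cT K c r ≤ b := h.le _
    have a5 := mul_le_mul_of_nonneg_left a1 a3.le
    have a6 : cT K c r * (1 + ET b K c (fun _ x => x ^ 2) r) ≤
        b * (1 + ET b K c (fun _ x => x ^ 2) r) := mul_le_mul_of_nonneg_right a4 (by linarith)
    linarith
  have h4 : ET b K c (fun _ x => x ^ 2) 0 = 0 := by
    unfold ET
    rw [glob_muT_zero h, integral_dirac]
    simp
  rw [h4, zero_add] at h3
  have h01 : (1 : ℝ) ∈ Icc (0 : ℝ) 1 := ⟨zero_le_one, le_rfl⟩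
  haveI := (em_muT h h01).prob
  have hp := glob_nice h 1
  have hu := glob_bs h h01 (glob_pow (hp.bs 0) 2)
  have h5 : κ * (1 - ET b K c (fun _ x => x ^ 2) 1 / (4 * exp b)) ≤ 1 - eT b K c 1 := by
    unfold eT ET
    calc κ * (1 - (∫ x, x ^ 2 ∂muT b K c 1) / (4 * exp b))
        = ∫ x, κ * (1 - x ^ 2 / (4 * exp b)) ∂muT b K c 1 := by
          rw [integral_const_mul, integral_sub (integrable_const 1) ((glob_xx h h01).div_const _),
            integral_div]
          simp
      _ ≤ ∫ x, 1 - deriv (PhT b K c 1) x ^ 2 ∂muT b K c 1 :=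
          integral_mono (((integrable_const 1).sub ((glob_xx h h01).div_const _)).const_mul κ)
            ((integrable_const 1).sub hu) fun x => by
              dsimp only
              rw [glob_PhT_one h]
              exact hs x
      _ = _ := by
          rw [integral_sub (integrable_const 1) hu]
          simp
  have h6 : ET b K c (fun _ x => x ^ 2) 1 / (4 * exp b) ≤ 1 / 2 := by
    rw [div_le_iff₀ (by positivity)]
    linarith
  nlinarith

end Crest.Agent.R339.P
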