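import Crest.Agent.R339.P.VarA
import Crest.Agent.R339.P.Glob

/-! Row 339, part P: first variation, minimiser, KKT conditions. -/

set_option autoImplicit false

noncomputable section

namespace Crest.Agent.R339.P

open MeasureTheory ProbabilityTheory Real Set Function


variable {b : ℝ} {K : ℕ} {c c' : ℕ → ℝ}

theorem var_Phi_congr (F : ℝ → ℝ) (Δ : ℝ) (r l : ℕ) (h : ∀ j, l ≤ j → c' j = c j) :
    Phi F Δ c' r l = Phi F Δ c r l := by
  induction r generalizing l with
  | zero => rfl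
  | succ r ih => rw [Phi, Phi, h l le_rfl, ih (l + 1) fun j hj => h j (by omega)]

theorem var_mono (h : Monotone c) {l : ℕ} {v : ℝ} (h1 : ∀ j < l, c j ≤ v)
    (h2 : ∀ j, l < j → v ≤ c j) : Monotone (update c l v) := by
  intro i j hij
  by_cases hi : i = l
  · by_cases hj : j = l
    · rw [hi, hj]
    · rw [hi, update_self, update_of_ne hj]
      exact h2 j (by omega)
  · by_cases hj : j = l
    · rw [hj, update_self, update_of_ne hi]
      exact h1 i (by omega)
    · rw [update_of_ne hi, update_of_ne hj]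
      exact h hij

/-- downward induction with `abs_chStep_sub_chStep_le` and `exists_var_const` -/
theorem exists_lip {c₀ b : ℝ} (hc₀ : 0 < c₀) : ∃ C : ℝ, 0 ≤ C ∧
    ∀ (K : ℕ) (c c' : ℕ → ℝ), Par b K c → Par b K c' → (∀ l, c₀ ≤ c l) → (∀ l, c₀ ≤ c' l) →
      ∀ l x, |Ph b K c' l x - Ph b K c l x| ≤ C * ∑ j ∈ Finset.Ico l K, |c' j - c j| := by
  obtain ⟨C, hC, H⟩ := exists_var_const (b := b) hc₀
  refine ⟨C, hC, fun K c c' h h' h0 h0' l => ?_⟩
  have key : ∀ r l, l + r = K → ∀ x, |Ph b K c' l x - Ph b K c l x| ≤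
      C * ∑ j ∈ Finset.Ico l K, |c' j - c j| := by
    intro r
    induction r with
    | zero =>
      intro l hl x
      have e : l = K := by omega
      subst e
      simp [Ph_last]
    | succ r ih =>
      intro l hl x
      have hlK : l < K := by omega
      have a1 := (H (Ph b K c' (l + 1)) (c l) (c' l) (1 / K) x (adm_Ph h' _).toNice
        ⟨h0 l, h.le l⟩ ⟨h0' l, h'.le l⟩ h.delta_mem).1
      have a2 := abs_chStep_sub_chStep_le (adm_Ph h (l + 1)).toNice (adm_Ph h' (l + 1)).toNice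
        (h.pos l) (1 / K) (ih (l + 1) (by omega)) x
      rw [Ph_succ b c hlK, Ph_succ b c' hlK, Finset.sum_eq_sum_Ico_succ_bot hlK, mul_add]
      exact (abs_sub_le _ _ _).trans (add_le_add a1 a2)
  rcases le_total l K with hl | hl
  · exact key (K - l) l (by omega)
  · intro x
    simp [Ph, Nat.sub_eq_zero_of_le hl, Phi, Finset.Ico_eq_empty_of_le hl]

/-- If `c, c'` agree below `l` then with `δ j = Ph c' j - Ph c j`, `|δ j| ≤ η` for `j ≤ l` and
`∫ δ j dmu j ≤ ∫ δ (j+1) dmu (j+1) + b η²` (`chStep_sub_le`, `integral_mu_succ`). -/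
theorem Ph_zero_sub_le (h : Par b K c) (h' : Par b K c') {l : ℕ} (hl : l ≤ K)
    (he : ∀ j < l, c' j = c j) {η : ℝ} (hη : ∀ x, |Ph b K c' l x - Ph b K c l x| ≤ η)
    (hbη : b * η ≤ 1) :
    Ph b K c' 0 0 - Ph b K c 0 0 ≤
      ∫ x, (Ph b K c' l x - Ph b K c l x) ∂mu b K c l + l * (b * η ^ 2) := by
  induction l with
  | zero => simp [mu]
  | succ l ih =>
    have hlK : l < K := by omega
    have n := (adm_Ph h (l + 1)).toNice
    have n' := (adm_Ph h' (l + 1)).toNice
    have h0 : 0 ≤ η := (abs_nonneg _).trans (hη 0)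
    have e' : Ph b K c' l = chStep (c l) (1 / K) (Ph b K c' (l + 1)) := by
      rw [Ph_succ b c' hlK, he l (Nat.lt_succ_self l)]
    have a1 := ih hlK.le (fun j hj => he j (by omega)) (fun x => by
      rw [e', Ph_succ b c hlK]
      exact abs_chStep_sub_chStep_le n n' (h.pos l) _ hη x)
    have hcη : c l * η ≤ 1 := (mul_le_mul_of_nonneg_right (h.le l) h0).trans hbη
    have := (em_mu h l).prob
    have eg := n'.eg.sub n.eg
    have ct : Continuous fun x => Ph b K c' (l + 1) x - Ph b K c (l + 1) x := n'.cont.sub n.cont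
    have i1 := (em_mu h l).integrable (eg_TE n (h.pos l) h.delta_mem eg)
      (continuous_TE n (h.pos l) (1 / K) eg ct).measurable
    have i2 := (em_mu h l).integrable ((adm_Ph h' l).toNice.eg.sub (adm_Ph h l).toNice.eg)
      ((adm_Ph h' l).toNice.cont.sub (adm_Ph h l).toNice.cont).measurable
    have a2 := integral_mono i2 (i1.add (integrable_const (b * η ^ 2))) (fun x => by
      have := chStep_sub_le n n' (h.pos l) (1 / K) hη hcη x
      rw [← e', ← Ph_succ b c hlK] at this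
      have h3 := mul_le_mul_of_nonneg_right (h.le l) (sq_nonneg η)
      simp only [Pi.add_apply]
      linarith)
    rw [integral_add' i1 (integrable_const _), ← integral_mu_succ h l eg ct.measurable,
      integral_const, probReal_univ, one_smul] at a2
    push_cast
    linarith

/-- `ftc_Phi` on the cell `l`, `integral_mu_succ` -/
theorem integral_entropy (h : Par b K c) {l : ℕ} (hl : l < K) :
    ∫ x, (c l)⁻¹ * (TE (c l) (1 / K) (Ph b K c (l + 1)) (Ph b K c (l + 1)) x - Ph b K c l x)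
      ∂mu b K c l = AG b K c l + (2 * l + 1) / (4 * (K : ℝ) ^ 2) := by
  have hK : (0 : ℝ) < K := by exact_mod_cast h.hK
  have hA : (0 : ℝ) ≤ l / K := by positivity
  have hB : ((l : ℝ) + 1) / K ≤ 1 := by
    rw [div_le_one hK]
    exact_mod_cast hl
  have hAB : (l : ℝ) / K ≤ (l + 1) / K := by gcongr; linarith
  have f1 : FTC (l / K : ℝ) ((l + 1) / K) (ET b K c fun φ x => φ x)
      (fun t => c l / 2 * eT b K c t) :=
    ((ftc_Phi h).mono hA hB).congr (fun _ _ => rfl) (fun t ht => by rw [cT, idx_eq hl ht])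
  have f2 := (f1 _ ⟨le_rfl, hAB⟩ _ ⟨hAB, le_rfl⟩).2
  have i0 : IntervalIntegrable (eT b K c) volume (l / K : ℝ) ((l + 1) / K) :=
    ((ftc_e h).mono hA hB).continuousOn.intervalIntegrable_of_Icc hAB
  have n := (adm_Ph h (l + 1)).toNice
  have e1 : ET b K c (fun φ x => φ x) ((l + 1) / K) =
      ∫ x, TE (c l) (1 / K) (Ph b K c (l + 1)) (Ph b K c (l + 1)) x ∂mu b K c l := by
    have a1 := PhT_grid h (l := l + 1) hl
    have a2 := muT_grid h (l := l + 1) hl
    push_cast at a1 a2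
    rw [ET, a1, a2, integral_mu_succ h l n.eg n.cont.measurable]
  have e0 : ET b K c (fun φ x => φ x) (l / K) = ∫ x, Ph b K c l x ∂mu b K c l := by
    rw [ET, PhT_grid h hl.le, muT_grid h hl.le]
  have i1 := (em_mu h l).integrable (eg_TE n (h.pos l) h.delta_mem n.eg)
    (continuous_TE n (h.pos l) (1 / K) n.eg n.cont).measurable
  have i2 := (em_mu h l).integrable (adm_Ph h l).toNice.eg (adm_Ph h l).toNice.cont.measurable
  rw [integral_const_mul, integral_sub i1 i2, ← e1, ← e0, f2, intervalIntegral.integral_const_mul,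
    AG, intervalIntegral.integral_sub i0 intervalIntegral.intervalIntegrable_id, integral_id]
  have := (h.pos l).ne'
  field_simp
  ring

theorem parisi_update_le {c₀ : ℝ} (hc₀ : 0 < c₀) (h : Par b K c) (h0 : ∀ l, c₀ ≤ c l) {l : ℕ}
    (hl : l < K) : ∃ C ε₀ : ℝ, 0 < ε₀ ∧ ∀ ε, |ε| ≤ ε₀ → Par b K (update c l (c l + ε)) →
      c₀ ≤ c l + ε →
      parisi (Fb b) K (update c l (c l + ε)) ≤ parisi (Fb b) K c + ε * AG b K c l + C * ε ^ 2 := by
  obtain ⟨C, hC, H⟩ := exists_var_const (b := b) hc₀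
  have hb := h.b_pos
  refine ⟨C + l * (b * C ^ 2), 1 / (b * C + 1), by positivity, fun ε hε h' hc' => ?_⟩
  have n := (adm_Ph h (l + 1)).toNice
  have e1 : Ph b K (update c l (c l + ε)) (l + 1) = Ph b K c (l + 1) :=
    var_Phi_congr _ _ _ _ fun j hj => update_of_ne (by omega) _ _
  have e2 : Ph b K (update c l (c l + ε)) l = chStep (c l + ε) (1 / K) (Ph b K c (l + 1)) := by
    rw [Ph_succ b _ hl, e1, update_self]
  have hle : c l + ε ≤ b := by simpa using h'.le l
  have H' := fun x => H (Ph b K c (l + 1)) (c l) (c l + ε) (1 / K) x n ⟨h0 l, h.le l⟩ ⟨hc', hle⟩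
    h.delta_mem
  simp only [add_sub_cancel_left, ← e2, ← Ph_succ b c hl] at H'
  have hη : b * (C * |ε|) ≤ 1 := by
    rw [le_div_iff₀ (by positivity)] at hε
    nlinarith [abs_nonneg ε]
  have a1 := Ph_zero_sub_le h h' hl.le (fun j hj => update_of_ne (by omega) _ _)
    (fun x => (H' x).1) hη
  have := (em_mu h l).prob
  have i1 := (em_mu h l).integrable (eg_TE n (h.pos l) h.delta_mem n.eg)
    (continuous_TE n (h.pos l) (1 / K) n.eg n.cont).measurable
  have i2 := (em_mu h l).integrable (adm_Ph h l).toNice.eg (adm_Ph h l).toNice.cont.measurable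
  have i3 := (em_mu h l).integrable (adm_Ph h' l).toNice.eg (adm_Ph h' l).toNice.cont.measurable
  have i4 : Integrable (fun x => ε * ((c l)⁻¹ * (TE (c l) (1 / K) (Ph b K c (l + 1))
      (Ph b K c (l + 1)) x - Ph b K c l x))) (mu b K c l) :=
    ((i1.sub i2).const_mul (c l)⁻¹).const_mul ε
  have a2 : ∫ x, (Ph b K (update c l (c l + ε)) l x - Ph b K c l x) ∂mu b K c l ≤
      ∫ x, (ε * ((c l)⁻¹ * (TE (c l) (1 / K) (Ph b K c (l + 1)) (Ph b K c (l + 1)) x -
        Ph b K c l x)) + C * ε ^ 2) ∂mu b K c l :=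
    integral_mono (i3.sub i2) (i4.add (integrable_const (C * ε ^ 2))) fun x => (H' x).2
  rw [integral_add i4 (integrable_const _), integral_const_mul, integral_entropy h hl,
    integral_const, probReal_univ, one_smul] at a2
  have e3 : ∑ j ∈ Finset.range K, update c l (c l + ε) j * (2 * j + 1) / (4 * (K : ℝ) ^ 2) =
      ∑ j ∈ Finset.range K, c j * (2 * j + 1) / (4 * (K : ℝ) ^ 2) +
        ε * ((2 * l + 1) / (4 * (K : ℝ) ^ 2)) := by
    have e4 : ε * ((2 * l + 1) / (4 * (K : ℝ) ^ 2)) = ∑ j ∈ Finset.range K,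
        if j = l then ε * ((2 * l + 1) / (4 * (K : ℝ) ^ 2)) else 0 := by
      rw [Finset.sum_ite_eq', if_pos (Finset.mem_range.2 hl)]
    rw [e4, ← Finset.sum_add_distrib]
    refine Finset.sum_congr rfl fun j _ => ?_
    by_cases hj : j = l
    · subst hj
      rw [update_self, if_pos rfl]
      ring
    · rw [update_of_ne hj, if_neg hj, add_zero]
  rw [parisi_eq, parisi_eq, e3]
  rw [mul_pow, sq_abs] at a1
  linarith

/-- the feasible set is a closed subset of `Set.pi univ fun _ => Icc c₀ b` (`isCompact_univ_pi`),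
`parisi` is continuous on it by `exists_lip` -/
theorem exists_min {c₀ : ℝ} (hb : 1 ≤ b) (hK : 0 < K) (hc₀ : 0 < c₀) (hcb : c₀ ≤ b) :
    ∃ c, (Par b K c ∧ (∀ l, c₀ ≤ c l) ∧ ∀ l, K ≤ l → c l = b) ∧
      ∀ c', Par b K c' ∧ (∀ l, c₀ ≤ c' l) ∧ (∀ l, K ≤ l → c' l = b) →
        parisi (Fb b) K c ≤ parisi (Fb b) K c' := by
  obtain ⟨C, hC, H⟩ := exists_lip (b := b) hc₀
  let S : Set (ℕ → ℝ) := {c | Par b K c ∧ (∀ l, c₀ ≤ c l) ∧ ∀ l, K ≤ l → c l = b}
  have hS : IsCompact S := by
    have e : S = (Set.pi univ fun _ => Icc c₀ b) ∩ ((⋂ i, ⋂ j, ⋂ _ : i ≤ j, {c | c i ≤ c j}) ∩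
        ⋂ l, ⋂ _ : K ≤ l, {c | c l = b}) := by
      ext c
      simp only [S, mem_setOf_eq, mem_inter_iff, mem_pi, mem_univ, forall_true_left, mem_Icc,
        mem_iInter]
      exact ⟨fun ⟨h1, h2, h3⟩ => ⟨fun l => ⟨h2 l, h1.le l⟩, fun i j hij => h1.mono hij, h3⟩,
        fun ⟨h1, h2, h3⟩ => ⟨⟨hb, hK, fun l => hc₀.trans_le (h1 l).1, fun i j hij => h2 i j hij,
          fun l => (h1 l).2⟩, fun l => (h1 l).1, h3⟩⟩
    rw [e]
    refine (isCompact_univ_pi fun _ => isCompact_Icc).inter_right (IsClosed.inter ?_ ?_)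
    · exact isClosed_iInter fun i => isClosed_iInter fun j => isClosed_iInter fun _ =>
        isClosed_le (continuous_apply i) (continuous_apply j)
    · exact isClosed_iInter fun l => isClosed_iInter fun _ =>
        isClosed_eq (continuous_apply l) continuous_const
  have hne : S.Nonempty := ⟨fun _ => b, ⟨hb, hK, fun _ => by linarith, monotone_const,
    fun _ => le_rfl⟩, fun _ => hcb, fun _ _ => rfl⟩
  have c1 : ContinuousOn (fun c => Ph b K c 0 0) S := by
    intro c hc
    rw [ContinuousWithinAt, tendsto_iff_dist_tendsto_zero]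
    have c2 : Continuous fun c' : ℕ → ℝ => C * ∑ j ∈ Finset.Ico 0 K, |c' j - c j| := by fun_prop
    have t2 := (c2.tendsto c).mono_left (nhdsWithin_le_nhds (s := S))
    simp only [sub_self, abs_zero, Finset.sum_const_zero, mul_zero] at t2
    refine squeeze_zero' (Filter.Eventually.of_forall fun _ => dist_nonneg) ?_ t2
    filter_upwards [self_mem_nhdsWithin] with c' hc'
    exact H K c c' hc.1 hc'.1 hc.2.1 hc'.2.1 0 0
  have c3 : ContinuousOn (parisi (Fb b) K) S := by
    have e : parisi (Fb b) K = fun c => Ph b K c 0 0 -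
        ∑ l ∈ Finset.range K, c l * (2 * l + 1) / (4 * (K : ℝ) ^ 2) := funext (parisi_eq b K)
    rw [e]
    exact c1.sub (Continuous.continuousOn (by fun_prop))
  obtain ⟨c, hc, hmin⟩ := hS.exists_isMinOn hne c3
  exact ⟨c, hc, fun c' hc' => hmin hc'⟩

theorem exists_kkt {c₀ : ℝ} (hb : 1 ≤ b) (hK : 0 < K) (hc₀ : 0 < c₀) (hcb : c₀ ≤ b) :
    ∃ c, Par b K c ∧ (∀ l, c₀ ≤ c l) ∧ (∀ l, K ≤ l → c l = b) ∧ (c₀ < c 0 → AG b K c 0 ≤ 0) ∧
      ∀ l < K, c l < c (l + 1) → 0 ≤ AG b K c l ∧ (l + 1 < K → AG b K c (l + 1) ≤ 0) := by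
  obtain ⟨c, ⟨h, h0, h1⟩, hmin⟩ := exists_min hb hK hc₀ hcb
  have key : ∀ l < K, ∀ σ δ : ℝ, |σ| = 1 → 0 < δ → (∀ t, 0 < t → t ≤ δ →
      c₀ ≤ c l + σ * t ∧ (∀ j < l, c j ≤ c l + σ * t) ∧ ∀ j, l < j → c l + σ * t ≤ c j) →
      0 ≤ σ * AG b K c l := by
    intro l hl σ δ hσ hδ hf
    obtain ⟨C, ε₀, hε₀, H⟩ := parisi_update_le hc₀ h h0 hl
    have t1 : Filter.Tendsto (fun t : ℝ => σ * AG b K c l + C * t) (nhdsWithin 0 (Ioi 0))
        (nhds (σ * AG b K c l + C * 0)) :=
      (Continuous.tendsto (by fun_prop) 0).mono_left nhdsWithin_le_nhds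
    rw [mul_zero, add_zero] at t1
    refine ge_of_tendsto t1 ?_
    filter_upwards [Ioc_mem_nhdsGT hδ, Ioc_mem_nhdsGT hε₀] with t ht ht'
    obtain ⟨a1, a2, a3⟩ := hf t ht.1 ht.2
    have hc : ∀ j, c₀ ≤ update c l (c l + σ * t) j := fun j => by
      by_cases hj : j = l
      · rw [hj, update_self]
        exact a1
      · rw [update_of_ne hj]
        exact h0 j
    have hP : Par b K (update c l (c l + σ * t)) := by
      refine ⟨hb, hK, fun j => hc₀.trans_le (hc j), var_mono h.mono a2 a3, fun j => ?_⟩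
      by_cases hj : j = l
      · rw [hj, update_self]
        exact (a3 _ (Nat.lt_succ_self l)).trans (h.le _)
      · rw [update_of_ne hj]
        exact h.le j
    have b1 := H (σ * t) (by rw [abs_mul, hσ, one_mul, abs_of_pos ht.1]; exact ht'.2) hP a1
    have b2 := hmin _ ⟨hP, hc, fun j hj => by rw [update_of_ne (by omega)]; exact h1 j hj⟩
    have e : σ ^ 2 = 1 := by rw [← sq_abs, hσ, one_pow]
    rw [mul_pow, e, one_mul] at b1
    refine le_of_mul_le_mul_left ?_ ht.1
    linarith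
  refine ⟨c, h, h0, h1, fun hc => ?_, fun l hl hc => ⟨?_, fun hl' => ?_⟩⟩
  · have := key 0 hK (-1) (c 0 - c₀) (by simp) (by linarith) fun t h1 h2 =>
      ⟨by linarith, fun j hj => absurd hj (Nat.not_lt_zero j),
        fun j hj => by linarith [h.mono hj.le]⟩
    linarith
  · have := key l hl 1 (c (l + 1) - c l) (by simp) (by linarith) fun t h1 h2 =>
      ⟨by linarith [h0 l], fun j hj => by linarith [h.mono hj.le],
        fun j hj => by linarith [h.mono (Nat.succ_le_of_lt hj)]⟩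
    linarith
  · have := key (l + 1) hl' (-1) (c (l + 1) - c l) (by simp) (by linarith) fun t h1 h2 =>
      ⟨by linarith [h0 l], fun j hj => by linarith [h.mono (Nat.le_of_lt_succ hj)],
        fun j hj => by linarith [h.mono hj.le]⟩
    linarith

end Crest.Agent.R339.P
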