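import Crest.Agent.R339.P.Energy
import Crest.Agent.R339.P.Var

/-! Row 339, part P: assembly. -/

set_option autoImplicit false

noncomputable section

namespace Crest.Agent.R339.P

open MeasureTheory ProbabilityTheory Real Set Function Filter Topology

theorem exists_K (A B D : ℝ) {η κ ε : ℝ} (hη : 0 < η) (hκ : 0 < κ) (hε : 0 < ε) :
    ∃ K : ℕ, 0 < K ∧ A / K ≤ η ∧ (1 / K : ℝ) < κ ∧ B / K + D * √(1 / K) ≤ ε := by
  have h0 : Tendsto (fun K : ℕ => (1 / K : ℝ)) atTop (𝓝 0) := tendsto_one_div_atTop_nhds_zero_nat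
  have h1 : Tendsto (fun K : ℕ => A * (1 / K : ℝ)) atTop (𝓝 0) := by
    simpa using h0.const_mul A
  have h2 : Tendsto (fun K : ℕ => B * (1 / K : ℝ) + D * √(1 / K)) atTop (𝓝 0) := by
    simpa using (h0.const_mul B).add (h0.sqrt.const_mul D)
  obtain ⟨K, hK, hA, hk, hB⟩ := ((eventually_gt_atTop 0).and ((h1.eventually (gt_mem_nhds hη)).and
    ((h0.eventually (gt_mem_nhds hκ)).and (h2.eventually (gt_mem_nhds hε))))).exists
  refine ⟨K, hK, ?_, hk, ?_⟩
  · rw [mul_one_div] at hA; exact hA.le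
  · rw [mul_one_div] at hB; exact hB.le

theorem partA_of (hGap : GapStmt) (hI : IampStmt) (hG : GuerraStmt) : PartAStmt := by
  intro ε hε
  obtain ⟨b, hb, hbε⟩ : ∃ b : ℝ, 1 ≤ b ∧ 3 / b ≤ ε / 4 := by
    refine ⟨max 1 (12 / ε), le_max_left _ _, ?_⟩
    have h1 : 12 / ε ≤ max 1 (12 / ε) := le_max_right _ _
    have h2 : (0 : ℝ) < max 1 (12 / ε) := lt_of_lt_of_le one_pos (le_max_left _ _)
    rw [div_le_iff₀ hε] at h1
    rw [div_le_iff₀ h2]
    linarith
  have hb0 : 0 < b := by linarith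
  obtain ⟨κ, hκ, hκe⟩ := exists_kappa hb
  obtain ⟨η, hη, hη1, hη2⟩ : ∃ η : ℝ, 0 < η ∧ b * η ≤ 1 ∧ b * η ≤ ε / 8 := by
    refine ⟨min 1 (ε / 8) / b, by positivity, ?_, ?_⟩ <;> rw [mul_div_cancel₀ _ hb0.ne']
    exacts [min_le_left _ _, min_le_right _ _]
  obtain ⟨c₀, hc₀, hc₀b, hc₀η⟩ : ∃ c₀ : ℝ, 0 < c₀ ∧ c₀ < b ∧ 4 * c₀ * b ^ 3 ≤ η / 2 := by
    refine ⟨min (1 / 2) (η / (8 * b ^ 3)), by positivity,
      lt_of_le_of_lt (min_le_left _ _) (by linarith), ?_⟩
    have h1 : min (1 / 2) (η / (8 * b ^ 3)) ≤ η / (8 * b ^ 3) := min_le_right _ _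
    rw [le_div_iff₀ (by positivity)] at h1
    linarith
  obtain ⟨K, hK, hK1, hK2, hK3⟩ := exists_K (13 * b ^ 4 + (b ^ 2 + 1)) b (b ^ 3)
    (half_pos hη) hκ (by positivity : 0 < ε / 4)
  obtain ⟨c, hc, hlow, htop, hk0, hk⟩ := exists_kkt hb hK hc₀ hc₀b.le
  have hlast : c (K - 1) = b := by
    by_contra hne
    have h1 : c (K - 1) < c (K - 1 + 1) := by
      rw [htop (K - 1 + 1) (by omega)]
      exact lt_of_le_of_ne (hc.le _) hne
    have h2 := (hk (K - 1) (by omega) h1).1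
    have h3 := last_integral_neg hK (ftc_e hc) (fun t ht => (gT_pos hc ht).le) (hκe K c hc) hK2
    unfold AG at h2
    linarith
  have hex : ∃ l, c l = b := ⟨_, hlast⟩
  obtain ⟨L, hL, hLb, hat⟩ : ∃ L < K, c L = b ∧ Atom c₀ c L := by
    refine ⟨Nat.find hex, lt_of_le_of_lt (Nat.find_min' hex hlast) (by omega), Nat.find_spec hex, ?_⟩
    rcases h : Nat.find hex with _ | l
    · refine Or.inl ⟨rfl, ?_⟩
      have := Nat.find_spec hex
      rw [h] at this
      rwa [this]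
    · refine Or.inr ⟨l, rfl, ?_⟩
      have h1 := Nat.find_spec hex
      rw [h] at h1
      rw [h1]
      exact lt_of_le_of_ne (hc.le _) (Nat.find_min hex (by omega))
  have hLb' : ∀ l, L ≤ l → c l = b := fun l hl =>
    le_antisymm (hc.le l) (hLb ▸ hc.mono hl)
  have D : AD b c₀ K c (eT b K c) (gT b K c) (hT b K c) (kT b K c) :=
    { par := hc
      low := hlow 0
      c0 := hc₀.le
      he := ftc_e hc
      hg := ftc_g hc
      e0 := eT_zero hc
      g0 := fun t ht => ⟨(gT_pos hc ht).le, gT_le hc ht⟩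
      h0 := hT_nonneg b K c
      h1 := hT_one_le hc
      k0 := fun t ht => kT_mem hc ht
      mono := fun l hl => mono_cell hGap hc hl
      kkt0 := fun h => by
        have := hk0 h
        unfold AG at this
        linarith
      kkt := fun l hl h => by
        obtain ⟨h1, h2⟩ := hk l (by omega) h
        have h3 := h2 hl
        unfold AG at h1 h3
        constructor <;> linarith }
  obtain ⟨m1, m2, m3⟩ := D.main hL hat (η := η) (by rw [← add_div]; linarith)
  have p1 := parisi_le hc hL.le hLb' hη1 m1 m2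
  have p2 := sum_ge hc hL.le m3
  obtain ⟨I, hIv⟩ := hI b K c hc (L - 1) (by omega) fun m hm => eG_lt hc (by omega)
  obtain ⟨N, hN⟩ := hG (Fb b) (log 2 / b) K c (continuous_Fb b) (abs_le_Fb hb0) (Fb_le hb0) hK
    hc.pos hc.mono (ε / 4) (by positivity)
  refine ⟨L - 1, I, N, fun n hn => ?_⟩
  have := hN n hn
  linarith

end Crest.Agent.R339.P
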