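import Crest.Agent.R339.P.Defs

/-! Row 339, part P: bounded smooth functions, exponential growth. -/

set_option autoImplicit false

noncomputable section

namespace Crest.Agent.R339.P

open MeasureTheory ProbabilityTheory Real Set Function


theorem BS.cont {n : ℕ} {f : ℝ → ℝ} (h : BS n f) : Continuous f := by
  cases n with
  | zero => exact h.1
  | succ n => exact h.1.continuous

theorem BS.bdd {n : ℕ} {f : ℝ → ℝ} (h : BS n f) : ∃ C, ∀ x, |f x| ≤ C := by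
  cases n with
  | zero => exact h.2
  | succ n => exact h.2.1

theorem BS.of_succ {n : ℕ} {f : ℝ → ℝ} (h : BS (n + 1) f) : BS n f := by
  induction n generalizing f with
  | zero => exact ⟨h.1.continuous, h.2.1⟩
  | succ n ih => exact ⟨h.1, h.2.1, ih h.2.2⟩

theorem BS.const (n : ℕ) (a : ℝ) : BS n fun _ => a := by
  induction n generalizing a with
  | zero => exact ⟨continuous_const, |a|, fun _ => le_rfl⟩
  | succ n ih =>
    refine ⟨differentiable_const a, ⟨|a|, fun _ => le_rfl⟩, ?_⟩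
    have : deriv (fun _ : ℝ => a) = fun _ => 0 := by funext x; simp
    rw [this]
    exact ih 0

theorem BS.add {n : ℕ} {f g : ℝ → ℝ} (hf : BS n f) (hg : BS n g) : BS n fun x => f x + g x := by
  have hb : ∀ {n : ℕ} {f g : ℝ → ℝ}, BS n f → BS n g → ∃ C, ∀ x, |f x + g x| ≤ C := by
    intro n f g hf hg
    obtain ⟨C, hC⟩ := hf.bdd
    obtain ⟨D, hD⟩ := hg.bdd
    exact ⟨C + D, fun x => (abs_add_le _ _).trans (add_le_add (hC x) (hD x))⟩
  induction n generalizing f g with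
  | zero => exact ⟨hf.1.add hg.1, hb hf hg⟩
  | succ n ih =>
    refine ⟨hf.1.add hg.1, hb hf hg, ?_⟩
    have : deriv (fun x => f x + g x) = fun x => deriv f x + deriv g x :=
      funext fun x => ((hf.1 x).hasDerivAt.fun_add (hg.1 x).hasDerivAt).deriv
    rw [this]
    exact ih hf.2.2 hg.2.2

theorem BS.mul {n : ℕ} {f g : ℝ → ℝ} (hf : BS n f) (hg : BS n g) : BS n fun x => f x * g x := by
  have hb : ∀ {n : ℕ} {f g : ℝ → ℝ}, BS n f → BS n g → ∃ C, ∀ x, |f x * g x| ≤ C := by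
    intro n f g hf hg
    obtain ⟨C, hC⟩ := hf.bdd
    obtain ⟨D, hD⟩ := hg.bdd
    refine ⟨C * D, fun x => ?_⟩
    rw [abs_mul]
    exact mul_le_mul (hC x) (hD x) (abs_nonneg _) (le_trans (abs_nonneg _) (hC x))
  induction n generalizing f g with
  | zero => exact ⟨hf.1.mul hg.1, hb hf hg⟩
  | succ n ih =>
    refine ⟨hf.1.mul hg.1, hb hf hg, ?_⟩
    have : deriv (fun x => f x * g x) = fun x => deriv f x * g x + f x * deriv g x :=
      funext fun x => ((hf.1 x).hasDerivAt.fun_mul (hg.1 x).hasDerivAt).deriv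
    rw [this]
    exact (ih hf.2.2 hg.of_succ).add (ih hf.of_succ hg.2.2)

theorem BS.const_mul {n : ℕ} {f : ℝ → ℝ} (a : ℝ) (hf : BS n f) : BS n fun x => a * f x := by
  exact (BS.const n a).mul hf

theorem BS.sub {n : ℕ} {f g : ℝ → ℝ} (hf : BS n f) (hg : BS n g) : BS n fun x => f x - g x := by
  have := hf.add (hg.const_mul (-1))
  simpa only [neg_mul, one_mul, ← sub_eq_add_neg] using this

/-- induction on `n`, for all `k` at once -/
theorem bs_of_family {m : ℕ → ℝ → ℝ} (hb : ∀ k, ∃ C, ∀ x, |m k x| ≤ C)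
    (hd : ∀ k x, HasDerivAt (m k) (m (k + 1) x - m 1 x * m k x) x) (n k : ℕ) : BS n (m k) := by
  induction n generalizing k with
  | zero => exact ⟨continuous_iff_continuousAt.2 fun x => (hd k x).continuousAt, hb k⟩
  | succ n ih =>
    refine ⟨fun x => (hd k x).differentiableAt, hb k, ?_⟩
    have : deriv (m k) = fun x => m (k + 1) x - m 1 x * m k x := funext fun x => (hd k x).deriv
    rw [this]
    exact (ih (k + 1)).sub ((ih 1).mul (ih k))

namespace Nice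
variable {φ : ℝ → ℝ}

theorem hd0 (h : Nice φ) (x : ℝ) : HasDerivAt φ (deriv φ x) x := (h.diff x).hasDerivAt
theorem hd1 (h : Nice φ) (x : ℝ) : HasDerivAt (deriv φ) (d2 φ x) x := ((h.bs 1).1 x).hasDerivAt
theorem hd2 (h : Nice φ) (x : ℝ) : HasDerivAt (d2 φ) (d3 φ x) x := ((h.bs 2).2.2.1 x).hasDerivAt
theorem hd3 (h : Nice φ) (x : ℝ) : HasDerivAt (d3 φ) (d4 φ x) x :=
  ((h.bs 3).2.2.2.2.1 x).hasDerivAt
theorem bs2 (h : Nice φ) (n : ℕ) : BS n (d2 φ) := (h.bs (n + 1)).2.2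
theorem bs3 (h : Nice φ) (n : ℕ) : BS n (d3 φ) := (h.bs2 (n + 1)).2.2
theorem bs4 (h : Nice φ) (n : ℕ) : BS n (d4 φ) := (h.bs3 (n + 1)).2.2
theorem cont (h : Nice φ) : Continuous φ := h.diff.continuous

theorem abs_sub_le (h : Nice φ) (x y : ℝ) : |φ x - φ y| ≤ |x - y| := by
  have := Convex.norm_image_sub_le_of_norm_deriv_le (𝕜 := ℝ) (f := φ) (C := 1) (s := univ)
    (fun x _ => h.diff x) (fun x _ => h.lip x) convex_univ (mem_univ y) (mem_univ x)
  simpa using this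

theorem add_const (h : Nice φ) (a : ℝ) : Nice fun x => φ x + a := by
  have : deriv (fun x => φ x + a) = deriv φ := funext fun x => deriv_add_const a
  exact ⟨h.diff.add_const a, by rw [this]; exact h.bs, by rw [this]; exact h.lip⟩

theorem contDiff (h : Nice φ) (n : ℕ) : ContDiff ℝ n φ := by
  have key : ∀ (n : ℕ) (f : ℝ → ℝ), BS n f → ContDiff ℝ n f := by
    intro n
    induction n with
    | zero => intro f hf; exact contDiff_zero.2 hf.1
    | succ n ih =>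
      intro f hf
      rw [Nat.cast_succ, contDiff_succ_iff_deriv]
      exact ⟨hf.1, by simp, ih _ hf.2.2⟩
  have : ContDiff ℝ ((n : WithTop ℕ∞) + 1) φ := by
    rw [contDiff_succ_iff_deriv]
    exact ⟨h.diff, by simp, key n _ (h.bs n)⟩
  exact this.of_le le_self_add

end Nice

theorem bs_le_exp {y C : ℝ} (h : |y| ≤ C) (x : ℝ) : |y| ≤ exp (C * (1 + |x|)) := by
  have hC : 0 ≤ C := le_trans (abs_nonneg _) h
  have h1 : C ≤ C * (1 + |x|) := le_mul_of_one_le_right hC (by linarith [abs_nonneg x])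
  linarith [add_one_le_exp (C * (1 + |x|))]

theorem bs_exp_mono {C D : ℝ} (h : C ≤ D) (x : ℝ) : exp (C * (1 + |x|)) ≤ exp (D * (1 + |x|)) :=
  exp_le_exp.2 (mul_le_mul_of_nonneg_right h (by positivity))

theorem bs_add {a b C D x : ℝ} (ha : |a| ≤ exp (C * (1 + |x|))) (hb : |b| ≤ exp (D * (1 + |x|))) :
    |a + b| ≤ exp ((max C D + 1) * (1 + |x|)) := by
  have h1 := ha.trans (bs_exp_mono (le_max_left C D) x)
  have h2 := hb.trans (bs_exp_mono (le_max_right C D) x)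
  have h3 : 2 ≤ exp (1 + |x|) := by linarith [add_one_le_exp (1 + |x|), abs_nonneg x]
  rw [add_mul, one_mul, exp_add]
  have h4 := abs_add_le a b
  have h5 := exp_pos (max C D * (1 + |x|))
  nlinarith

theorem bs_mul {a b C D x : ℝ} (ha : |a| ≤ exp (C * (1 + |x|))) (hb : |b| ≤ exp (D * (1 + |x|))) :
    |a * b| ≤ exp ((C + D) * (1 + |x|)) := by
  rw [add_mul, exp_add, abs_mul]
  exact mul_le_mul ha hb (abs_nonneg _) (exp_pos _).le

theorem EG.of_bdd {f : ℝ → ℝ} (h : ∃ C, ∀ x, |f x| ≤ C) : EG f := by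
  obtain ⟨C, hC⟩ := h
  exact ⟨C, fun x => bs_le_exp (hC x) x⟩

theorem EG.const (a : ℝ) : EG fun _ => a := by
  exact EG.of_bdd ⟨|a|, fun _ => le_rfl⟩

theorem EG.id : EG fun x => x := by
  exact ⟨1, fun x => by linarith [add_one_le_exp (1 * (1 + |x|))]⟩

theorem EG.add {f g : ℝ → ℝ} (hf : EG f) (hg : EG g) : EG fun x => f x + g x := by
  obtain ⟨C, hC⟩ := hf
  obtain ⟨D, hD⟩ := hg
  exact ⟨_, fun x => bs_add (hC x) (hD x)⟩

theorem EG.mul {f g : ℝ → ℝ} (hf : EG f) (hg : EG g) : EG fun x => f x * g x := by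
  obtain ⟨C, hC⟩ := hf
  obtain ⟨D, hD⟩ := hg
  exact ⟨_, fun x => bs_mul (hC x) (hD x)⟩

theorem EG.sub {f g : ℝ → ℝ} (hf : EG f) (hg : EG g) : EG fun x => f x - g x := by
  have := hf.add ((EG.const (-1)).mul hg)
  simpa only [neg_mul, one_mul, ← sub_eq_add_neg] using this

theorem EG.abs {f : ℝ → ℝ} (hf : EG f) : EG fun x => |f x| := by
  obtain ⟨C, hC⟩ := hf
  exact ⟨C, fun x => by rw [abs_abs]; exact hC x⟩

/-- the constant may be taken nonnegative -/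
theorem EG.exists_nonneg {f : ℝ → ℝ} (hf : EG f) :
    ∃ C : ℝ, 0 ≤ C ∧ ∀ x, |f x| ≤ exp (C * (1 + |x|)) := by
  obtain ⟨C, hC⟩ := hf
  exact ⟨max C 0, le_max_right _ _, fun x => (hC x).trans (bs_exp_mono (le_max_left _ _) x)⟩

theorem BS.eg {n : ℕ} {f : ℝ → ℝ} (h : BS n f) : EG f := EG.of_bdd h.bdd

theorem bs_nice_le {φ : ℝ → ℝ} (h : Nice φ) (x : ℝ) : |φ x| ≤ |φ 0| + |x| := by
  have h1 := h.abs_sub_le x 0
  rw [sub_zero] at h1
  have h2 := abs_add_le (φ 0) (φ x - φ 0)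
  rw [add_sub_cancel] at h2
  linarith

theorem Nice.eg {φ : ℝ → ℝ} (h : Nice φ) : EG φ := by
  refine ⟨|φ 0| + 1, fun x => ?_⟩
  have h1 := bs_nice_le h x
  have h2 := add_one_le_exp ((|φ 0| + 1) * (1 + |x|))
  nlinarith [abs_nonneg x, abs_nonneg (φ 0), mul_nonneg (abs_nonneg x) (abs_nonneg (φ 0))]

theorem Nice.eg_exp {φ : ℝ → ℝ} (h : Nice φ) (c : ℝ) : EG fun x => exp (c * φ x) := by
  refine ⟨|c| * (|φ 0| + 1), fun x => ?_⟩
  rw [abs_of_pos (exp_pos _)]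
  refine exp_le_exp.2 ((le_abs_self _).trans ?_)
  rw [abs_mul, mul_assoc]
  refine mul_le_mul_of_nonneg_left ?_ (abs_nonneg c)
  have h1 := bs_nice_le h x
  nlinarith [abs_nonneg x, abs_nonneg (φ 0), mul_nonneg (abs_nonneg x) (abs_nonneg (φ 0))]

theorem CG.of_bdd {ψ : ℝ → ℝ → ℝ} (hc : Continuous (uncurry ψ)) (h : ∃ C, ∀ τ x, |ψ τ x| ≤ C) :
    CG ψ := by
  obtain ⟨C, hC⟩ := h
  exact ⟨hc, C, fun τ _ x => bs_le_exp (hC τ x) x⟩

theorem CG.of_eg {f : ℝ → ℝ} (hc : Continuous f) (h : EG f) : CG fun _ x => f x := by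
  obtain ⟨C, hC⟩ := h
  exact ⟨hc.comp continuous_snd, C, fun _ _ x => hC x⟩

theorem CG.const (a : ℝ) : CG fun _ _ => a := by
  exact CG.of_eg (f := fun _ => a) continuous_const (EG.const a)

theorem CG.add {f g : ℝ → ℝ → ℝ} (hf : CG f) (hg : CG g) : CG fun τ x => f τ x + g τ x := by
  obtain ⟨C, hC⟩ := hf.2
  obtain ⟨D, hD⟩ := hg.2
  exact ⟨hf.1.add hg.1, _, fun τ hτ x => bs_add (hC τ hτ x) (hD τ hτ x)⟩

theorem CG.mul {f g : ℝ → ℝ → ℝ} (hf : CG f) (hg : CG g) : CG fun τ x => f τ x * g τ x := by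
  obtain ⟨C, hC⟩ := hf.2
  obtain ⟨D, hD⟩ := hg.2
  exact ⟨hf.1.mul hg.1, _, fun τ hτ x => bs_mul (hC τ hτ x) (hD τ hτ x)⟩

theorem CG.sub {f g : ℝ → ℝ → ℝ} (hf : CG f) (hg : CG g) : CG fun τ x => f τ x - g τ x := by
  have := hf.add ((CG.const (-1)).mul hg)
  simpa only [neg_mul, one_mul, ← sub_eq_add_neg] using this

theorem CG.const_mul {f : ℝ → ℝ → ℝ} (a : ℝ) (hf : CG f) : CG fun τ x => a * f τ x := by
  exact (CG.const a).mul hf

theorem CG.exists_nonneg {ψ : ℝ → ℝ → ℝ} (h : CG ψ) :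
    ∃ C : ℝ, 0 ≤ C ∧ ∀ τ ∈ Icc (0 : ℝ) 1, ∀ x, |ψ τ x| ≤ exp (C * (1 + |x|)) := by
  obtain ⟨C, hC⟩ := h.2
  exact ⟨max C 0, le_max_right _ _,
    fun τ hτ x => (hC τ hτ x).trans (bs_exp_mono (le_max_left _ _) x)⟩

theorem CG.cont {ψ : ℝ → ℝ → ℝ} (h : CG ψ) (τ : ℝ) : Continuous (ψ τ) := by
  exact h.1.comp (Continuous.prodMk_right τ)

theorem CG.eg {ψ : ℝ → ℝ → ℝ} (h : CG ψ) {τ : ℝ} (hτ : τ ∈ Icc (0 : ℝ) 1) : EG (ψ τ) := by
  obtain ⟨C, hC⟩ := h.2
  exact ⟨C, hC τ hτ⟩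

/-- `(exp (c φ))^{(k)} = exp (c φ) * pk c φ k` -/
def pk (c : ℝ) (φ : ℝ → ℝ) : ℕ → ℝ → ℝ
  | 0 => fun _ => 1
  | k + 1 => fun x => deriv (pk c φ k) x + c * deriv φ x * pk c φ k x

theorem Nice.bs_pk {φ : ℝ → ℝ} (h : Nice φ) (c : ℝ) (k n : ℕ) : BS n (pk c φ k) := by
  induction k generalizing n with
  | zero => exact BS.const n 1
  | succ k ih => exact (ih (n + 1)).2.2.add (((h.bs n).const_mul c).mul (ih n))

theorem Nice.hasDerivAt_exp_pk {φ : ℝ → ℝ} (h : Nice φ) (c : ℝ) (k : ℕ) (x : ℝ) :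
    HasDerivAt (fun y => exp (c * φ y) * pk c φ k y) (exp (c * φ x) * pk c φ (k + 1) x) x := by
  have := ((h.hd0 x).const_mul c).exp.fun_mul ((h.bs_pk c k 1).1 x).hasDerivAt
  refine this.congr_deriv ?_
  simp only [pk]
  ring

theorem pk_one (c : ℝ) (φ : ℝ → ℝ) (x : ℝ) : pk c φ 1 x = c * deriv φ x := by
  simp [pk]

theorem Nice.pk_two {φ : ℝ → ℝ} (h : Nice φ) (c x : ℝ) :
    pk c φ 2 x = c * d2 φ x + c ^ 2 * deriv φ x ^ 2 := by
  have e : pk c φ 1 = fun x => c * deriv φ x := funext (pk_one c φ)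
  change deriv (pk c φ 1) x + c * deriv φ x * pk c φ 1 x = _
  rw [e, ((h.hd1 x).const_mul c).deriv]
  ring

theorem Nice.pk_three {φ : ℝ → ℝ} (h : Nice φ) (c x : ℝ) :
    pk c φ 3 x = c * d3 φ x + 3 * c ^ 2 * deriv φ x * d2 φ x + c ^ 3 * deriv φ x ^ 3 := by
  have e : pk c φ 2 = fun x => c * d2 φ x + c ^ 2 * deriv φ x ^ 2 := funext (h.pk_two c)
  change deriv (pk c φ 2) x + c * deriv φ x * pk c φ 2 x = _
  rw [e, (((h.hd2 x).const_mul c).fun_add (((h.hd1 x).fun_pow 2).const_mul (c ^ 2))).deriv]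
  simp only [Nat.cast_ofNat, Nat.add_one_sub_one, pow_one]
  ring

end Crest.Agent.R339.P
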