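import Mathlib

/-!
# Row 339, part P6: the polynomial certificate for gap convexity
-/

set_option autoImplicit false

namespace Crest.Agent.R339

/-- the multiplier `P` -/
def certP (a : Fin 14 → ℝ) (s U V r ξ : ℝ) : ℝ :=
  a 0 * s ^ 3 + a 1 * s * V + a 2 * U * V + a 3 * s ^ 2 * U + a 4 * s * U ^ 2 + a 5 * U ^ 3
    + a 6 * r * s ^ 2 + a 7 * r * s * U + a 8 * r * U ^ 2 + a 9 * r * V + a 10 * r * ξ * U
    + a 11 * ξ * s ^ 2 + a 12 * ξ * s * U + a 13 * ξ * U ^ 2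

/-- its derivative along `s' = T, U' = V, V' = -s V, r' = rp, ξ' = -ξ²` -/
def certD (a : Fin 14 → ℝ) (s U V r ξ T rp : ℝ) : ℝ :=
  a 0 * (3 * s ^ 2 * T) + a 1 * (T * V + s * (-s * V)) + a 2 * (V * V + U * (-s * V))
    + a 3 * (2 * s * T * U + s ^ 2 * V) + a 4 * (T * U ^ 2 + s * (2 * U * V))
    + a 5 * (3 * U ^ 2 * V)
    + a 6 * (rp * s ^ 2 + r * (2 * s * T)) + a 7 * (rp * s * U + r * T * U + r * s * V)
    + a 8 * (rp * U ^ 2 + r * (2 * U * V)) + a 9 * (rp * V + r * (-s * V))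
    + a 10 * (rp * ξ * U + r * (-ξ ^ 2) * U + r * ξ * V)
    + a 11 * ((-ξ ^ 2) * s ^ 2 + ξ * (2 * s * T))
    + a 12 * ((-ξ ^ 2) * s * U + ξ * T * U + ξ * s * V)
    + a 13 * ((-ξ ^ 2) * U ^ 2 + ξ * (2 * U * V))

/-- `certD` is the derivative of `certP` along such a curve -/
theorem hasDerivAt_certP (a : Fin 14 → ℝ) {s U V r ξ : ℝ → ℝ} {T rp x : ℝ}
    (hs : HasDerivAt s T x) (hU : HasDerivAt U (V x) x) (hV : HasDerivAt V (-s x * V x) x)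
    (hr : HasDerivAt r rp x) (hξ : HasDerivAt ξ (-ξ x ^ 2) x) :
    HasDerivAt (fun y => certP a (s y) (U y) (V y) (r y) (ξ y))
      (certD a (s x) (U x) (V x) (r x) (ξ x) T rp) x := by
  unfold certP certD
  have c : ∀ {f : ℝ → ℝ} {d : ℝ} (k : Fin 14), HasDerivAt f d x →
      HasDerivAt (fun y => a k * f y) (a k * d) x := fun k h => h.const_mul _
  refine (HasDerivAt.congr_deriv (((((((((((((c 0 (hs.pow 3)).add (c 1 (hs.mul hV))).add (c 2 (hU.mul hV))).add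
    (c 3 ((hs.pow 2).mul hU))).add (c 4 (hs.mul (hU.pow 2)))).add (c 5 (hU.pow 3))).add
    (c 6 (hr.mul (hs.pow 2)))).add (c 7 ((hr.mul hs).mul hU))).add (c 8 (hr.mul (hU.pow 2)))).add
    (c 9 (hr.mul hV))).add (c 10 ((hr.mul hξ).mul hU))).add (c 11 (hξ.mul (hs.pow 2)))).add
    (c 12 ((hξ.mul hs).mul hU)) |>.add (c 13 (hξ.mul (hU.pow 2)))) ?_).congr_of_eventuallyEq
    (.of_forall fun y => ?_) <;>
  simp only [Pi.add_apply, Pi.mul_apply, Pi.pow_apply] <;>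
  ring

/-- the blossom (in `u = U / s`) of the quadratic form in
`(s², r s, V / u, ξ s - V / u, s² - T)` -/
noncomputable def Cert_Q (a b c p q v x y : ℝ) : ℝ :=
  (2 / 5 * p ^ 2 - 2 / 5 * p * q - 6 / 5 * p * y + 1 / 4 * q ^ 2 + 3 / 20 * q * v + 3 / 20 * q * x + 1 / 2 * q * y + 2 / 5 * v ^ 2 +
    4 / 5 * v * x + 4 / 5 * v * y + 2 / 5 * x ^ 2 + 4 / 5 * x * y + y ^ 2) + (2 / 5 * p ^ 2 - 23 / 200 * p * q - 989 / 200 * p * v -
    213 / 100 * p * x - 93 / 100 * p * y + 3 / 5 * q ^ 2 + 73 / 100 * q * v - 93 / 100 * q * x + 3 / 5 * q * y - 173 / 100 * v * x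
    + 263 / 100 * v * y - 173 / 100 * x ^ 2 - 173 / 100 * x * y) * a + (93 / 200 * p ^ 2 - 3 / 5 * p * q + 437 / 100 * p * v +
    573 / 100 * p * x + 3 * q * v + 13 / 10 * q * x + 3 * v ^ 2 + 2 * x ^ 2) * b + (-3 * p * v - 2 * p * x) * c

theorem Cert_bern {c0 c1 c2 c3 l h u : ℝ} (hl : l ≤ u) (hh : u ≤ h) (lt : l < h)
    (b0 : 0 ≤ c0 + c1 * l + c2 * l ^ 2 + c3 * l ^ 3)
    (b1 : 0 ≤ c0 + c1 * ((2 * l + h) / 3) + c2 * ((l ^ 2 + 2 * l * h) / 3) + c3 * (l ^ 2 * h))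
    (b2 : 0 ≤ c0 + c1 * ((l + 2 * h) / 3) + c2 * ((h ^ 2 + 2 * l * h) / 3) + c3 * (l * h ^ 2))
    (b3 : 0 ≤ c0 + c1 * h + c2 * h ^ 2 + c3 * h ^ 3) :
    0 ≤ c0 + c1 * u + c2 * u ^ 2 + c3 * u ^ 3 := by
  rw [← sub_nonneg] at hl hh
  refine nonneg_of_mul_nonneg_left ?_ (pow_pos (sub_pos.2 lt) 3)
  linarith [mul_nonneg b0 (pow_nonneg hh 3), mul_nonneg b1 (mul_nonneg hl (pow_nonneg hh 2)),
    mul_nonneg b2 (mul_nonneg hh (pow_nonneg hl 2)), mul_nonneg b3 (pow_nonneg hl 3)]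

theorem Cert_Q_nonneg {u p q v x : ℝ} (y : ℝ) (h0 : 0 ≤ u) (h1 : u ≤ 1 / 2) (hp : 0 ≤ p)
    (hq : 0 ≤ q) (hv : 0 ≤ v) (hx : 0 ≤ x) : 0 ≤ Cert_Q u (u ^ 2) (u ^ 3) p q v x y := by
  obtain ⟨m1, m2, m3⟩ := And.intro (mul_nonneg hp hq) (And.intro (mul_nonneg hp hv) (mul_nonneg hp hx))
  obtain ⟨m4, m5, m6⟩ := And.intro (mul_nonneg hq hv) (And.intro (mul_nonneg hq hx) (mul_nonneg hv hx))
  obtain ⟨s1, s2⟩ := And.intro (sq_nonneg p) (sq_nonneg q)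
  obtain ⟨s3, s4⟩ := And.intro (sq_nonneg v) (sq_nonneg x)
  have b0 : 0 ≤ Cert_Q 0 0 0 p q v x y := by
    unfold Cert_Q
    linarith [sq_nonneg (y - 3 / 5 * p + 1 / 4 * q + 2 / 5 * v + 2 / 5 * x),
      sq_nonneg (p - 91 / 50 * q + 7 / 20 * v + 11 / 25 * x),
      sq_nonneg (q - 33 / 200 * v - 41 / 200 * x),
      sq_nonneg (v + 133 / 200 * x)]
  have b1 : 0 ≤ Cert_Q (1 / 8) 0 0 p q v x y := by
    unfold Cert_Q
    linarith [sq_nonneg (y - 1053 / 1600 * p + 23 / 80 * q + 903 / 1600 * v + 467 / 1600 * x),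
      sq_nonneg (p - 51 / 25 * q + 103 / 200 * v + 63 / 100 * x),
      sq_nonneg (q - 49 / 200 * v - 59 / 200 * x),
      sq_nonneg (v + 53 / 200 * x)]
  have b2 : 0 ≤ Cert_Q (1 / 4) (3 / 64) 0 p q v x y := by
    unfold Cert_Q
    linarith [sq_nonneg (y - 573 / 800 * p + 13 / 40 * q + 583 / 800 * v + 147 / 800 * x),
      sq_nonneg (p + 159 / 200 * q - 51 / 200 * x),
      sq_nonneg (q - 1 / 200 * v - 49 / 200 * x),
      sq_nonneg (v - 1 / 100 * x)]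
  have b3 : 0 ≤ Cert_Q (3 / 8) (9 / 64) (27 / 512) p q v x y := by
    unfold Cert_Q
    linarith [sq_nonneg (y - 1239 / 1600 * p + 29 / 80 * q + 1429 / 1600 * v + 121 / 1600 * x),
      sq_nonneg (p - 79 / 100 * v),
      sq_nonneg (q - 21 / 200 * x)]
  have b4 : 0 ≤ Cert_Q (5 / 12) (11 / 64) (9 / 128) p q v x y := by
    unfold Cert_Q
    linarith [sq_nonneg (y - 127 / 160 * p + 3 / 8 * q + 91 / 96 * v + 19 / 480 * x),
      sq_nonneg (p - 137 / 200 * v),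
      sq_nonneg (q - 13 / 200 * x)]
  have b5 : 0 ≤ Cert_Q (11 / 24) (5 / 24) (3 / 32) p q v x y := by
    unfold Cert_Q
    linarith [sq_nonneg (y - 1301 / 1600 * p + 31 / 80 * q + 4813 / 4800 * v + 17 / 4800 * x),
      sq_nonneg (p + 53 / 200 * q - 9 / 25 * v + 7 / 100 * x),
      sq_nonneg (q - 1 / 200 * v - 1 / 10 * x),
      sq_nonneg (v - 3 / 40 * x)]
  have b6 : 0 ≤ Cert_Q (1 / 2) (1 / 4) (1 / 8) p q v x y := by
    unfold Cert_Q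
    linarith [sq_nonneg (y - 333 / 400 * p + 2 / 5 * q + 423 / 400 * v - 13 / 400 * x)]
  rcases le_total u (3 / 8) with h | h
  · refine Cert_bern h0 h (by norm_num) ?_ ?_ ?_ ?_ <;> norm_num only <;> assumption
  · refine Cert_bern h h1 (by norm_num) ?_ ?_ ?_ ?_ <;> norm_num only <;> assumption

theorem Cert_ratio {x y : ℝ} (h0 : 0 ≤ x) (h : x ≤ y) : ∃ t, 0 ≤ t ∧ t ≤ 1 ∧ x = t * y := by
  rcases (h0.trans h).eq_or_lt with e | e
  · exact ⟨0, le_rfl, zero_le_one, by linarith⟩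
  · exact ⟨x / y, by positivity, (div_le_one e).2 h, by field_simp⟩

/-- the certificate (numerical solution: see `R339/PlanP.lean`, P6; there `a 9 = 0.367 = - a 10`) -/
theorem exists_cert : ∃ a : Fin 14 → ℝ, ∀ s U V r ξ T rp : ℝ,
    0 ≤ U → 2 * U ≤ s → 0 ≤ V → V ≤ ξ * U → 0 ≤ r → 0 ≤ ξ → 0 ≤ rp → rp ≤ r * ξ →
    0 ≤ (s ^ 2 - T) ^ 2 - 12 * V * s ^ 2 + 6 * V ^ 2 + certD a s U V r ξ T rp
      - (2 * s - U + r) * certP a s U V r ξ := by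
  refine ⟨![2 / 5, -109 / 25, -1, 93 / 200, 0, 0, -1 / 4, -3 / 5, 0, 7 / 10, -7 / 10, -2 / 5,
    173 / 100, -2], fun s U V r ξ T rp hU hs hV hξU hr hξ hrp hrξ => ?_⟩
  obtain ⟨ν, ν0, ν1, e⟩ := Cert_ratio (by linarith : 0 ≤ 2 * U) hs
  obtain ⟨l, l0, l1, e'⟩ := Cert_ratio hV hξU
  have s0 : 0 ≤ s := by linarith
  rw [← sub_nonneg] at l1 hrξ hξU
  have h1 := Cert_Q_nonneg (u := ν / 2) (p := s ^ 2) (q := r * s) (v := l * (ξ * s))
    (x := (1 - l) * (ξ * s)) (s ^ 2 - T) (by linarith) (by linarith) (by positivity)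
    (by positivity) (by positivity) (by positivity)
  have h2 : 0 ≤ (r * ξ - rp) * (1 / 4 * s ^ 2 + 3 / 5 * s * U + 7 / 10 * (ξ * U - V)) +
      7 / 10 * r ^ 2 * (ξ * U - V) := by positivity
  refine (add_nonneg h1 h2).trans_eq ?_
  obtain rfl : U = ν * s / 2 := by linarith
  subst e'
  simp only [Cert_Q, certD, certP, Matrix.cons_val]
  ring

end Crest.Agent.R339
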