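import Crest.Agent.R339.P.StepB

/-! Row 339, part P: the terminal profile. -/

set_option autoImplicit false

noncomputable section

namespace Crest.Agent.R339.P

open MeasureTheory ProbabilityTheory Real Set Function


variable {b : ℝ}

theorem term_sech (y : ℝ) : 1 - tanh y ^ 2 = 1 / cosh y ^ 2 := by
  have hc := cosh_pos y
  rw [tanh_eq_sinh_div_cosh]
  field_simp
  exact cosh_sq_sub_sinh_sq y

theorem term_hd (b x : ℝ) :
    HasDerivAt (fun x => tanh (b * x)) (b * (1 - tanh (b * x) ^ 2)) x := by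
  have hc := cosh_pos (b * x)
  have h0 : HasDerivAt (fun x => b * x) b x := by simpa using (hasDerivAt_id x).const_mul b
  have h1 := h0.sinh.fun_div h0.cosh hc.ne'
  simp only [← tanh_eq_sinh_div_cosh] at h1
  refine h1.congr_deriv ?_
  rw [tanh_eq_sinh_div_cosh]
  field_simp

theorem term_log_cosh (y : ℝ) : log (cosh y) ≤ y * tanh y := by
  have hc := cosh_pos y
  have h1 := convexOn_exp.2 (mem_univ (-y)) (mem_univ y)
    (show 0 ≤ exp y / (2 * cosh y) by positivity) (show 0 ≤ exp (-y) / (2 * cosh y) by positivity)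
    (by rw [← add_div, div_eq_one_iff_eq (by positivity), cosh_eq]; ring)
  have e1 : (exp y / (2 * cosh y)) • (-y) + (exp (-y) / (2 * cosh y)) • y = -(y * tanh y) := by
    rw [tanh_eq_sinh_div_cosh, sinh_eq, smul_eq_mul, smul_eq_mul]
    field_simp
    ring
  have e2 : (exp y / (2 * cosh y)) • exp (-y) + (exp (-y) / (2 * cosh y)) • exp y =
      (cosh y)⁻¹ := by
    have := exp_pos y
    rw [smul_eq_mul, smul_eq_mul, exp_neg]
    field_simp
    ring
  rw [e1, e2, ← le_log_iff_exp_le (by positivity), log_inv] at h1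
  linarith

theorem continuous_Fb (b : ℝ) : Continuous (Fb b) := by
  unfold Fb
  refine continuous_const.mul (Continuous.log (by fun_prop) fun x => ?_)
  have := cosh_pos (b * x)
  positivity

theorem hasDerivAt_Fb (hb : 0 < b) (x : ℝ) : HasDerivAt (Fb b) (tanh (b * x)) x := by
  have hc := cosh_pos (b * x)
  have h1 : HasDerivAt (fun x => 2 * cosh (b * x)) (2 * (sinh (b * x) * b)) x := by
    have := ((hasDerivAt_id x).const_mul b).cosh.const_mul 2
    simpa using this
  refine ((h1.log (by positivity)).const_mul b⁻¹).congr_deriv ?_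
  rw [tanh_eq_sinh_div_cosh]
  field_simp

theorem deriv_Fb (hb : 0 < b) : deriv (Fb b) = fun x => tanh (b * x) := by
  exact funext fun x => (hasDerivAt_Fb hb x).deriv

theorem d2_Fb (hb : 0 < b) (x : ℝ) : d2 (Fb b) x = b * (1 - deriv (Fb b) x ^ 2) := by
  unfold d2
  rw [deriv_Fb hb]
  exact (term_hd b x).deriv

theorem d3_Fb (hb : 0 < b) (x : ℝ) : d3 (Fb b) x = -(2 * b * deriv (Fb b) x * d2 (Fb b) x) := by
  have e : d2 (Fb b) = fun x => b * (1 - tanh (b * x) ^ 2) := by
    funext y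
    rw [d2_Fb hb, deriv_Fb hb]
  unfold d3
  rw [e, deriv_Fb hb, ((((term_hd b x).fun_pow 2).const_sub 1).const_mul b).deriv]
  simp only [Nat.cast_ofNat, Nat.add_one_sub_one, pow_one]
  ring

/-- for `BS`: `bs_of_family` with `m k = b^k * tanh (b x)` (`k` odd), `b^k` (`k` even), or directly
`∀ n, BS n u` by induction from `u' = b (1 - u²)` -/
theorem adm_Fb (hb : 0 < b) : Adm b (Fb b) := by
  have hb1 : ∀ x, |tanh (b * x)| ≤ 1 := fun x => (abs_tanh_lt_one _).le
  refine ⟨⟨fun x => (hasDerivAt_Fb hb x).differentiableAt, fun n => ?_, fun x => ?_⟩,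
    fun x => ?_, fun x => ?_, fun x => (d2_Fb hb x).le⟩
  · rw [deriv_Fb hb]
    induction n with
    | zero => exact ⟨continuous_iff_continuousAt.2 fun x => (term_hd b x).continuousAt, 1, hb1⟩
    | succ n ih =>
      refine ⟨fun x => (term_hd b x).differentiableAt, ⟨1, hb1⟩, ?_⟩
      have : deriv (fun x => tanh (b * x)) = fun x => b * (1 - tanh (b * x) * tanh (b * x)) :=
        funext fun x => by rw [(term_hd b x).deriv, sq]
      rw [this]
      exact ((BS.const n 1).sub (ih.mul ih)).const_mul b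
  · rw [deriv_Fb hb]
    exact hb1 x
  · unfold Fb
    rw [mul_neg, cosh_neg]
  · rw [d2_Fb hb, deriv_Fb hb]
    exact mul_pos hb (sub_pos.2 (tanh_sq_lt_one _))

theorem abs_le_Fb (hb : 0 < b) (x : ℝ) : |x| ≤ Fb b x := by
  unfold Fb
  rw [le_inv_mul_iff₀ hb, le_log_iff_exp_le (by have := cosh_pos (b * x); positivity),
    ← cosh_abs, abs_mul, abs_of_pos hb, cosh_eq]
  linarith [exp_pos (-(b * |x|))]

theorem Fb_le (hb : 0 < b) (x : ℝ) : Fb b x ≤ |x| + log 2 / b := by
  unfold Fb
  rw [inv_mul_le_iff₀ hb, log_le_iff_le_exp (by have := cosh_pos (b * x); positivity),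
    ← cosh_abs, abs_mul, abs_of_pos hb, cosh_eq, mul_add, mul_div_cancel₀ _ hb.ne', exp_add,
    exp_log two_pos]
  have : exp (-(b * |x|)) ≤ exp (b * |x|) := by
    have := mul_nonneg hb.le (abs_nonneg x)
    exact exp_le_exp.2 (by linarith)
  linarith

/-- with `y = b x`: `log (2 cosh y) - y tanh y` has derivative `-y / cosh² y`, maximal at `0` -/
theorem Fb_sub_mul_le (hb : 0 < b) (x : ℝ) : Fb b x - x * deriv (Fb b) x ≤ log 2 / b := by
  rw [deriv_Fb hb]
  have hc := cosh_pos (b * x)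
  have h1 := term_log_cosh (b * x)
  unfold Fb
  rw [log_mul two_ne_zero hc.ne', le_div_iff₀ hb]
  have e : (b⁻¹ * (log 2 + log (cosh (b * x))) - x * tanh (b * x)) * b =
      log 2 + (log (cosh (b * x)) - b * x * tanh (b * x)) := by
    field_simp
    ring
  rw [e]
  linarith

theorem d3_Fb_sq_le (hb : 0 < b) (x : ℝ) : d3 (Fb b) x ^ 2 ≤ 4 * b ^ 4 := by
  rw [d3_Fb hb, d2_Fb hb, deriv_Fb hb]
  have h1 := tanh_sq_lt_one (b * x)
  have h2 := sq_nonneg (tanh (b * x))
  have e : (-(2 * b * tanh (b * x) * (b * (1 - tanh (b * x) ^ 2)))) ^ 2 =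
      4 * b ^ 4 * (tanh (b * x) ^ 2 * (1 - tanh (b * x) ^ 2) ^ 2) := by ring
  rw [e]
  refine mul_le_of_le_one_right (by positivity) (mul_le_one₀ h1.le (sq_nonneg _) ?_)
  exact pow_le_one₀ (by linarith) (by linarith)

/-- `E cosh (b (x + √τ g)) = exp (b² τ / 2) cosh (b x)` (`mgf_id_gaussianReal`) -/
theorem chStep_Fb (hb : 0 < b) {τ : ℝ} (hτ : 0 ≤ τ) (a x : ℝ) :
    chStep b τ (fun y => Fb b y + a) x = Fb b x + (a + b * τ / 2) := by
  have hI : ∀ t : ℝ, ∫ g, exp (t * g) ∂gaussianReal 0 1 = exp (t ^ 2 / 2) := fun t => by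
    have := congrFun (mgf_fun_id_gaussianReal (μ := 0) (v := 1)) t
    simpa [mgf] using this
  have e : ∀ g : ℝ, exp (b * (Fb b (x + √τ * g) + a)) =
      exp (b * a + b * x) * exp (b * √τ * g) + exp (b * a - b * x) * exp (-(b * √τ) * g) := by
    intro g
    have hc := cosh_pos (b * (x + √τ * g))
    unfold Fb
    rw [mul_add b _ a, mul_inv_cancel_left₀ hb.ne', exp_add, exp_log (by positivity), cosh_eq,
      ← exp_add, ← exp_add, mul_div_cancel₀ _ two_ne_zero, add_mul, ← exp_add, ← exp_add]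
    congr 2 <;> ring
  have hc := cosh_pos (b * x)
  have e2 : exp (b * a + b * x) * exp ((b * √τ) ^ 2 / 2) +
      exp (b * a - b * x) * exp ((-(b * √τ)) ^ 2 / 2) =
      2 * cosh (b * x) * exp (b * (a + b * τ / 2)) := by
    rw [neg_sq, mul_pow, sq_sqrt hτ, cosh_eq, mul_div_cancel₀ _ two_ne_zero, add_mul]
    simp only [← exp_add]
    congr 2 <;> ring
  unfold chStep
  simp only [e]
  rw [integral_add ((integrable_exp_mul_gaussianReal _).const_mul _)
    ((integrable_exp_mul_gaussianReal _).const_mul _), integral_const_mul, integral_const_mul,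
    hI, hI, e2, log_mul (by positivity) (exp_pos _).ne', log_exp, mul_add,
    inv_mul_cancel_left₀ hb.ne']
  rfl

/-- `1 - tanh² (b x) ≥ κ (1 - x² / R)` with `κ = 1 - tanh² (b √R)` -/
theorem exists_sech_ge (hb : 0 < b) {R : ℝ} (hR : 0 < R) :
    ∃ κ : ℝ, 0 < κ ∧ ∀ x, κ * (1 - x ^ 2 / R) ≤ 1 - deriv (Fb b) x ^ 2 := by
  rw [deriv_Fb hb]
  have hc := cosh_pos (b * √R)
  refine ⟨1 / cosh (b * √R) ^ 2, by positivity, fun x => ?_⟩
  have hx := cosh_pos (b * x)
  rw [term_sech]
  rcases le_total R (x ^ 2) with h | h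
  · refine le_trans (mul_nonpos_of_nonneg_of_nonpos (by positivity) ?_) (by positivity)
    rw [sub_nonpos, one_le_div hR]
    exact h
  · have h1 : cosh (b * x) ≤ cosh (b * √R) := by
      rw [cosh_le_cosh, abs_mul, abs_mul, abs_of_nonneg (sqrt_nonneg R)]
      exact mul_le_mul_of_nonneg_left (abs_le_sqrt h) (abs_nonneg b)
    refine (mul_le_of_le_one_right (by positivity) (sub_le_self _ (by positivity))).trans ?_
    gcongr

end Crest.Agent.R339.P
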