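import Crest.Agent.R339.P.Law
import Crest.Agent.R339.P.Term

/-! Row 339, part P: the chain of profiles and laws. -/

set_option autoImplicit false

noncomputable section

namespace Crest.Agent.R339.P

open MeasureTheory ProbabilityTheory Real Set Function


variable {b : ℝ} {K : ℕ} {c : ℕ → ℝ}

theorem Par.b_pos (h : Par b K c) : 0 < b := lt_of_lt_of_le one_pos h.hb

theorem Par.delta_mem (h : Par b K c) : (1 / K : ℝ) ∈ Icc (0 : ℝ) 1 := by
  have h1 : (1 : ℝ) ≤ K := by exact_mod_cast h.hK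
  exact ⟨by positivity, (div_le_one (by linarith)).2 h1⟩

theorem Ph_last (b : ℝ) (K : ℕ) (c : ℕ → ℝ) : Ph b K c K = Fb b := by
  simp [Ph, Phi]

theorem Ph_succ (b : ℝ) (c : ℕ → ℝ) {l : ℕ} (hl : l < K) :
    Ph b K c l = chStep (c l) (1 / K) (Ph b K c (l + 1)) := by
  have : K - l = (K - (l + 1)) + 1 := by omega
  rw [Ph, this]
  rfl

theorem parisi_eq (b : ℝ) (K : ℕ) (c : ℕ → ℝ) : parisi (Fb b) K c =
    Ph b K c 0 0 - ∑ l ∈ Finset.range K, c l * (2 * l + 1) / (4 * (K : ℝ) ^ 2) := by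
  rfl

theorem adm_Ph (h : Par b K c) (l : ℕ) : Adm b (Ph b K c l) := by
  have key : ∀ r l, Adm b (Phi (Fb b) (1 / K) c r l) := by
    intro r
    induction r with
    | zero => exact fun _ => adm_Fb h.b_pos
    | succ r ih => exact fun l => (ih (l + 1)).chStep (h.pos l) (h.le l) _
  exact key _ _

theorem em_mu (h : Par b K c) (l : ℕ) : EM (mu b K c l) := by
  induction l with
  | zero => exact EM.dirac 0
  | succ l ih =>
    exact ih.law (adm_Ph h (l + 1)).toNice (h.pos l) h.delta_mem.2 ⟨h.delta_mem.1, le_rfl⟩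

theorem em_lw (h : Par b K c) (l : ℕ) {s : ℝ} (hs : s ∈ Icc (0 : ℝ) (1 / K)) :
    EM (lw b K c l s) := by
  exact (em_mu h l).law (adm_Ph h (l + 1)).toNice (h.pos l) h.delta_mem.2 hs

theorem lw_zero (h : Par b K c) (l : ℕ) : lw b K c l 0 = mu b K c l := by
  exact law_zero (em_mu h l) _ _ _

theorem lw_end (b : ℝ) (K : ℕ) (c : ℕ → ℝ) (l : ℕ) : lw b K c l (1 / K) = mu b K c (l + 1) := rfl

theorem integral_mu_succ (h : Par b K c) (l : ℕ) {ψ : ℝ → ℝ} (hψ : EG ψ) (hm : Measurable ψ) :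
    ∫ x, ψ x ∂mu b K c (l + 1) = ∫ x, TE (c l) (1 / K) (Ph b K c (l + 1)) ψ x ∂mu b K c l := by
  exact integral_law_end (em_mu h l) (adm_Ph h (l + 1)).toNice (h.pos l) h.delta_mem hψ hm

theorem idx_lt (hK : 0 < K) (t : ℝ) : idx K t < K := by
  exact lt_of_le_of_lt (min_le_right _ _) (by omega)

theorem idx_eq {l : ℕ} (hl : l < K) {t : ℝ} (ht : t ∈ Ico (l / K : ℝ) ((l + 1) / K)) :
    idx K t = l := by
  have hK : (0 : ℝ) < K := by exact_mod_cast lt_of_le_of_lt (Nat.zero_le l) hl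
  have h1 : (l : ℝ) ≤ t * K := (div_le_iff₀ hK).1 ht.1
  have h2 : t * K < l + 1 := (lt_div_iff₀ hK).1 ht.2
  have h3 : ⌊t * K⌋₊ = l := (Nat.floor_eq_iff (le_trans (Nat.cast_nonneg l) h1)).2 ⟨h1, h2⟩
  rw [idx, h3]
  omega

theorem idx_one (hK : 0 < K) : idx K 1 = K - 1 := by
  rw [idx, one_mul, Nat.floor_natCast]
  omega

theorem mem_cell_idx (hK : 0 < K) {t : ℝ} (ht : t ∈ Icc (0 : ℝ) 1) :
    t ∈ Icc (idx K t / K : ℝ) ((idx K t + 1) / K) := by
  have hK' : (0 : ℝ) < K := by exact_mod_cast hK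
  have h0 : 0 ≤ t * K := mul_nonneg ht.1 hK'.le
  constructor
  · rw [div_le_iff₀ hK']
    exact le_trans (Nat.cast_le.2 (min_le_left _ _)) (Nat.floor_le h0)
  · rw [le_div_iff₀ hK', idx]
    rcases min_choice ⌊t * K⌋₊ (K - 1) with h | h <;> rw [h]
    · exact (Nat.lt_floor_add_one _).le
    · rw [Nat.cast_sub hK, Nat.cast_one, sub_add_cancel]
      exact mul_le_of_le_one_left hK'.le ht.2

theorem chain_idx_cases {l : ℕ} (hl : l < K) {t : ℝ} (ht : t ∈ Icc (l / K : ℝ) ((l + 1) / K)) :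
    idx K t = l ∨ (t = (l + 1) / K ∧ l + 1 < K ∧ idx K t = l + 1) := by
  have hK : (0 : ℝ) < K := by exact_mod_cast lt_of_le_of_lt (Nat.zero_le l) hl
  rcases ht.2.eq_or_lt with h1 | h1
  · rcases (Nat.succ_le_of_lt hl).eq_or_lt with h2 | h2
    · left
      have h3 : (l : ℝ) + 1 = K := by exact_mod_cast h2
      rw [h1, h3, div_self hK.ne', idx_one (by omega)]
      omega
    · refine Or.inr ⟨h1, h2, idx_eq h2 ⟨?_, ?_⟩⟩
      · rw [h1]; push_cast; exact le_rfl
      · rw [h1]; push_cast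
        exact div_lt_div_of_pos_right (by linarith) hK
  · exact Or.inl (idx_eq hl ⟨ht.1, h1⟩)

/-- also at the right end point of the cell (`chStep_zero`, `Ph_succ`) -/
theorem PhT_cell (h : Par b K c) {l : ℕ} (hl : l < K) {t : ℝ}
    (ht : t ∈ Icc (l / K : ℝ) ((l + 1) / K)) :
    PhT b K c t = chStep (c l) (1 / K - (t - l / K)) (Ph b K c (l + 1)) := by
  rcases chain_idx_cases hl ht with h1 | ⟨h1, h2, h3⟩
  · rw [PhT, h1]
  · have e1 : t - ((l + 1 : ℕ) : ℝ) / K = 0 := by rw [h1]; push_cast; ring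
    have e2 : 1 / K - (t - l / K) = 0 := by rw [h1]; ring
    rw [PhT, h3, e1, e2, sub_zero, ← Ph_succ b c h2, chStep_zero (h.pos l)]

/-- also at the right end point of the cell (`lw_zero`, `lw_end`) -/
theorem muT_cell (h : Par b K c) {l : ℕ} (hl : l < K) {t : ℝ}
    (ht : t ∈ Icc (l / K : ℝ) ((l + 1) / K)) : muT b K c t = lw b K c l (t - l / K) := by
  rcases chain_idx_cases hl ht with h1 | ⟨h1, _, h3⟩
  · rw [muT, h1]
  · have e1 : t - ((l + 1 : ℕ) : ℝ) / K = 0 := by rw [h1]; push_cast; ring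
    have e2 : t - l / K = 1 / K := by rw [h1]; ring
    rw [muT, h3, e1, e2, lw_zero h, lw_end]

theorem PhT_grid (h : Par b K c) {l : ℕ} (hl : l ≤ K) : PhT b K c (l / K) = Ph b K c l := by
  have hK : (0 : ℝ) < K := by exact_mod_cast h.hK
  rcases hl.eq_or_lt with h1 | h1
  · obtain ⟨m, rfl⟩ : ∃ m, l = m + 1 := ⟨l - 1, by have := h.hK; omega⟩
    have hm : m < K := by omega
    rw [PhT_cell h hm ⟨div_le_div_of_nonneg_right (by push_cast; linarith) hK.le,
      by push_cast; exact le_rfl⟩]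
    have e : 1 / K - (((m + 1 : ℕ) : ℝ) / K - m / K) = 0 := by push_cast; ring
    rw [e, chStep_zero (h.pos m)]
  · rw [PhT_cell h h1 ⟨le_rfl, div_le_div_of_nonneg_right (by linarith) hK.le⟩, sub_self, sub_zero,
      ← Ph_succ b c h1]

theorem muT_grid (h : Par b K c) {l : ℕ} (hl : l ≤ K) : muT b K c (l / K) = mu b K c l := by
  have hK : (0 : ℝ) < K := by exact_mod_cast h.hK
  rcases hl.eq_or_lt with h1 | h1
  · obtain ⟨m, rfl⟩ : ∃ m, l = m + 1 := ⟨l - 1, by have := h.hK; omega⟩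
    have hm : m < K := by omega
    rw [muT_cell h hm ⟨div_le_div_of_nonneg_right (by push_cast; linarith) hK.le,
      by push_cast; exact le_rfl⟩]
    have e : ((m + 1 : ℕ) : ℝ) / K - m / K = 1 / K := by push_cast; ring
    rw [e, lw_end]
  · rw [muT_cell h h1 ⟨le_rfl, div_le_div_of_nonneg_right (by linarith) hK.le⟩, sub_self,
      lw_zero h]

theorem adm_PhT (h : Par b K c) (t : ℝ) : Adm b (PhT b K c t) := by
  exact (adm_Ph h _).chStep (h.pos _) (h.le _) _

theorem em_muT (h : Par b K c) {t : ℝ} (ht : t ∈ Icc (0 : ℝ) 1) : EM (muT b K c t) := by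
  obtain ⟨h1, h2⟩ := mem_cell_idx h.hK ht
  refine em_lw h _ ⟨sub_nonneg.2 h1, ?_⟩
  rw [add_div] at h2
  linarith

/-- above the last jump the profile is explicit (`chStep_Fb`, downward induction) -/
theorem Ph_of_eq (h : Par b K c) {L : ℕ} (hL : L ≤ K) (hb : ∀ l, L ≤ l → c l = b) :
    Ph b K c L = fun x => Fb b x + b * (1 - L / K) / 2 := by
  have hK : (0 : ℝ) < K := by exact_mod_cast h.hK
  induction hL using Nat.decreasingInduction with
  | self =>
    funext x
    rw [Ph_last, div_self hK.ne']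
    ring
  | of_succ L hL ih =>
    rw [Ph_succ b c hL, ih fun l hl => hb l (by omega), hb L le_rfl]
    funext x
    rw [chStep_Fb h.b_pos h.delta_mem.1]
    push_cast
    ring

end Crest.Agent.R339.P
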