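import Crest.Agent.R339.Iface

/-!
# Row 339, part P: shared definitions

Time inside a cell is either the elapsed time `s` or the remaining time `τ = Δ - s`.
-/

set_option autoImplicit false

noncomputable section

namespace Crest.Agent.R339.P

open MeasureTheory ProbabilityTheory Real Set Function

/-- standard Gaussian -/
abbrev γ₁ : Measure ℝ := gaussianReal 0 1

/-- second derivative -/
abbrev d2 (φ : ℝ → ℝ) : ℝ → ℝ := deriv (deriv φ)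
/-- third derivative -/
abbrev d3 (φ : ℝ → ℝ) : ℝ → ℝ := deriv (d2 φ)
/-- fourth derivative -/
abbrev d4 (φ : ℝ → ℝ) : ℝ → ℝ := deriv (d3 φ)

/-- bounded, with bounded continuous derivatives up to order `n` -/
def BS : ℕ → (ℝ → ℝ) → Prop
  | 0, f => Continuous f ∧ ∃ C, ∀ x, |f x| ≤ C
  | n + 1, f => Differentiable ℝ f ∧ (∃ C, ∀ x, |f x| ≤ C) ∧ BS n (deriv f)

/-- smooth, all derivatives of order `≥ 1` bounded, `1`-Lipschitz -/
structure Nice (φ : ℝ → ℝ) : Prop where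
  diff : Differentiable ℝ φ
  bs : ∀ n, BS n (deriv φ)
  lip : ∀ x, |deriv φ x| ≤ 1

/-- admissible Parisi profiles -/
structure Adm (b : ℝ) (φ : ℝ → ℝ) : Prop extends Nice φ where
  even : ∀ x, φ (-x) = φ x
  pos : ∀ x, 0 < d2 φ x
  le : ∀ x, d2 φ x ≤ b * (1 - deriv φ x ^ 2)

/-- exponential growth -/
def EG (f : ℝ → ℝ) : Prop := ∃ C : ℝ, ∀ x, |f x| ≤ exp (C * (1 + |x|))

/-- jointly continuous with exponential growth uniformly in `τ ∈ [0,1]` -/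
def CG (ψ : ℝ → ℝ → ℝ) : Prop :=
  Continuous (uncurry ψ) ∧ ∃ C : ℝ, ∀ τ ∈ Icc (0 : ℝ) 1, ∀ x, |ψ τ x| ≤ exp (C * (1 + |x|))

/-- heat semigroup -/
def heat (τ : ℝ) (f : ℝ → ℝ) (x : ℝ) : ℝ := ∫ g, f (x + √τ * g) ∂γ₁

/-- tilted one-step expectation (the transition of the Parisi diffusion) -/
def TE (c τ : ℝ) (φ ψ : ℝ → ℝ) (x : ℝ) : ℝ :=
  ∫ g, ψ (x + √τ * g) * exp (c * (φ (x + √τ * g) - chStep c τ φ x)) ∂γ₁

/-- `Φ` at remaining time `τ` -/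
abbrev PH (c : ℝ) (φ : ℝ → ℝ) (τ x : ℝ) : ℝ := chStep c τ φ x
/-- `u = Φ_x` -/
abbrev U (c : ℝ) (φ : ℝ → ℝ) (τ x : ℝ) : ℝ := deriv (chStep c τ φ) x
/-- `v = Φ_xx` -/
abbrev V (c : ℝ) (φ : ℝ → ℝ) (τ x : ℝ) : ℝ := d2 (chStep c τ φ) x
/-- `w = Φ_xxx` -/
abbrev W (c : ℝ) (φ : ℝ → ℝ) (τ x : ℝ) : ℝ := d3 (chStep c τ φ) x
/-- `z = Φ_xxxx` -/
abbrev Z (c : ℝ) (φ : ℝ → ℝ) (τ x : ℝ) : ℝ := d4 (chStep c τ φ) x

/-- the linear form `(dτ, dx) ↦ a dτ + b dx` -/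
def lin2 (a b : ℝ) : ℝ × ℝ →L[ℝ] ℝ :=
  a • ContinuousLinearMap.fst ℝ ℝ ℝ + b • ContinuousLinearMap.snd ℝ ℝ ℝ

/-- `ψ_x = ψx` and `L ψ = χ` for `L = -∂_τ + c u ∂_x + ½ ∂_xx` (first variable: remaining time) -/
structure Gen (c : ℝ) (φ : ℝ → ℝ) (ψ ψx χ : ℝ → ℝ → ℝ) : Prop where
  cg : CG ψ
  cgx : CG ψx
  cgχ : CG χ
  ex : ∃ ψxx : ℝ → ℝ → ℝ, CG ψxx ∧ ∀ τ, 0 < τ → ∀ x,
    HasFDerivAt (uncurry ψ) (lin2 (c * U c φ τ x * ψx τ x + ψxx τ x / 2 - χ τ x) (ψx τ x)) (τ, x) ∧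
      HasDerivAt (ψx τ) (ψxx τ x) x

/-- a probability measure with all exponential moments -/
structure EM (μ : Measure ℝ) : Prop where
  prob : IsProbabilityMeasure μ
  mom : ∀ C : ℝ, Integrable (fun x => exp (C * (1 + |x|))) μ

/-- law at elapsed time `s` in a cell of length `Δ` with terminal profile `φ`, started from `μ` -/
def law (μ : Measure ℝ) (φ : ℝ → ℝ) (c Δ s : ℝ) : Measure ℝ :=
  ((μ.prod γ₁).withDensity fun p => ENNReal.ofReal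
    (exp (c * (chStep c (Δ - s) φ (p.1 + √s * p.2) - chStep c Δ φ p.1)))).map
      fun p => p.1 + √s * p.2

/-- the terminal profile -/
def Fb (b : ℝ) (x : ℝ) : ℝ := b⁻¹ * log (2 * cosh (b * x))

/-- admissible parameters -/
structure Par (b : ℝ) (K : ℕ) (c : ℕ → ℝ) : Prop where
  hb : 1 ≤ b
  hK : 0 < K
  pos : ∀ l, 0 < c l
  mono : Monotone c
  le : ∀ l, c l ≤ b

section chain
variable (b : ℝ) (K : ℕ) (c : ℕ → ℝ)

/-- the profile at the grid time `l / K` -/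
def Ph (l : ℕ) : ℝ → ℝ := Phi (Fb b) (1 / K) c (K - l) l

/-- the law at the grid time `l / K` -/
def mu : ℕ → Measure ℝ
  | 0 => Measure.dirac 0
  | l + 1 => law (mu l) (Ph b K c (l + 1)) (c l) (1 / K) (1 / K)

/-- the law at the time `l / K + s` -/
def lw (l : ℕ) (s : ℝ) : Measure ℝ := law (mu b K c l) (Ph b K c (l + 1)) (c l) (1 / K) s

/-- `E u²` at a grid time -/
def eG (l : ℕ) : ℝ := ∫ x, deriv (Ph b K c l) x ^ 2 ∂mu b K c l
/-- `E v` at a grid time -/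
def aG (l : ℕ) : ℝ := ∫ x, d2 (Ph b K c l) x ∂mu b K c l
/-- size of the martingale increment -/
def nG (l : ℕ) : ℝ := √(eG b K c (l + 1) - eG b K c l)

/-- index of the cell of the time `t` -/
def idx (t : ℝ) : ℕ := min ⌊t * K⌋₊ (K - 1)
/-- the profile at time `t` -/
def PhT (t : ℝ) : ℝ → ℝ :=
  chStep (c (idx K t)) (1 / K - (t - idx K t / K)) (Ph b K c (idx K t + 1))
/-- the law at time `t` -/
def muT (t : ℝ) : Measure ℝ := lw b K c (idx K t) (t - idx K t / K)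
/-- the order parameter at time `t` -/
def cT (t : ℝ) : ℝ := c (idx K t)
/-- expectation of a functional of the profile at time `t` -/
def ET (H : (ℝ → ℝ) → ℝ → ℝ) (t : ℝ) : ℝ := ∫ x, H (PhT b K c t) x ∂muT b K c t
/-- `e = E u²` -/
def eT : ℝ → ℝ := ET b K c fun φ x => deriv φ x ^ 2
/-- `g = E v²` -/
def gT : ℝ → ℝ := ET b K c fun φ x => d2 φ x ^ 2
/-- `ā = E v` -/
def aT : ℝ → ℝ := ET b K c fun φ x => d2 φ x
/-- `E w²` -/
def hT : ℝ → ℝ := ET b K c fun φ x => d3 φ x ^ 2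
/-- `E v³` -/
def kT : ℝ → ℝ := ET b K c fun φ x => d2 φ x ^ 3
/-- the partial derivative of the Parisi functional in `c l` -/
def AG (l : ℕ) : ℝ := (1 / 2) * ∫ t in (l / K : ℝ)..((l + 1) / K : ℝ), (eT b K c t - t)

end chain

/-- `f` is the primitive of `f'` on `[A, B]` -/
def FTC (A B : ℝ) (f f' : ℝ → ℝ) : Prop :=
  ∀ s ∈ Icc A B, ∀ t ∈ Icc A B, IntervalIntegrable f' volume s t ∧ f t - f s = ∫ r in s..t, f' r

/-- **P6** (helper96): convexity inside a cell -/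
def GapStmt : Prop :=
  ∀ (b : ℝ) (K : ℕ) (c : ℕ → ℝ), Par b K c → ∀ l < K, ∀ s ∈ Ioo (0 : ℝ) (1 / K),
    0 ≤ ∫ x, (Z (c l) (Ph b K c (l + 1)) (1 / K - s) x ^ 2
      - 12 * c l * V (c l) (Ph b K c (l + 1)) (1 / K - s) x *
        W (c l) (Ph b K c (l + 1)) (1 / K - s) x ^ 2
      + 6 * c l ^ 2 * V (c l) (Ph b K c (l + 1)) (1 / K - s) x ^ 4) ∂lw b K c l s

/-- **P7** (helper96): the message passing scheme driven by the quantile transform -/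
def IampStmt : Prop :=
  ∀ (b : ℝ) (K : ℕ) (c : ℕ → ℝ), Par b K c → ∀ K' : ℕ, K' + 1 ≤ K →
    (∀ m < K', eG b K c m < eG b K c (m + 1)) →
    ∃ I : Iamp K', ∑ m ∈ Finset.range K',
      nG b K c m * √(1 / K) * (aG b K c (m + 1) - b * nG b K c (m + 1)) ≤ I.value

end Crest.Agent.R339.P
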