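import Crest.Agent.R339.P.Glob
import Crest.Agent.R339.P.Anal

/-! Row 339, part P: the energy identity and the value of the scheme. -/

set_option autoImplicit false

noncomputable section

namespace Crest.Agent.R339.P

open MeasureTheory ProbabilityTheory Real Set Function


variable {b : ℝ} {K : ℕ} {c : ℕ → ℝ}

theorem integral_cT_mul (h : Par b K c) {L : ℕ} (hL : L ≤ K) :
    IntervalIntegrable (fun t => cT K c t / 2 * t) volume 0 (L / K) ∧
      ∫ t in (0 : ℝ)..(L / K), cT K c t / 2 * t =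
        ∑ l ∈ Finset.range L, c l * (2 * l + 1) / (4 * (K : ℝ) ^ 2) := by

  have hK : (K : ℝ) ≠ 0 := Nat.cast_ne_zero.2 h.hK.ne'
  induction L with
  | zero => simp
  | succ l ih =>
    obtain ⟨i1, i2⟩ := ih (by omega)
    have h1 : FTC (l / K : ℝ) ((l + 1) / K) (fun t => c l / 4 * t ^ 2) (fun t => cT K c t / 2 * t) :=
      (FTC.of_hasDerivAt (f' := fun t => c l / 2 * t) (by fun_prop) (by fun_prop) fun t _ =>
        ((hasDerivAt_pow 2 t).const_mul (c l / 4)).congr_deriv (by simp; ring)).congr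
        (fun _ _ => rfl) fun t ht => by rw [cT_eq c hL ht]
    obtain ⟨j1, j2⟩ := h1 _ (left_mem_Icc.2 (anal_cell_le K l)) _ (right_mem_Icc.2 (anal_cell_le K l))
    rw [Nat.cast_succ, Finset.sum_range_succ, ← i2,
      ← intervalIntegral.integral_add_adjacent_intervals i1 j1, ← j2]
    refine ⟨i1.trans j1, ?_⟩
    field_simp
    ring

/-- **P8.**  `q = L / K`; `parisi = ∫_0^q ā + ∫_0^q (c/2) (e - t) + E[Φ - x u](q) - b (1 - q²) / 4`,
`Φ(q) = F + b (1 - q) / 2`, `b (1 - e q) = ā q ≤ 1 + η / 2`, so `1 - q ≤ 3 / b`. -/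
theorem parisi_le (h : Par b K c) {L : ℕ} (hL : L ≤ K) (hb : ∀ l, L ≤ l → c l = b) {η : ℝ}
    (hη : b * η ≤ 1) (hg : gT b K c (L / K) ≤ 1 + η)
    (he : ∀ t ∈ Icc (0 : ℝ) (L / K), |eT b K c t - t| ≤ η) :
    parisi (Fb b) K c ≤ (∫ t in (0 : ℝ)..(L / K), aT b K c t) + (3 / b + b * η) := by

  have hK : (0 : ℝ) < K := Nat.cast_pos.2 h.hK
  have hb1 := h.hb
  have hb0 := h.b_pos
  have hq := anal_grid_mem hL
  have h0 : (0 : ℝ) ∈ Icc (0 : ℝ) 1 := ⟨le_rfl, zero_le_one⟩
  have hη0 : 0 ≤ η := (abs_nonneg _).trans (he 0 ⟨le_rfl, hq.1⟩)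
  have hμ := em_mu h L
  have := hμ.prob
  have hN := (adm_Fb hb0).toNice
  have hP := Ph_of_eq h hL hb
  have hd : deriv (Ph b K c L) = deriv (Fb b) := by
    rw [hP]; funext x; exact deriv_add_const _
  obtain ⟨-, e1⟩ := ftc_energy h 0 h0 _ hq
  obtain ⟨i2, -⟩ := ftc_Phi h 0 h0 _ hq
  obtain ⟨i3, e3⟩ := integral_cT_mul h hL
  have i1 : IntervalIntegrable (aT b K c) volume 0 (L / K) :=
    ((ftc_a h).continuousOn.mono (Icc_subset_Icc le_rfl hq.2)).intervalIntegrable_of_Icc hq.1
  rw [intervalIntegral.integral_add i1 i2] at e1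
  have e0 : ET b K c (fun φ x => x * deriv φ x - φ x) 0 = -Ph b K c 0 0 := by
    have h1 := PhT_grid h (Nat.zero_le K)
    have h2 := muT_grid h (Nat.zero_le K)
    rw [Nat.cast_zero, zero_div] at h1 h2
    simp [ET, h1, h2, mu]
  have eq : -(log 2 / b + b * (1 - L / K) / 2) ≤
      ET b K c (fun φ x => x * deriv φ x - φ x) (L / K) := by
    unfold ET
    beta_reduce
    rw [PhT_grid h hL, muT_grid h hL, hd, hP]
    have hc := (hN.bs 0).cont
    have hc' := hN.cont
    have := integral_mono (μ := mu b K c L) (integrable_const (-(log 2 / b + b * (1 - L / K) / 2)))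
      (hμ.integrable ((EG.id.mul (hN.bs 0).eg).sub (hN.eg.add (EG.const (b * (1 - L / K) / 2))))
        (by fun_prop)) fun x => by linarith [Fb_sub_mul_le hb0 x]
    simpa using this
  have e4 : (∫ t in (0 : ℝ)..(L / K), cT K c t / 2 * eT b K c t) ≤
      (∫ t in (0 : ℝ)..(L / K), cT K c t / 2 * t) + b * η / 2 := by
    have h1 := intervalIntegral.integral_mono_on hq.1 i2
      (i3.add (intervalIntegrable_const (c := b * η / 2))) fun t ht => by
        have h1 := (abs_le.1 (he t ht)).2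
        have h2 : 0 < cT K c t := h.pos _
        have h3 : cT K c t ≤ b := h.le _
        nlinarith [mul_le_mul_of_nonneg_left h1 h2.le, mul_le_mul_of_nonneg_right h3 hη0]
    rw [intervalIntegral.integral_add i3 intervalIntegrable_const, intervalIntegral.integral_const,
      smul_eq_mul] at h1
    nlinarith [mul_nonneg hb0.le hη0, hq.2]
  have e5 : ∀ n : ℕ, ∑ l ∈ Finset.range (L + n), c l * (2 * l + 1) / (4 * (K : ℝ) ^ 2) =
      ∑ l ∈ Finset.range L, c l * (2 * l + 1) / (4 * (K : ℝ) ^ 2) +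
        b * (((L + n : ℕ) / K : ℝ) ^ 2 - (L / K) ^ 2) / 4 := by
    intro n
    induction n with
    | zero => simp
    | succ n ih =>
      rw [← add_assoc, Finset.sum_range_succ, ih, hb (L + n) (by omega)]
      push_cast
      field_simp
      ring
  have e6 := e5 (K - L)
  rw [show L + (K - L) = K by omega, div_self hK.ne'] at e6
  have e7 : aT b K c (L / K) = b * (1 - eT b K c (L / K)) := by
    rw [aT_grid h hL, eT_grid h hL]
    unfold aG eG d2
    rw [hd]
    have hc := (hN.bs 0).cont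
    have i : Integrable (fun x => deriv (Fb b) x ^ 2) (mu b K c L) := by
      simp only [sq]
      exact hμ.integrable ((hN.bs 0).eg.mul (hN.bs 0).eg) (by fun_prop)
    simp only [d2_Fb hb0]
    rw [integral_const_mul, integral_sub (integrable_const _) i]
    simp
  have e8 := aT_le h hq
  have e9 := (abs_le.1 (he _ ⟨hq.1, le_rfl⟩)).2
  have e10 : b * (1 - L / K) ≤ 5 / 2 := by nlinarith
  have e11 : b * (1 - L / K) ^ 2 / 4 ≤ 2 / b := by
    rw [le_div_iff₀ hb0]
    have := mul_nonneg hb0.le (sub_nonneg.2 hq.2)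
    nlinarith
  have e12 : log 2 / b ≤ 1 / b := by
    gcongr; linarith [log_two_lt_d9]
  have e13 : 3 / b = 1 / b + 2 / b := by ring
  rw [parisi_eq, e6, ← e3]
  nlinarith [mul_nonneg hb0.le hη0]

theorem eG_lt (h : Par b K c) {m : ℕ} (hm : m < K) : eG b K c m < eG b K c (m + 1) := by

  have hs := anal_cell_sub hm
  obtain ⟨-, e⟩ := ftc_e h _ (hs (left_mem_Icc.2 (anal_cell_le K m))) _
    (hs (right_mem_Icc.2 (anal_cell_le K m)))
  have := anal_pos (anal_cell_lt h.hK m) ((ftc_g h).continuousOn.mono hs) fun t ht =>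
    gT_pos h (hs (Ioo_subset_Icc_self ht))
  rw [← eT_grid h hm.le, ← eT_grid h (l := m + 1) hm, Nat.cast_succ]
  linarith

theorem en_ftc {f : ℝ → ℝ} (hf : ContinuousOn f (Icc 0 1)) :
    FTC 0 1 (fun t => ∫ r in (0 : ℝ)..t, f r) f := fun s hs t ht => by
  have i : ∀ s ∈ Icc (0 : ℝ) 1, ∀ t ∈ Icc (0 : ℝ) 1, IntervalIntegrable f volume s t :=
    fun s hs t ht => (hf.mono (uIcc_subset_Icc hs ht)).intervalIntegrable
  have h0 : (0 : ℝ) ∈ Icc (0 : ℝ) 1 := ⟨le_rfl, zero_le_one⟩
  exact ⟨i s hs t ht, intervalIntegral.integral_interval_sub_left (i 0 h0 t ht) (i 0 h0 s hs)⟩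

/-- `n_m² = ∫_cell g ≤ b² Δ`; `n_m √Δ ≥ min (n_m²) Δ ≥ Δ - ∫_cell |g - 1|`; `ā` is antitone
(`ftc_a`) with values in `[0, b]`, so `Δ ā_{m+1} ≥ ∫_{cell (m+1)} ā`. -/
theorem sum_ge (h : Par b K c) {L : ℕ} (hL : L ≤ K) {η : ℝ}
    (hg : ∫ t in (0 : ℝ)..(L / K), |gT b K c t - 1| ≤ η) :
    (∫ t in (0 : ℝ)..(L / K), aT b K c t) - (b / K + b * η + b ^ 3 * √(1 / K)) ≤
      ∑ m ∈ Finset.range (L - 1),
        nG b K c m * √(1 / K) * (aG b K c (m + 1) - b * nG b K c (m + 1)) := by

  have hK : (0 : ℝ) < K := Nat.cast_pos.2 h.hK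
  have hb0 := h.b_pos
  have hA := en_ftc (ftc_a h).continuousOn
  have hB := en_ftc (f := fun r => |gT b K c r - 1|)
    ((ftc_g h).continuousOn.sub continuousOn_const).abs
  set A := fun t : ℝ => ∫ r in (0 : ℝ)..t, aT b K c r with hAd
  set B := fun t : ℝ => ∫ r in (0 : ℝ)..t, |gT b K c r - 1| with hBd
  change B (L / K) ≤ η at hg
  change A (L / K) - _ ≤ _
  have hcell : ∀ m : ℕ, ((m + 1 : ℕ) / K : ℝ) - m / K = 1 / K := fun m => by push_cast; ring
  have hle : ∀ m : ℕ, (m / K : ℝ) ≤ (m + 1 : ℕ) / K := fun m => by gcongr; omega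
  have hn : ∀ m < K, nG b K c m ≤ b * √(1 / K) := fun m hm => by
    have h1 := (ftc_e h).sub_le (by positivity) (hle m) (anal_grid_mem hm).2 fun r hr =>
      gT_le h ⟨le_trans (by positivity) hr.1.le, hr.2.le.trans (anal_grid_mem hm).2⟩
    rw [hcell, eT_grid h hm.le, eT_grid h (l := m + 1) hm] at h1
    refine (sqrt_le_sqrt h1).trans ?_
    rw [sqrt_mul (by positivity), sqrt_sq hb0.le]
  have hn' : ∀ m < K, 1 / K - (B ((m + 1 : ℕ) / K) - B (m / K)) ≤ nG b K c m * √(1 / K) := by
    intro m hm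
    have h1 := ((ftc_e h).add hB).le_sub (by positivity) (hle m) (anal_grid_mem hm).2 (C := 1)
      fun r _ => by linarith [neg_abs_le (gT b K c r - 1)]
    have h2 := hB.le_sub (by positivity) (hle m) (anal_grid_mem hm).2 (C := 0) fun r _ => abs_nonneg _
    rw [hcell, eT_grid h hm.le, eT_grid h (l := m + 1) hm] at h1
    have h3 := (eG_lt h hm).le
    unfold nG
    rw [← sqrt_mul (by linarith)]
    refine le_trans ?_ (le_sqrt_of_sq_le (x := min (eG b K c (m + 1) - eG b K c m) (1 / K)) ?_)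
    · exact le_min (by linarith) (by linarith)
    · rw [sq]
      exact mul_le_mul (min_le_left _ _) (min_le_right _ _) (le_min (by linarith) (by positivity))
        (by linarith)
  have ha : ∀ m < K, A ((m + 1 : ℕ) / K) - A (m / K) ≤ aG b K c m * (1 / K) := fun m hm => by
    have h1 := hA.sub_le (by positivity) (hle m) (anal_grid_mem hm).2 (C := aG b K c m) fun r hr => by
      have h2 := hr.2.le.trans (anal_grid_mem hm).2
      have := (ftc_a h).sub_le (by positivity) hr.1.le h2 (C := 0) fun s hs =>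
        neg_nonpos.2 (mul_nonneg (h.pos _).le
          (gT_pos h ⟨le_trans (by positivity) hs.1.le, hs.2.le.trans h2⟩).le)
      rw [aT_grid h hm.le] at this
      linarith
    rwa [hcell] at h1
  have key : ∀ n : ℕ, n < K → A ((n + 1 : ℕ) / K) - A (((0 : ℕ) + 1 : ℕ) / K) - b * B (n / K) -
      b ^ 3 * √(1 / K) * (n / K) ≤ ∑ m ∈ Finset.range n,
        nG b K c m * √(1 / K) * (aG b K c (m + 1) - b * nG b K c (m + 1)) := by
    intro n
    induction n with
    | zero => intro _; simp [hBd]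
    | succ n ih =>
      intro hn1
      have h1 := ih (by omega)
      have h2 := hn n (by omega)
      have h3 := hn (n + 1) hn1
      have h4 := hn' n (by omega)
      have h5 := ha (n + 1) hn1
      have h6 := aT_mem h (anal_grid_mem hn1.le)
      rw [aT_grid h hn1.le] at h6
      have h7 := hB.le_sub (by positivity) (hle n) (anal_grid_mem hn1.le).2 (C := 0)
        fun r _ => abs_nonneg _
      have h8 : nG b K c n * nG b K c (n + 1) ≤ b ^ 2 * (1 / K) := by
        refine (mul_le_mul h2 h3 (sqrt_nonneg _) (by positivity)).trans_eq ?_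
        rw [mul_mul_mul_comm, mul_self_sqrt (by positivity), sq]
      have h9 := mul_le_mul_of_nonneg_left h8 (by positivity : 0 ≤ b * √(1 / K))
      have h10 := mul_le_mul_of_nonneg_right h4 h6.1
      have h11 := mul_le_mul_of_nonneg_left h6.2 (by linarith : 0 ≤ B ((n + 1 : ℕ) / K) - B (n / K))
      have h12 : ((n + 1 : ℕ) / K : ℝ) = n / K + 1 / K := by rw [← hcell n]; ring
      rw [Finset.sum_range_succ]
      nth_rewrite 2 [h12]
      nlinarith
  have hs : 0 ≤ b ^ 3 * √(1 / K) := by positivity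
  rcases L with _ | n
  · have : 0 ≤ η := by simpa [hBd] using hg
    have := mul_nonneg hb0.le this
    have : 0 ≤ b / K := by positivity
    simp only [hAd, Nat.cast_zero, zero_div, intervalIntegral.integral_same, Nat.zero_sub,
      Finset.range_zero, Finset.sum_empty]
    linarith
  · have h1 := key n hL
    have h2 := hA.sub_le (by positivity) (hle 0) (anal_grid_mem h.hK).2 (C := b) fun r hr =>
      (aT_mem h ⟨le_trans (by positivity) hr.1.le, hr.2.le.trans (anal_grid_mem h.hK).2⟩).2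
    have h3 := hB.le_sub (by positivity) (hle n) (anal_grid_mem hL).2 (C := 0) fun r _ => abs_nonneg _
    have h4 : A ((0 : ℕ) / K) = 0 := by simp [hAd]
    have h5 := mul_le_mul_of_nonneg_left (anal_grid_mem (l := n) (by omega : n ≤ K)).2 hs
    have h6 := mul_le_mul_of_nonneg_left (by linarith : B (n / K) ≤ η) hb0.le
    rw [hcell, h4, mul_one_div] at h2
    rw [Nat.add_sub_cancel]
    linarith

end Crest.Agent.R339.P
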