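import Crest.Agent.R339.P.GapQ3

/-!
# Row 339, part P6: the density of the law
-/

set_option autoImplicit false

noncomputable section

namespace Crest.Agent.R339.P

open MeasureTheory ProbabilityTheory Real Set Function

/-- `μ` has the density `exp (c φ) q` with `q` in the class `ShQ` -/
def HasSh (μ : Measure ℝ) (c : ℝ) (φ : ℝ → ℝ) : Prop :=
  ∃ q r r' : ℝ → ℝ, ShQ q r r' ∧
    μ = volume.withDensity fun x => ENNReal.ofReal (exp (c * φ x) * q x)

theorem GapD_heat {p : ℝ → ℝ} (hp : Continuous p) (h0 : ∀ x, 0 ≤ p x) {C : ℝ}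
    (hC : ∀ x, p x ≤ C) (s y : ℝ) :
    ∫⁻ g, ENNReal.ofReal (p (y - √s * g)) ∂γ₁ = ENNReal.ofReal (heat s p y) := by
  have hi : Integrable (fun g => p (y + √s * g)) γ₁ :=
    Integrable.of_bound (by fun_prop) C (ae_of_all _ fun g => by
      rw [Real.norm_of_nonneg (h0 _)]; exact hC _)
  have e : γ₁ = γ₁.map fun x => -x := by rw [gaussianReal_map_neg, neg_zero]
  unfold heat
  rw [ofReal_integral_eq_lintegral_ofReal hi (ae_of_all _ fun g => h0 _)]
  conv_rhs => rw [e]
  rw [lintegral_map (by fun_prop) measurable_neg]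
  simp only [mul_neg, sub_eq_add_neg]

theorem GapD_map_wd {α β : Type} [MeasurableSpace α] [MeasurableSpace β] (ν : Measure α)
    {T : α → β} (hT : Measurable T) {B : β → ENNReal} (hB : Measurable B) :
    (ν.withDensity fun z => B (T z)).map T = (ν.map T).withDensity B := by
  refine Measure.ext_of_lintegral _ fun F hF => ?_
  rw [lintegral_map hF hT, lintegral_withDensity_eq_lintegral_mul _ (hB.fun_comp hT)
    (hF.fun_comp hT),
    lintegral_withDensity_eq_lintegral_mul _ hB hF, lintegral_map (hB.mul hF) hT]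
  rfl

theorem GapD_wd_wd {p E : ℝ → ℝ} (hp : Continuous p) (hE : Continuous E) (h0 : ∀ x, 0 ≤ E x) :
    (volume.withDensity fun x => ENNReal.ofReal (p x)).withDensity
      (fun x => ENNReal.ofReal (E x)) =
      volume.withDensity fun x => ENNReal.ofReal (E x * p x) := by
  rw [← withDensity_mul _ (by fun_prop) (by fun_prop)]
  congr 1
  funext x
  rw [Pi.mul_apply, ENNReal.ofReal_mul (h0 x), mul_comm]

/-- Everything with `lintegral` (Tonelli): for measurable `F ≥ 0`,
`∫∫ F (x + √s g) p x dγ dx = ∫∫ F y p (y - √s g) dy dγ`, and `γ₁` is symmetric. -/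
theorem map_heat {p : ℝ → ℝ} (hp : Continuous p) (h0 : ∀ x, 0 ≤ p x) {C : ℝ} (hC : ∀ x, p x ≤ C)
    (s : ℝ) : ((volume.withDensity fun x => ENNReal.ofReal (p x)).prod γ₁).map
      (fun z : ℝ × ℝ => z.1 + √s * z.2) =
      volume.withDensity fun y => ENNReal.ofReal (heat s p y) := by
  refine Measure.ext_of_lintegral _ fun F hF => ?_
  have hH : Measurable fun y => ENNReal.ofReal (heat s p y) := by
    simp only [← GapD_heat hp h0 hC s]
    exact Measurable.lintegral_prod_right' (f := fun z : ℝ × ℝ =>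
      ENNReal.ofReal (p (z.1 - √s * z.2))) (by fun_prop)
  rw [lintegral_map hF (by fun_prop), prod_withDensity_left (by fun_prop),
    lintegral_withDensity_eq_lintegral_mul _ (by fun_prop) (by fun_prop),
    lintegral_prod_symm _ (by fun_prop), lintegral_withDensity_eq_lintegral_mul _ hH hF]
  have e : ∀ g : ℝ, ∫⁻ x, ENNReal.ofReal (p x) * F (x + √s * g) =
      ∫⁻ y, ENNReal.ofReal (p (y - √s * g)) * F y := fun g => by
    rw [← lintegral_add_right_eq_self (fun y => ENNReal.ofReal (p (y - √s * g)) * F y) (√s * g)]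
    simp only [add_sub_cancel_right]
  simp only [Pi.mul_apply, e]
  rw [lintegral_lintegral_swap (by fun_prop)]
  refine lintegral_congr fun y => ?_
  rw [lintegral_mul_const _ (by fun_prop), GapD_heat hp h0 hC]

/-- `gaussianReal_map_const_mul`, `gaussianReal_of_var_ne_zero` -/
theorem map_dirac {s : ℝ} (hs : 0 < s) :
    ((Measure.dirac (0 : ℝ)).prod γ₁).map (fun z : ℝ × ℝ => z.1 + √s * z.2) =
      volume.withDensity fun y => ENNReal.ofReal ((√(2 * π * s))⁻¹ * exp (-y ^ 2 / (2 * s))) := by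
  rw [Measure.dirac_prod, Measure.map_map (by fun_prop) (by fun_prop)]
  have e : ((fun z : ℝ × ℝ => z.1 + √s * z.2) ∘ Prod.mk (0 : ℝ)) = fun g => √s * g := by
    funext g
    simp
  rw [e, gaussianReal_map_const_mul, gaussianReal_of_var_ne_zero]
  · congr 1
    funext y
    simp [gaussianPDF, gaussianPDFReal, sq_sqrt hs.le]
  · rw [mul_one, Ne, ← NNReal.coe_eq_zero]
    exact (pow_pos (sqrt_pos.2 hs) 2).ne'

/-- the density of `law` factorises -/
theorem law_eq (μ : Measure ℝ) [SFinite μ] {φ : ℝ → ℝ} {c Δ s : ℝ}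
    (h0 : Continuous (chStep c Δ φ)) (h1 : Continuous (chStep c (Δ - s) φ)) :
    law μ φ c Δ s =
      (((μ.withDensity fun x => ENNReal.ofReal (exp (-(c * chStep c Δ φ x)))).prod γ₁).map
        (fun z : ℝ × ℝ => z.1 + √s * z.2)).withDensity
        fun y => ENNReal.ofReal (exp (c * chStep c (Δ - s) φ y)) := by
  rw [← GapD_map_wd _ (by fun_prop) (by fun_prop), prod_withDensity_left (by fun_prop),
    ← withDensity_mul _ (by fun_prop) (by fun_prop)]
  unfold law
  congr 2
  funext z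
  rw [Pi.mul_apply, ← ENNReal.ofReal_mul (exp_pos _).le, ← exp_add]
  congr 2
  ring

theorem hasSh_dirac {φ : ℝ → ℝ} {c Δ s : ℝ} (hs : 0 < s)
    (h0 : Continuous (chStep c Δ φ)) (h1 : Continuous (chStep c (Δ - s) φ)) :
    HasSh (law (Measure.dirac 0) φ c Δ s) c (chStep c (Δ - s) φ) := by
  have hk : 0 < exp (-(c * chStep c Δ φ 0)) * (√(2 * π * s))⁻¹ := by positivity
  refine ⟨_, _, _, (shQ_gauss hs).const_mul hk, ?_⟩
  rw [law_eq _ h0 h1, dirac_withDensity, Measure.prod_smul_left, Measure.map_smul, map_dirac hs,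
    ← withDensity_smul _ (by fun_prop), ← GapD_wd_wd (by fun_prop) (by fun_prop)
      fun x => (exp_pos _).le]
  congr 2
  funext y
  rw [Pi.smul_apply, smul_eq_mul, ← ENNReal.ofReal_mul (exp_pos _).le, ← mul_assoc]

/-- `ShQ.mul_exp` with `μ = c - c'`, then `ShQ.heat` and `map_heat`. -/
theorem HasSh.law {μ : Measure ℝ} {φ : ℝ → ℝ} {b c c' Δ s : ℝ} (hs : 0 < s) (hc : 0 ≤ c)
    (hcc : c' ≤ c) (h0 : Adm b (chStep c Δ φ)) (hE : ShE c (chStep c Δ φ))
    (h1 : Continuous (chStep c (Δ - s) φ)) (h : HasSh μ c' (chStep c Δ φ)) :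
    HasSh (law μ φ c Δ s) c (chStep c (Δ - s) φ) := by
  obtain ⟨q, r, r', hq, rfl⟩ := h
  have hc0 := h0.toNice.cont
  have hqc := hq.cont
  have hp := hq.mul_exp h0 hc hE (sub_nonneg.2 hcc)
  obtain ⟨ρ, ρ', hρ⟩ := hp.heat hs
  refine ⟨_, ρ, ρ', hρ, ?_⟩
  rw [law_eq _ hc0 h1, GapD_wd_wd (by fun_prop) (by fun_prop) fun x => (exp_pos _).le]
  have e : (fun x => ENNReal.ofReal (exp (-(c * chStep c Δ φ x)) *
      (exp (c' * chStep c Δ φ x) * q x))) =
      fun x => ENNReal.ofReal (q x * exp (-((c - c') * chStep c Δ φ x))) := by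
    funext x
    rw [← mul_assoc, ← exp_add, mul_comm (q x)]
    congr 3
    ring
  rw [e, map_heat hp.cont (fun x => (hp.pos x).le) (fun x => hp.q_le (x := 0) (by simp)),
    GapD_wd_wd hρ.cont (by fun_prop) fun x => (exp_pos _).le]

theorem HasSh.integral {μ : Measure ℝ} {c : ℝ} {φ q r r' : ℝ → ℝ} (hφ : Continuous φ)
    (hq : ShQ q r r') (hμ : μ = volume.withDensity fun x => ENNReal.ofReal (exp (c * φ x) * q x))
    (f : ℝ → ℝ) : ∫ x, f x ∂μ = ∫ x, (exp (c * φ x) * q x) * f x := by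
  have hqc := hq.cont
  rw [hμ, integral_withDensity_eq_integral_toReal_smul (by fun_prop)
    (ae_of_all _ fun x => ENNReal.ofReal_lt_top)]
  refine integral_congr_ae (ae_of_all _ fun x => ?_)
  simp only [smul_eq_mul, ENNReal.toReal_ofReal (mul_pos (exp_pos _) (hq.pos x)).le]

theorem HasSh.integrable {μ : Measure ℝ} {c : ℝ} {φ q r r' : ℝ → ℝ} (hφ : Continuous φ)
    (hq : ShQ q r r') (hμ : μ = volume.withDensity fun x => ENNReal.ofReal (exp (c * φ x) * q x))
    (hm : EM μ) : Integrable fun x => (1 + |x|) * (exp (c * φ x) * q x) := by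
  have hqc := hq.cont
  have h1 : Integrable (fun x => 1 + |x|) μ :=
    (hm.mom 1).mono' (by fun_prop) (ae_of_all _ fun x => by
      rw [Real.norm_of_nonneg (by positivity), one_mul]
      linarith [add_one_le_exp (1 + |x|)])
  rw [hμ, integrable_withDensity_iff (by fun_prop)
    (ae_of_all _ fun x => ENNReal.ofReal_lt_top)] at h1
  refine h1.congr (ae_of_all _ fun x => ?_)
  simp only [ENNReal.toReal_ofReal (mul_pos (exp_pos _) (hq.pos x)).le]

end Crest.Agent.R339.P
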