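import Crest.Agent.R339.P.GapQ1
import Crest.Agent.R339.P.Cert

/-!
# Row 339, part P6: integration by parts with the certificate
-/

set_option autoImplicit false

noncomputable section

namespace Crest.Agent.R339.P

open MeasureTheory ProbabilityTheory Real Set Function Filter Topology

/-- Let `G x = A x + ∫_0^x J`.  It is monotone on `(0, ∞)` and tends to `0` at `0⁺`, so
`A x ≥ -∫_0^x J`.  If `∫_0^∞ J < 0` then `A ≥ const > 0` near infinity, which contradicts `hA`. -/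
theorem ibp_nonneg {A A' J : ℝ → ℝ} (hd : ∀ x, 0 < x → HasDerivAt A (A' x) x) (hJ : Continuous J)
    (hn : ∀ x, 0 < x → 0 ≤ J x + A' x) (h0 : Tendsto A (𝓝[>] 0) (𝓝 0))
    (hA : IntegrableOn A (Ioi 1)) (hi : IntegrableOn J (Ioi 0)) : 0 ≤ ∫ x in Ioi 0, J x := by
  have hI : ∀ x, HasDerivAt (fun y => ∫ t in (0 : ℝ)..y, J t) (J x) x := fun x =>
    (hJ.integral_hasStrictDerivAt 0 x).hasDerivAt
  have hG : ∀ x, 0 < x → HasDerivAt (fun y => A y + ∫ t in (0 : ℝ)..y, J t) (A' x + J x) x :=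
    fun x hx => (hd x hx).fun_add (hI x)
  have hmono : MonotoneOn (fun y => A y + ∫ t in (0 : ℝ)..y, J t) (Ioi 0) := by
    refine monotoneOn_of_deriv_nonneg (convex_Ioi 0)
      (fun x hx => (hG x hx).continuousAt.continuousWithinAt) ?_ ?_
    · rw [interior_Ioi]
      exact fun x hx => (hG x hx).differentiableAt.differentiableWithinAt
    · rw [interior_Ioi]
      intro x hx
      rw [(hG x hx).deriv]
      linarith [hn x hx]
  have hlim : Tendsto (fun y => A y + ∫ t in (0 : ℝ)..y, J t) (𝓝[>] 0) (𝓝 0) := by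
    have h1 : Tendsto (fun y => ∫ t in (0 : ℝ)..y, J t) (𝓝[>] 0) (𝓝 0) := by
      have := (hI 0).continuousAt.tendsto
      rw [intervalIntegral.integral_same] at this
      exact this.mono_left nhdsWithin_le_nhds
    simpa using h0.add h1
  have hpos : ∀ x, 0 < x → 0 ≤ A x + ∫ t in (0 : ℝ)..x, J t := by
    intro x hx
    refine le_of_tendsto hlim ?_
    filter_upwards [Ioo_mem_nhdsGT hx] with y hy
    exact hmono hy.1 hx hy.2.le
  by_contra hneg
  push Not at hneg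
  have ht := intervalIntegral_tendsto_integral_Ioi 0 hi tendsto_id
  obtain ⟨X, hX⟩ := eventually_atTop.1
    (ht.eventually (gt_mem_nhds (show ∫ x in Ioi 0, J x < (∫ x in Ioi 0, J x) / 2 by linarith)))
  have hA' : IntegrableOn A (Ioi (max X 1)) := hA.mono_set (Ioi_subset_Ioi (le_max_right _ _))
  have hc : IntegrableOn (fun _ : ℝ => -((∫ x in Ioi 0, J x) / 2)) (Ioi (max X 1)) := by
    refine Integrable.mono' hA' aestronglyMeasurable_const ?_
    refine (ae_restrict_iff' measurableSet_Ioi).2 (Eventually.of_forall fun x hx => ?_)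
    have h1 := hX x ((le_max_left _ _).trans (le_of_lt hx))
    have h2 := hpos x (lt_of_lt_of_le one_pos ((le_max_right _ _).trans (le_of_lt hx)))
    simp only [id] at h1
    rw [Real.norm_of_nonneg (by linarith)]
    linarith
  rcases (integrableOn_const_iff (by simp)).1 hc with h1 | h1
  · simp at h1
    linarith
  · simp at h1

variable {q r r' φ : ℝ → ℝ} {b c : ℝ}

theorem GapI_hs (h : Adm b φ) (x : ℝ) : HasDerivAt (fun y => -d3 φ y / d2 φ y)
    ((-d3 φ x / d2 φ x) ^ 2 - d4 φ x / d2 φ x) x := by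
  have hv := (h.pos x).ne'
  refine ((h.toNice.hd3 x).fun_neg.fun_div (h.toNice.hd2 x) hv).congr_deriv ?_
  field_simp
  ring

/-- `certP` in the variables `(s, U, V, r, ξ s, ξ U)` -/
def GapI_P (a : Fin 14 → ℝ) (z : ℝ × ℝ × ℝ × ℝ × ℝ × ℝ) : ℝ :=
  a 0 * z.1 ^ 3 + a 1 * z.1 * z.2.2.1 + a 2 * z.2.1 * z.2.2.1 + a 3 * z.1 ^ 2 * z.2.1
    + a 4 * z.1 * z.2.1 ^ 2 + a 5 * z.2.1 ^ 3 + a 6 * z.2.2.2.1 * z.1 ^ 2
    + a 7 * z.2.2.2.1 * z.1 * z.2.1 + a 8 * z.2.2.2.1 * z.2.1 ^ 2 + a 9 * z.2.2.2.1 * z.2.2.1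
    + a 10 * z.2.2.2.1 * z.2.2.2.2.2 + a 11 * z.2.2.2.2.1 * z.1 + a 12 * z.2.2.2.2.1 * z.2.1
    + a 13 * z.2.2.2.2.2 * z.2.1

theorem GapI_cont (a : Fin 14 → ℝ) : Continuous (GapI_P a) := by
  unfold GapI_P; fun_prop

/-- bounded on `(1, ∞)` -/
def GapI_Bd (f : ℝ → ℝ) : Prop := ∃ C, ∀ x, 1 < x → |f x| ≤ C

theorem GapI_Bd.const (a : ℝ) : GapI_Bd fun _ => a := ⟨|a|, fun _ _ => le_rfl⟩

theorem GapI_Bd.add {f g : ℝ → ℝ} (hf : GapI_Bd f) (hg : GapI_Bd g) :
    GapI_Bd fun x => f x + g x := by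
  obtain ⟨C, hC⟩ := hf
  obtain ⟨D, hD⟩ := hg
  exact ⟨C + D, fun x hx => (abs_add_le _ _).trans (add_le_add (hC x hx) (hD x hx))⟩

theorem GapI_Bd.mul {f g : ℝ → ℝ} (hf : GapI_Bd f) (hg : GapI_Bd g) :
    GapI_Bd fun x => f x * g x := by
  obtain ⟨C, hC⟩ := hf
  obtain ⟨D, hD⟩ := hg
  refine ⟨C * D, fun x hx => ?_⟩
  rw [abs_mul]
  exact mul_le_mul (hC x hx) (hD x hx) (abs_nonneg _) ((abs_nonneg _).trans (hC x hx))

/-- the boundary term `P μ`, with `s = -w / v`, `U = c u`, `V = c v`, `ξ = 1 / x`,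
`μ = v² exp (c φ) q` -/
def bdT (a : Fin 14 → ℝ) (c : ℝ) (φ q r : ℝ → ℝ) (x : ℝ) : ℝ :=
  certP a (-d3 φ x / d2 φ x) (c * deriv φ x) (c * d2 φ x) (r x) x⁻¹ *
    (d2 φ x ^ 2 * (exp (c * φ x) * q x))

/-- `hasDerivAt_certP` with `T = s² - z / v`; `μ' = -(2 s - U + r) μ`. -/
theorem hasDerivAt_bdT (a : Fin 14 → ℝ) (h : Adm b φ) (hq : ShQ q r r') {x : ℝ} (hx : 0 < x) :
    HasDerivAt (bdT a c φ q r)
      ((certD a (-d3 φ x / d2 φ x) (c * deriv φ x) (c * d2 φ x) (r x) x⁻¹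
          ((-d3 φ x / d2 φ x) ^ 2 - d4 φ x / d2 φ x) (r' x)
        - (2 * (-d3 φ x / d2 φ x) - c * deriv φ x + r x) *
          certP a (-d3 φ x / d2 φ x) (c * deriv φ x) (c * d2 φ x) (r x) x⁻¹) *
        (d2 φ x ^ 2 * (exp (c * φ x) * q x))) x := by
  have hv := (h.pos x).ne'
  have hP := hasDerivAt_certP a (s := fun y => -d3 φ y / d2 φ y) (U := fun y => c * deriv φ y)
    (V := fun y => c * d2 φ y) (r := r) (ξ := fun y => y⁻¹) (x := x) (GapI_hs h x)
    ((h.toNice.hd1 x).const_mul c)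
    (((h.toNice.hd2 x).const_mul c).congr_deriv (by field_simp)) (hq.dr x)
    ((hasDerivAt_inv hx.ne').congr_deriv (by rw [inv_pow]))
  have hμ := ((h.toNice.hd2 x).fun_pow 2).fun_mul
    ((((h.toNice.hd0 x).const_mul c).exp).fun_mul (hq.dq x))
  refine (hP.fun_mul hμ).congr_deriv ?_
  generalize certD a _ _ _ _ _ _ _ = D
  generalize certP a _ _ _ _ _ = Q
  simp only [Nat.cast_ofNat, Nat.add_one_sub_one, pow_one]
  field_simp
  ring

/-- `s`, `U`, `r` tend to `0` and `s / x`, `U / x` have finite limits (they are slopes of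
differentiable functions vanishing at `0`: `hasDerivAt_iff_tendsto_slope`). -/
theorem tendsto_bdT (a : Fin 14 → ℝ) (h : Adm b φ) (hq : ShQ q r r') :
    Tendsto (bdT a c φ q r) (𝓝[>] 0) (𝓝 0) := by
  have hu0 : deriv φ 0 = 0 := by
    have := h.d1_neg 0
    rw [neg_zero] at this
    linarith
  have hw0 : d3 φ 0 = 0 := by
    have := h.d3_neg 0
    rw [neg_zero] at this
    linarith
  have lim : ∀ {f : ℝ → ℝ} {d : ℝ}, HasDerivAt f d 0 → Tendsto f (𝓝[>] 0) (𝓝 (f 0)) :=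
    fun hf => hf.continuousAt.tendsto.mono_left nhdsWithin_le_nhds
  have slope : ∀ {f : ℝ → ℝ} {d : ℝ}, HasDerivAt f d 0 → f 0 = 0 →
      Tendsto (fun x => x⁻¹ * f x) (𝓝[>] 0) (𝓝 d) := by
    intro f d hf h0
    have := (hasDerivAt_iff_tendsto_slope_zero.1 hf).mono_left
      (nhdsWithin_mono _ fun x (hx : x ∈ Ioi (0 : ℝ)) => ne_of_gt hx)
    simpa [h0] using this
  have hs := GapI_hs h 0
  have hU := (h.toNice.hd1 0).const_mul c
  have s0 : -d3 φ 0 / d2 φ 0 = 0 := by rw [hw0]; simp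
  have U0 : c * deriv φ 0 = 0 := by rw [hu0]; simp
  have t1 := lim hs
  have t2 := lim hU
  have t3 := lim ((h.toNice.hd2 0).const_mul c)
  have t4 := lim (hq.dr 0)
  have t5 := slope hs s0
  have t6 := slope hU U0
  have t7 := lim (((h.toNice.hd2 0).fun_pow 2).fun_mul
    ((((h.toNice.hd0 0).const_mul c).exp).fun_mul (hq.dq 0)))
  rw [s0] at t1
  rw [U0] at t2
  rw [hq.r_zero] at t4
  have T := (GapI_cont a).continuousAt.tendsto.comp
    (t1.prodMk_nhds (t2.prodMk_nhds (t3.prodMk_nhds (t4.prodMk_nhds (t5.prodMk_nhds t6)))))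
  have T' := T.mul t7
  have e : ∀ V σ υ : ℝ, GapI_P a (0, 0, V, 0, σ, υ) = 0 := by
    intro V σ υ; simp [GapI_P]
  rw [e, zero_mul] at T'
  refine T'.congr fun x => ?_
  simp only [Function.comp, bdT, GapI_P, certP]
  ring

/-- `|P| v² ≤ C (1 + x)` for `x ≥ 1`: after multiplication by `v²` every monomial is a polynomial
in the bounded quantities `u, v, w, ξ` and `r ≤ r' 0 * x`, except `s³ v² = -w · (w² / v)`
(`Adm.glaeser`). -/
theorem integrableOn_bdT (a : Fin 14 → ℝ) (h : Adm b φ) (hq : ShQ q r r')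
    (hi : Integrable fun x => (1 + |x|) * (exp (c * φ x) * q x)) :
    IntegrableOn (bdT a c φ q r) (Ioi 1) := by
  obtain ⟨M, hM0, hM⟩ := h.glaeser
  have bu : GapI_Bd (deriv φ) := ⟨1, fun x _ => h.lip x⟩
  have bv : GapI_Bd (d2 φ) := ⟨|b|, fun x _ => by
    rw [abs_of_pos (h.pos x)]; exact h.d2_le_abs x⟩
  have bw : GapI_Bd (d3 φ) := by
    obtain ⟨C, hC⟩ := h.toNice.bdd3
    exact ⟨C, fun x _ => hC x⟩
  have bg : GapI_Bd fun x => d3 φ x ^ 2 / d2 φ x := ⟨M, fun x _ => by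
    rw [abs_of_nonneg (div_nonneg (sq_nonneg _) (h.pos x).le), div_le_iff₀ (h.pos x)]
    exact hM x⟩
  have bξ : GapI_Bd fun x => x⁻¹ := ⟨1, fun x hx => by
    rw [abs_of_pos (inv_pos.2 (by linarith))]; exact inv_le_one_of_one_le₀ hx.le⟩
  have br : GapI_Bd fun x => r x * x⁻¹ := ⟨r' 0, fun x hx => by
    have hx0 : 0 < x := by linarith
    rw [abs_of_nonneg (mul_nonneg (hq.nn x hx0.le) (inv_pos.2 hx0).le), ← div_eq_mul_inv,
      div_le_iff₀ hx0]
    exact hq.r_le hx0.le⟩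
  have k := GapI_Bd.const
  have b1 : GapI_Bd fun x => (-a 0) * (d3 φ x * (d3 φ x ^ 2 / d2 φ x))
      + (-a 1 * c) * (d3 φ x * (d2 φ x * d2 φ x))
      + (a 2 * c ^ 2) * (deriv φ x * (d2 φ x * (d2 φ x * d2 φ x)))
      + (a 3 * c) * (d3 φ x * (d3 φ x * deriv φ x))
      + (-a 4 * c ^ 2) * (d3 φ x * (d2 φ x * (deriv φ x * deriv φ x)))
      + (a 5 * c ^ 3) * (deriv φ x * (deriv φ x * (deriv φ x * (d2 φ x * d2 φ x))))
      + a 11 * (x⁻¹ * (d3 φ x * d3 φ x))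
      + (-a 12 * c) * (x⁻¹ * (d3 φ x * (d2 φ x * deriv φ x)))
      + (a 13 * c ^ 2) * (x⁻¹ * (deriv φ x * (deriv φ x * (d2 φ x * d2 φ x)))) :=
    (((((((((k _).mul (bw.mul bg)).add ((k _).mul (bw.mul (bv.mul bv)))).add
      ((k _).mul (bu.mul (bv.mul (bv.mul bv))))).add ((k _).mul (bw.mul (bw.mul bu)))).add
      ((k _).mul (bw.mul (bv.mul (bu.mul bu))))).add
      ((k _).mul (bu.mul (bu.mul (bu.mul (bv.mul bv)))))).add ((k _).mul (bξ.mul (bw.mul bw)))).add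
      ((k _).mul (bξ.mul (bw.mul (bv.mul bu))))).add
      ((k _).mul (bξ.mul (bu.mul (bu.mul (bv.mul bv)))))
  have b2 : GapI_Bd fun x => (r x * x⁻¹) * (a 6 * (d3 φ x * d3 φ x)
      + (-a 7 * c) * (d3 φ x * (d2 φ x * deriv φ x))
      + (a 8 * c ^ 2) * (deriv φ x * (deriv φ x * (d2 φ x * d2 φ x)))
      + (a 9 * c) * (d2 φ x * (d2 φ x * d2 φ x))
      + (a 10 * c) * (x⁻¹ * (deriv φ x * (d2 φ x * d2 φ x)))) :=
    br.mul ((((((k _).mul (bw.mul bw)).add ((k _).mul (bw.mul (bv.mul bu)))).add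
      ((k _).mul (bu.mul (bu.mul (bv.mul bv))))).add ((k _).mul (bv.mul (bv.mul bv)))).add
      ((k _).mul (bξ.mul (bu.mul (bv.mul bv)))))
  obtain ⟨C1, h1⟩ := b1
  obtain ⟨C2, h2⟩ := b2
  refine Integrable.mono' ((hi.const_mul (|C1| + |C2|)).integrableOn) ?_ ?_
  · refine ContinuousOn.aestronglyMeasurable (fun x hx => ?_) measurableSet_Ioi
    exact (hasDerivAt_bdT a h hq (lt_trans one_pos hx)).continuousAt.continuousWithinAt
  · refine (ae_restrict_iff' measurableSet_Ioi).2 (Eventually.of_forall fun x hx => ?_)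
    have hx1 : 1 < x := hx
    have hx0 : 0 < x := by linarith
    have hv := (h.pos x).ne'
    have hE : 0 < exp (c * φ x) * q x := mul_pos (exp_pos _) (hq.pos x)
    have g1 := h1 x hx1
    have g2 := h2 x hx1
    simp only at g1 g2
    generalize hB1 : (-a 0) * (d3 φ x * (d3 φ x ^ 2 / d2 φ x)) + _ + _ + _ + _ + _ + _ + _ + _ = B1
      at g1
    generalize hB2 : (r x * x⁻¹) * (_ + _ + _ + _ + _) = B2 at g2
    have e : bdT a c φ q r x = (B1 + x * B2) * (exp (c * φ x) * q x) := by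
      rw [← hB1, ← hB2]
      simp only [bdT, certP]
      field_simp
      ring
    rw [e, Real.norm_eq_abs, abs_mul, abs_of_pos hE, abs_of_pos hx0, ← mul_assoc (|C1| + |C2|)]
    refine mul_le_mul_of_nonneg_right ?_ hE.le
    have g3 : |B1 + x * B2| ≤ |B1| + x * |B2| := by
      refine (abs_add_le _ _).trans ?_
      rw [abs_mul, abs_of_pos hx0]
    have g4 := le_abs_self C1
    have g5 := le_abs_self C2
    nlinarith [abs_nonneg C1, abs_nonneg C2, mul_le_mul_of_nonneg_left (g2.trans g5) hx0.le]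

/-- The integrand is even, so the integral is twice the integral over `(0, ∞)`
(`integral_comp_abs`); apply `ibp_nonneg` and `exists_cert`. -/
theorem gap_int (h : Adm b φ) (hc : 0 < c) (hs : ShE c φ) (hq : ShQ q r r')
    (hi : Integrable fun x => (1 + |x|) * (exp (c * φ x) * q x)) :
    0 ≤ ∫ x, (exp (c * φ x) * q x) *
      (d4 φ x ^ 2 - 12 * c * d2 φ x * d3 φ x ^ 2 + 6 * c ^ 2 * d2 φ x ^ 4) := by
  obtain ⟨a, ha⟩ := exists_cert
  set J : ℝ → ℝ := fun x => (exp (c * φ x) * q x) *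
      (d4 φ x ^ 2 - 12 * c * d2 φ x * d3 φ x ^ 2 + 6 * c ^ 2 * d2 φ x ^ 4) with hJ
  have c2 : Continuous (d2 φ) := continuous_iff_continuousAt.2 fun x => (h.toNice.hd2 x).continuousAt
  have c3 : Continuous (d3 φ) := continuous_iff_continuousAt.2 fun x => (h.toNice.hd3 x).continuousAt
  have c4 := h.toNice.cont4
  have c0 := h.toNice.cont
  have cq := hq.cont
  have hJc : Continuous J := by
    rw [hJ]; fun_prop
  have hJe : ∀ x, J |x| = J x := by
    intro x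
    rcases abs_choice x with h1 | h1 <;> rw [h1]
    simp only [hJ, h.even, hq.even, h.d2_neg, h.d3_neg, h.d4_neg, neg_sq]
  have hJi : Integrable J := by
    obtain ⟨C3, h3⟩ := h.toNice.bdd3
    obtain ⟨C4, h4⟩ := h.toNice.bdd4
    refine Integrable.mono' (hi.const_mul (C4 ^ 2 + 12 * c * |b| * C3 ^ 2 + 6 * c ^ 2 * |b| ^ 4))
      hJc.aestronglyMeasurable (Eventually.of_forall fun x => ?_)
    have hE : 0 < exp (c * φ x) * q x := mul_pos (exp_pos _) (hq.pos x)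
    have v0 := h.pos x
    have v1 := h.d2_le_abs x
    have w1 : d3 φ x ^ 2 ≤ C3 ^ 2 := by
      rw [← sq_abs]; exact pow_le_pow_left₀ (abs_nonneg _) (h3 x) 2
    have z1 : d4 φ x ^ 2 ≤ C4 ^ 2 := by
      rw [← sq_abs]; exact pow_le_pow_left₀ (abs_nonneg _) (h4 x) 2
    have p1 : 12 * c * d2 φ x * d3 φ x ^ 2 ≤ 12 * c * |b| * C3 ^ 2 := by gcongr
    have p2 : 6 * c ^ 2 * d2 φ x ^ 4 ≤ 6 * c ^ 2 * |b| ^ 4 := by gcongr
    have p3 : 0 ≤ 12 * c * d2 φ x * d3 φ x ^ 2 := by positivity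
    have p4 : 0 ≤ 6 * c ^ 2 * d2 φ x ^ 4 := by positivity
    have p5 : |d4 φ x ^ 2 - 12 * c * d2 φ x * d3 φ x ^ 2 + 6 * c ^ 2 * d2 φ x ^ 4| ≤
        C4 ^ 2 + 12 * c * |b| * C3 ^ 2 + 6 * c ^ 2 * |b| ^ 4 := by
      rw [abs_le]
      constructor <;> nlinarith [sq_nonneg (d4 φ x), sq_nonneg C4]
    simp only [hJ]
    rw [Real.norm_eq_abs, abs_mul, abs_of_pos hE, mul_comm, ← mul_assoc _ (1 + |x|)]
    refine mul_le_mul_of_nonneg_right (p5.trans ?_) hE.le
    exact le_mul_of_one_le_right ((abs_nonneg _).trans p5) (by linarith [abs_nonneg x])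
  have key : 0 ≤ ∫ x in Ioi 0, J x := by
    refine ibp_nonneg (fun x hx => hasDerivAt_bdT (c := c) a h hq hx) hJc (fun x hx => ?_)
      (tendsto_bdT a h hq) (integrableOn_bdT a h hq hi) hJi.integrableOn
    have v0 := h.pos x
    have hE : 0 < exp (c * φ x) * q x := mul_pos (exp_pos _) (hq.pos x)
    have u0 := h.d1_nonneg hx.le
    have g := ha (-d3 φ x / d2 φ x) (c * deriv φ x) (c * d2 φ x) (r x) x⁻¹
      ((-d3 φ x / d2 φ x) ^ 2 - d4 φ x / d2 φ x) (r' x) (by positivity)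
      (by rw [le_div_iff₀ v0]; linarith [hs x hx.le]) (by positivity)
      (by
        rw [inv_mul_eq_div, le_div_iff₀ hx]
        nlinarith [mul_le_mul_of_nonneg_left (hs.mul_d2_le h hc.le hx.le) hc.le])
      (hq.nn x hx.le) (by positivity) (hq.r'_nonneg x)
      (by rw [← div_eq_mul_inv, le_div_iff₀ hx]; linarith [hq.mul_r'_le hx.le])
    refine (mul_nonneg g (mul_pos (pow_pos v0 2) hE).le).trans_eq ?_
    generalize certD a _ _ _ _ _ _ _ = D
    generalize certP a _ _ _ _ _ = Q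
    simp only [hJ]
    field_simp
    ring
  have e : ∫ x, J x = 2 * ∫ x in Ioi 0, J x := by
    rw [← integral_comp_abs]
    simp only [hJe]
  rw [e]
  linarith

end Crest.Agent.R339.P
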