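import Crest.Agent.R339.P.GapE
import Crest.Agent.R339.P.GapD
import Crest.Agent.R339.P.GapI

/-!
# Row 339, part P6: convexity inside a cell
-/

set_option autoImplicit false

noncomputable section

namespace Crest.Agent.R339.P

open MeasureTheory ProbabilityTheory Real Set Function

variable {b : ℝ} {K : ℕ} {c : ℕ → ℝ}

theorem hasSh_lw (h : Par b K c) : ∀ l < K, ∀ s : ℝ, 0 < s →
    HasSh (lw b K c l s) (c l) (chStep (c l) (1 / K - s) (Ph b K c (l + 1))) := by
  have hΔ : (0 : ℝ) < 1 / K := by have := h.hK; positivity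
  have hA : ∀ l τ, Adm b (chStep (c l) τ (Ph b K c (l + 1))) := fun l τ =>
    (adm_Ph h (l + 1)).chStep (h.pos l) (h.le l) τ
  intro l
  induction l with
  | zero =>
    intro _ s hs
    exact hasSh_dirac hs (hA 0 _).toNice.cont (hA 0 _).toNice.cont
  | succ l ih =>
    intro hl s hs
    have h1 := ih (by omega) (1 / K) hΔ
    rw [sub_self, chStep_zero (h.pos l), lw_end, Ph_succ b c hl] at h1
    exact h1.law hs (h.pos _).le (h.mono (Nat.le_succ l)) (hA _ _)
      ((shE_Ph h hl).chStep (adm_Ph h _) (h.pos _) (h.le _) _) (hA _ _).toNice.cont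

theorem gap : GapStmt := by
  intro b K c h l hl s hs
  obtain ⟨q, r, r', hq, hμ⟩ := hasSh_lw h l hl s hs.1
  have hA : Adm b (chStep (c l) (1 / K - s) (Ph b K c (l + 1))) :=
    (adm_Ph h (l + 1)).chStep (h.pos l) (h.le l) _
  have hE := (shE_Ph h hl).chStep (adm_Ph h _) (h.pos _) (h.le _) (1 / K - s)
  rw [HasSh.integral hA.toNice.cont hq hμ]
  exact gap_int hA (h.pos l) hE hq
    (HasSh.integrable hA.toNice.cont hq hμ (em_lw h l ⟨hs.1.le, hs.2.le⟩))

end Crest.Agent.R339.P
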