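import Crest.Agent.R339.P.GapQ3
import Crest.Agent.R339.P.Chain

/-!
# Row 339, part P6: the shape fact (i) along the chain
-/

set_option autoImplicit false

noncomputable section

namespace Crest.Agent.R339.P

open MeasureTheory ProbabilityTheory Real Set Function

/-- `2 cosh s cosh t = cosh (s + t) + cosh (s - t)`; reduce to `0 ≤ y ≤ y'` (`cosh_abs`,
`cosh_le_cosh`) -/
theorem ge_cosh {a b y y' : ℝ} (ha : 0 ≤ a) (hab : a ≤ b) (hy : |y| ≤ |y'|) :
    cosh (b * y) * cosh (a * y') ≤ cosh (a * y) * cosh (b * y') := by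

  have e : ∀ r : ℝ, 0 ≤ r → ∀ z : ℝ, cosh (r * z) = cosh (r * |z|) := fun r hr z => by
    rw [← cosh_abs (r * z), abs_mul, abs_of_nonneg hr]
  have hb : 0 ≤ b := ha.trans hab
  rw [e b hb y, e a ha y', e a ha y, e b hb y']
  have hs := abs_nonneg y
  generalize |y| = s at *
  generalize |y'| = t at *
  have p1 := mul_nonneg (sub_nonneg.2 hab) (sub_nonneg.2 hy)
  have p2 := mul_nonneg ha hs
  have p3 := mul_nonneg ha (sub_nonneg.2 hy)
  have p4 := mul_nonneg (sub_nonneg.2 hab) hs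
  have h1 : cosh (b * s + a * t) ≤ cosh (a * s + b * t) := by
    rw [cosh_le_cosh, abs_of_nonneg (by nlinarith), abs_of_nonneg (by nlinarith)]
    nlinarith
  have h2 : cosh (b * s - a * t) ≤ cosh (a * s - b * t) := by
    rw [cosh_le_cosh, abs_of_nonpos (by nlinarith : a * s - b * t ≤ 0), abs_le]
    constructor <;> nlinarith
  rw [cosh_add, cosh_add] at h1
  rw [cosh_sub, cosh_sub] at h2
  linarith

/-- integrate `h` over the plane (`integral_prod_mul`, `Integrable.mul_prod`) -/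
theorem ge_cheb {R a b : ℝ → ℝ} (ia : Integrable a) (ib : Integrable b)
    (iRa : Integrable fun y => R y * a y) (iRb : Integrable fun y => R y * b y)
    (h : ∀ y y', 0 ≤ (R y - R y') * (a y * b y' - b y * a y')) :
    (∫ y, R y * b y) * ∫ y, a y ≤ (∫ y, R y * a y) * ∫ y, b y := by

  have h0 : 0 ≤ ∫ p : ℝ × ℝ, ((R p.1 * a p.1 * b p.2 - R p.1 * b p.1 * a p.2) -
      (a p.1 * (R p.2 * b p.2) - b p.1 * (R p.2 * a p.2))) ∂(volume.prod volume) :=
    integral_nonneg fun p => (h p.1 p.2).trans_eq (by ring)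
  have i1 := iRa.mul_prod ib
  have i2 := iRb.mul_prod ia
  have i3 := ia.mul_prod iRb
  have i4 := ib.mul_prod iRa
  rw [integral_sub (i1.sub' i2) (i3.sub' i4), integral_sub i1 i2, integral_sub i3 i4,
    integral_prod_mul (fun y => R y * a y) b, integral_prod_mul (fun y => R y * b y) a,
    integral_prod_mul a (fun y => R y * b y), integral_prod_mul b (fun y => R y * a y)] at h0
  linarith

theorem ge_integrable {q : ℝ → ℝ} {τ : ℝ} (hq : EG q) (hm : Measurable q) (hτ : 0 < τ) (θ : ℝ) :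
    Integrable fun y => q y * exp (θ * y - y ^ 2 / (2 * τ)) := by

  obtain ⟨C, hC0, hC⟩ := hq.exists_nonneg
  have hb : 0 < 1 / (4 * τ) := by positivity
  refine ((integrable_exp_neg_mul_sq hb).const_mul (exp (C + τ * (C + |θ|) ^ 2))).mono'
    (by fun_prop : Measurable fun y => q y * exp (θ * y - y ^ 2 / (2 * τ))).aestronglyMeasurable
    (Filter.Eventually.of_forall fun y => ?_)
  rw [norm_eq_abs, abs_mul, abs_of_pos (exp_pos _), ← exp_add]
  refine (mul_le_mul_of_nonneg_right (hC y) (exp_pos _).le).trans ?_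
  rw [← exp_add, exp_le_exp]
  have h1 : θ * y ≤ |θ| * |y| := by rw [← abs_mul]; exact le_abs_self _
  have h2 : (C + |θ|) * |y| ≤ τ * (C + |θ|) ^ 2 + 1 / (4 * τ) * y ^ 2 := by
    rw [← sq_abs y, ← sub_nonneg]
    have : τ * (C + |θ|) ^ 2 + 1 / (4 * τ) * |y| ^ 2 - (C + |θ|) * |y| =
        (2 * τ * (C + |θ|) - |y|) ^ 2 / (4 * τ) := by field_simp; ring
    rw [this]; positivity
  have h3 : y ^ 2 / (2 * τ) = 2 * (1 / (4 * τ) * y ^ 2) := by field_simp; ring
  linarith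

/-- symmetrise `y ↦ -y` (`integral_neg_eq_self`) -/
theorem ge_Mo_even {q : ℝ → ℝ} {τ : ℝ} (hq : EG q) (hm : Measurable q) (he : ∀ y, q (-y) = q y)
    (hτ : 0 < τ) (θ : ℝ) :
    Integrable (fun y => q y * (exp (-(y ^ 2 / (2 * τ))) * cosh (θ * y))) ∧
      Mo q τ 0 θ = ∫ y, q y * (exp (-(y ^ 2 / (2 * τ))) * cosh (θ * y)) := by

  have i1 := ge_integrable hq hm hτ θ
  have i2 := ge_integrable hq hm hτ (-θ)
  have e : (fun y => q y * (exp (-(y ^ 2 / (2 * τ))) * cosh (θ * y))) = fun y =>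
      (1 / 2) * (q y * exp (θ * y - y ^ 2 / (2 * τ)) + q y * exp (-θ * y - y ^ 2 / (2 * τ))) := by
    funext y
    rw [cosh_eq, sub_eq_add_neg, sub_eq_add_neg, exp_add, exp_add, neg_mul]
    ring
  have e2 : ∫ y, q y * exp (-θ * y - y ^ 2 / (2 * τ)) = ∫ y, q y * exp (θ * y - y ^ 2 / (2 * τ)) := by
    rw [← integral_neg_eq_self]
    simp [he]
  rw [e]
  refine ⟨(i1.add i2).const_mul _, ?_⟩
  rw [integral_const_mul, integral_add i1 i2, e2]
  simp only [Mo, pow_zero, one_mul]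
  ring

/-- for `τ ≤ 0` the heat flow is the identity; for `τ > 0` use `heat_eq_Mo`, `ge_Mo_even`,
`ge_cheb`, `ge_cosh` -/
theorem ge_heat_ratio {E R : ℝ → ℝ} (hE : EG E) (mE : Measurable E) (pE : ∀ y, 0 ≤ E y)
    (eE : ∀ y, E (-y) = E y) (hR : EG R) (mR : Measurable R) (eR : ∀ y, R (-y) = R y)
    (aR : AntitoneOn R (Ici 0)) (τ : ℝ) {x x' : ℝ} (hx : 0 ≤ x) (hxx : x ≤ x') :
    heat τ (fun y => E y * R y) x' * heat τ E x ≤ heat τ (fun y => E y * R y) x * heat τ E x' := by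

  rcases le_or_gt τ 0 with hτ | hτ
  · have e : ∀ (f : ℝ → ℝ) (x : ℝ), heat τ f x = f x := fun f x => by
      simp [heat, sqrt_eq_zero_of_nonpos hτ]
    simp only [e]
    have := mul_le_mul_of_nonneg_left (aR hx (hx.trans hxx) hxx) (mul_nonneg (pE x) (pE x'))
    linarith
  have eER : ∀ y, E (-y) * R (-y) = E y * R y := fun y => by rw [eE, eR]
  obtain ⟨ia, ea⟩ := ge_Mo_even hE mE eE hτ (x / τ)
  obtain ⟨ib, eb⟩ := ge_Mo_even hE mE eE hτ (x' / τ)
  obtain ⟨iRa, eRa⟩ := ge_Mo_even (hE.mul hR) (mE.mul mR) eER hτ (x / τ)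
  obtain ⟨iRb, eRb⟩ := ge_Mo_even (hE.mul hR) (mE.mul mR) eER hτ (x' / τ)
  have c1 : ∀ θ : ℝ, (fun y => E y * R y * (exp (-(y ^ 2 / (2 * τ))) * cosh (θ * y))) =
      fun y => R y * (E y * (exp (-(y ^ 2 / (2 * τ))) * cosh (θ * y))) := fun θ => by
    funext y; ring
  rw [c1] at iRa iRb eRa eRb
  have hRa : ∀ y y' : ℝ, |y| ≤ |y'| → R y' ≤ R y := fun y y' h => by
    have e : ∀ z, R z = R |z| := fun z => by
      rcases abs_choice z with h | h <;> rw [h]
      exact (eR z).symm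
    rw [e y, e y']
    exact aR (abs_nonneg y) (abs_nonneg y') h
  have hk : ∀ y y' : ℝ, |y| ≤ |y'| →
      0 ≤ E y * (exp (-(y ^ 2 / (2 * τ))) * cosh (x / τ * y)) *
          (E y' * (exp (-(y' ^ 2 / (2 * τ))) * cosh (x' / τ * y'))) -
        E y * (exp (-(y ^ 2 / (2 * τ))) * cosh (x' / τ * y)) *
          (E y' * (exp (-(y' ^ 2 / (2 * τ))) * cosh (x / τ * y'))) := fun y y' h => by
    have h1 := ge_cosh (a := x / τ) (b := x' / τ) (by positivity) (by gcongr) h
    have h2 := mul_nonneg (mul_nonneg (mul_nonneg (pE y) (pE y'))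
      (mul_pos (exp_pos (-(y ^ 2 / (2 * τ)))) (exp_pos (-(y' ^ 2 / (2 * τ))))).le) (sub_nonneg.2 h1)
    exact h2.trans_eq (by ring)
  have key := ge_cheb ia ib iRa iRb fun y y' => by
    rcases le_total |y| |y'| with h | h
    · exact mul_nonneg (sub_nonneg.2 (hRa y y' h)) (hk y y' h)
    · exact (mul_nonneg (sub_nonneg.2 (hRa y' y h)) (hk y' y h)).trans_eq (by ring)
  rw [← ea, ← eb, ← eRa, ← eRb] at key
  simp only [heat_eq_Mo _ hτ]
  have := mul_le_mul_of_nonneg_left key (by positivity :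
    0 ≤ (√(2 * π * τ))⁻¹ * exp (-x ^ 2 / (2 * τ)) * ((√(2 * π * τ))⁻¹ * exp (-x' ^ 2 / (2 * τ))))
  linarith

variable {b c : ℝ} {φ : ℝ → ℝ}

/-- `pk c φ 2 = c v + c² u²` has the derivative `c w + 2 c² u v` -/
theorem shE_iff (h : Adm b φ) (hc : 0 < c) : ShE c φ ↔ AntitoneOn (pk c φ 2) (Ici 0) := by

  have hN := h.toNice
  have hd : ∀ x, HasDerivAt (pk c φ 2) (c * (d3 φ x + 2 * c * deriv φ x * d2 φ x)) x := fun x => by
    rw [funext (hN.pk_two c)]
    exact (((hN.hd2 x).const_mul c).add (((hN.hd1 x).pow 2).const_mul (c ^ 2))).congr_deriv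
      (by simp; ring)
  constructor
  · intro hs x hx y _ hxy
    exact GapQ1_ge hd hxy fun z h1 _ =>
      mul_nonpos_of_nonneg_of_nonpos hc.le (by linarith [hs z (le_trans hx h1)])
  · intro ha x hx
    have h1 := (hd x).hasDerivWithinAt.nonpos_of_antitoneOn
      (uniqueDiffWithinAt_iff_accPt.1 (uniqueDiffOn_Ici 0 x hx)) ha
    have h2 := nonpos_of_mul_nonpos_right h1 hc
    linarith

/-- `pk c (chStep c τ φ) 2 = mk c φ 2 τ` by `Nice.pk_two`, `U_eq`, `V_eq`; `ge_heat_ratio` -/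
theorem ShE.chStep (h : Adm b φ) (hc : 0 < c) (hcb : c ≤ b) (hs : ShE c φ) (τ : ℝ) :
    ShE c (chStep c τ φ) := by

  have hN := h.toNice
  have hA := h.chStep hc hcb τ
  have e : pk c (R339.chStep c τ φ) 2 = mk c φ 2 τ := by
    funext x
    have h1 := U_eq hN hc τ x
    have h2 := V_eq hN hc τ x
    rw [hA.toNice.pk_two]
    simp only [U, V] at h1 h2
    rw [h1, h2]
    field_simp
    ring
  rw [shE_iff hA hc, e]
  intro x hx y _ hxy
  have hc0 := hN.cont
  have key := ge_heat_ratio (hN.eg_exp c) (by fun_prop) (fun y => (exp_pos _).le)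
    (fun y => by rw [h.even]) (hN.bs_pk c 2 0).eg (hN.bs_pk c 2 0).cont.measurable
    (fun y => by rw [hN.pk_two, hN.pk_two, h.d2_neg, h.d1_neg]; ring) ((shE_iff h hc).1 hs) τ hx hxy
  have e0 : ∀ z, Ek c φ 0 τ z = heat τ (fun y => exp (c * φ y)) z := fun z => by simp [Ek, pk]
  unfold mk
  rw [div_le_div_iff₀ (Ek_zero_pos hN c τ y) (Ek_zero_pos hN c τ x), e0, e0]
  exact key

theorem shE_Fb (hb : 0 < b) : ShE b (Fb b) := fun x _ => (d3_Fb hb x).le

/-- downward induction (`Ph_last`, `Ph_succ`, `ShE.mono`) -/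
theorem shE_Ph {K : ℕ} {c : ℕ → ℝ} (h : Par b K c) {l : ℕ} (hl : l < K) :
    ShE (c l) (Ph b K c (l + 1)) := by

  have key : ∀ n l : ℕ, l + 1 + n = K → ShE (c l) (Ph b K c (l + 1)) := by
    intro n
    induction n with
    | zero =>
      intro l hl
      rw [show l + 1 = K by omega, Ph_last]
      exact (shE_Fb h.b_pos).mono (adm_Fb h.b_pos) (h.le l)
    | succ n ih =>
      intro l hl
      have h1 := (ih (l + 1) (by omega)).chStep (adm_Ph h _) (h.pos _) (h.le _) (1 / K)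
      rw [← Ph_succ b c (by omega : l + 1 < K)] at h1
      exact h1.mono (adm_Ph h _) (h.mono (Nat.le_succ l))
  exact key (K - (l + 1)) l (by omega)

end Crest.Agent.R339.P
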