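import Crest.Agent.R339.P.BS

/-!
# Row 339, part P6: the shape classes

`ShE c φ` is the shape fact (i) of the plan, `ShQ q r r'` the shape fact (iii).
The derivatives of a nice profile are `Nice.hd0 … Nice.hd3` of `P/BS.lean`.
-/

set_option autoImplicit false

noncomputable section

namespace Crest.Agent.R339.P

open MeasureTheory ProbabilityTheory Real Set Function

/-- shape fact (i): `w ≤ -2 c u v` on the half line -/
def ShE (c : ℝ) (φ : ℝ → ℝ) : Prop := ∀ x, 0 ≤ x → d3 φ x ≤ -(2 * c * deriv φ x * d2 φ x)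

/-- shape fact (iii): `q` is positive and even, `r = -(log q)'` is nonnegative and concave on the
half line -/
structure ShQ (q r r' : ℝ → ℝ) : Prop where
  pos : ∀ x, 0 < q x
  even : ∀ x, q (-x) = q x
  dq : ∀ x, HasDerivAt q (-(r x * q x)) x
  dr : ∀ x, HasDerivAt r (r' x) x
  anti : AntitoneOn r' (Ici 0)
  nn : ∀ x, 0 ≤ x → 0 ≤ r x

variable {q r r' φ : ℝ → ℝ} {b : ℝ}

theorem Nice.cont4 (h : Nice φ) : Continuous (d4 φ) := (h.bs 3).2.2.2.2.2.2.1

theorem Nice.bdd3 (h : Nice φ) : ∃ C, ∀ x, |d3 φ x| ≤ C := (h.bs 2).2.2.2.2.2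

theorem Nice.bdd4 (h : Nice φ) : ∃ C, ∀ x, |d4 φ x| ≤ C := (h.bs 3).2.2.2.2.2.2.2

theorem GapQ1_le {f f' : ℝ → ℝ} (hf : ∀ x, HasDerivAt f (f' x) x) {a b : ℝ} (hab : a ≤ b)
    (h : ∀ x, a ≤ x → x ≤ b → 0 ≤ f' x) : f a ≤ f b := by
  rcases hab.eq_or_lt with rfl | hlt
  · exact le_rfl
  obtain ⟨c, hc, hc'⟩ := exists_hasDerivAt_eq_slope f f' hlt
    (fun x _ => (hf x).continuousAt.continuousWithinAt) fun x _ => hf x
  have h1 := h c hc.1.le hc.2.le
  rw [hc'] at h1
  have h2 := mul_nonneg h1 (sub_pos.2 hlt).le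
  rw [div_mul_cancel₀ _ (sub_pos.2 hlt).ne'] at h2
  linarith

theorem GapQ1_ge {f f' : ℝ → ℝ} (hf : ∀ x, HasDerivAt f (f' x) x) {a b : ℝ} (hab : a ≤ b)
    (h : ∀ x, a ≤ x → x ≤ b → f' x ≤ 0) : f b ≤ f a := by
  have := GapQ1_le (f := fun x => -f x) (f' := fun x => -f' x) (fun x => (hf x).neg) hab
    fun x h1 h2 => neg_nonneg.2 (h x h1 h2)
  linarith

/-- the derivative of an even (`s = 1`) or odd (`s = -1`) function -/
theorem gq_parity {f f' : ℝ → ℝ} {s : ℝ} (hf : ∀ x, HasDerivAt f (f' x) x)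
    (h : ∀ x, f (-x) = s * f x) (x : ℝ) : f' (-x) = -s * f' x := by
  have h1 : HasDerivAt (fun y => f (-y)) (f' (-x) * -1) x := (hf (-x)).comp x (hasDerivAt_neg x)
  have h2 : HasDerivAt (fun y => f (-y)) (s * f' x) x := by
    simp only [h]; exact (hf x).const_mul s
  have := h1.unique h2
  linarith

theorem Adm.d1_neg (h : Adm b φ) (x : ℝ) : deriv φ (-x) = -deriv φ x := by
  simpa using gq_parity (s := 1) h.toNice.hd0 (fun x => by simpa using h.even x) x

theorem Adm.d2_neg (h : Adm b φ) (x : ℝ) : d2 φ (-x) = d2 φ x := by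
  simpa using gq_parity (s := -1) h.toNice.hd1 (fun x => by simpa using h.d1_neg x) x

theorem Adm.d3_neg (h : Adm b φ) (x : ℝ) : d3 φ (-x) = -d3 φ x := by
  simpa using gq_parity (s := 1) h.toNice.hd2 (fun x => by simpa using h.d2_neg x) x

theorem Adm.d4_neg (h : Adm b φ) (x : ℝ) : d4 φ (-x) = d4 φ x := by
  simpa using gq_parity (s := -1) h.toNice.hd3 (fun x => by simpa using h.d3_neg x) x

theorem Adm.d1_nonneg (h : Adm b φ) {x : ℝ} (hx : 0 ≤ x) : 0 ≤ deriv φ x := by
  have h0 : deriv φ 0 = 0 := by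
    have := h.d1_neg 0
    rw [neg_zero] at this
    linarith
  have := GapQ1_le h.toNice.hd1 hx fun y _ _ => (h.pos y).le
  linarith

theorem Adm.d2_le_abs (h : Adm b φ) (x : ℝ) : d2 φ x ≤ |b| := by
  have h1 := h.le x
  have h2 : deriv φ x ^ 2 ≤ 1 := by
    have := h.lip x
    rw [← sq_abs]
    nlinarith [abs_nonneg (deriv φ x)]
  have h3 : b * (1 - deriv φ x ^ 2) ≤ |b| * (1 - deriv φ x ^ 2) :=
    mul_le_mul_of_nonneg_right (le_abs_self b) (by linarith)
  nlinarith [abs_nonneg b, sq_nonneg (deriv φ x)]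

theorem ShE.mono (h : Adm b φ) {c c' : ℝ} (hs : ShE c φ) (hc : c' ≤ c) : ShE c' φ := by
  intro x hx
  have h1 := hs x hx
  have h2 := mul_nonneg (h.d1_nonneg hx) (h.pos x).le
  nlinarith

theorem GapQ1_d3 (h : Adm b φ) {c : ℝ} (hc : 0 ≤ c) (hs : ShE c φ) {x : ℝ} (hx : 0 ≤ x) :
    d3 φ x ≤ 0 := by
  have h1 := hs x hx
  have h2 := mul_nonneg hc (mul_nonneg (h.d1_nonneg hx) (h.pos x).le)
  nlinarith

/-- `v` is nonincreasing on the half line -/
theorem ShE.anti (h : Adm b φ) {c : ℝ} (hc : 0 ≤ c) (hs : ShE c φ) :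
    AntitoneOn (d2 φ) (Ici 0) := by
  intro x hx y _ hxy
  exact GapQ1_ge h.toNice.hd2 hxy fun z h1 _ => GapQ1_d3 h hc hs (le_trans hx h1)

/-- shape fact (ii): `x v ≤ u` (the function `u - x v` has derivative `- x w ≥ 0`) -/
theorem ShE.mul_d2_le (h : Adm b φ) {c : ℝ} (hc : 0 ≤ c) (hs : ShE c φ) {x : ℝ} (hx : 0 ≤ x) :
    x * d2 φ x ≤ deriv φ x := by
  have hd : ∀ y, HasDerivAt (fun y => deriv φ y - y * d2 φ y) (-(y * d3 φ y)) y := by
    intro y
    have := (h.toNice.hd1 y).fun_sub ((hasDerivAt_id' y).fun_mul (h.toNice.hd2 y))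
    exact this.congr_deriv (by ring)
  have h1 := GapQ1_le hd hx fun y h1 _ =>
    neg_nonneg.2 (mul_nonpos_of_nonneg_of_nonpos h1 (GapQ1_d3 h hc hs h1))
  have h2 := h.d1_nonneg (le_refl 0)
  simp only [zero_mul, sub_zero] at h1
  linarith

/-- Glaeser's inequality: `0 < v (x + t) ≤ v x + t w x + M t² / 2` for all `t`. -/
theorem Adm.glaeser (h : Adm b φ) : ∃ M : ℝ, 0 ≤ M ∧ ∀ x, d3 φ x ^ 2 ≤ M * d2 φ x := by
  obtain ⟨C, hC⟩ := h.toNice.bdd4
  have hC0 : 0 ≤ C := le_trans (abs_nonneg _) (hC 0)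
  refine ⟨2 * C, by positivity, fun x => ?_⟩
  have hd1 : ∀ t, HasDerivAt (fun t => d3 φ x + C * t - d3 φ (x + t)) (C - d4 φ (x + t)) t := by
    intro t
    have := (((hasDerivAt_id' t).const_mul C).const_add (d3 φ x)).fun_sub
      ((h.toNice.hd3 (x + t)).comp t ((hasDerivAt_id' t).const_add x))
    exact this.congr_deriv (by ring)
  have hd0 : ∀ t, HasDerivAt (fun t => d2 φ x + t * d3 φ x + C / 2 * (t * t) - d2 φ (x + t))
      (d3 φ x + C * t - d3 φ (x + t)) t := by
    intro t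
    have := (((((hasDerivAt_id' t).mul_const (d3 φ x)).const_add (d2 φ x))).fun_add
      (((hasDerivAt_id' t).fun_mul (hasDerivAt_id' t)).const_mul (C / 2))).fun_sub
      ((h.toNice.hd2 (x + t)).comp t ((hasDerivAt_id' t).const_add x))
    exact this.congr_deriv (by ring)
  have hz : ∀ t, 0 ≤ C - d4 φ (x + t) := fun t => by linarith [le_abs_self (d4 φ (x + t)), hC (x + t)]
  have key : ∀ t, 0 ≤ C / 2 * (t * t) + d3 φ x * t + d2 φ x := by
    intro t
    have hp := h.pos (x + t)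
    rcases le_total 0 t with ht | ht
    · have := GapQ1_le hd0 ht fun y h1 _ => by
        have := GapQ1_le hd1 h1 fun z _ _ => hz z
        simp only [mul_zero, add_zero, sub_self] at this
        exact this
      simp only [zero_mul, mul_zero, add_zero, sub_self] at this
      linarith
    · have := GapQ1_ge hd0 ht fun y _ h1 => by
        have := GapQ1_le hd1 h1 fun z _ _ => hz z
        simp only [mul_zero, add_zero, sub_self] at this
        exact this
      simp only [zero_mul, mul_zero, add_zero, sub_self] at this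
      linarith
  have := discrim_le_zero key
  rw [discrim] at this
  linarith

namespace ShQ

theorem cont (h : ShQ q r r') : Continuous q := by
  exact continuous_iff_continuousAt.2 fun x => (h.dq x).continuousAt

theorem r_neg (h : ShQ q r r') (x : ℝ) : r (-x) = -r x := by
  have h1 := gq_parity (s := 1) h.dq (fun x => by simpa using h.even x) x
  rw [h.even] at h1
  have h2 : (r (-x) + r x) * q x = 0 := by linarith
  rcases mul_eq_zero.1 h2 with h3 | h3
  · linarith
  · exact absurd h3 (h.pos x).ne'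

theorem r'_neg (h : ShQ q r r') (x : ℝ) : r' (-x) = r' x := by
  simpa using gq_parity (s := -1) h.dr (fun x => by simpa using h.r_neg x) x

theorem r_zero (h : ShQ q r r') : r 0 = 0 := by
  have := h.r_neg 0
  rw [neg_zero] at this
  linarith

theorem r'_le (h : ShQ q r r') {x y : ℝ} (hxy : |x| ≤ |y|) : r' y ≤ r' x := by
  have e : ∀ z, r' z = r' |z| := fun z => by
    rcases abs_choice z with h1 | h1 <;> rw [h1]
    exact (h.r'_neg z).symm
  rw [e x, e y]
  exact h.anti (abs_nonneg x) (abs_nonneg y) hxy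

/-- otherwise `r y ≤ r x + r' x (y - x) → -∞` -/
theorem r'_nonneg (h : ShQ q r r') (x : ℝ) : 0 ≤ r' x := by
  by_contra hn
  push Not at hn
  have hn' : r' |x| < 0 := lt_of_le_of_lt (h.r'_le (by simp)) hn
  set a := |x| with ha
  have ha0 : 0 ≤ a := abs_nonneg x
  have hra := h.nn a ha0
  set t := (r a + 1) / (-r' a) with ht
  have ht0 : 0 ≤ t := div_nonneg (by linarith) (by linarith)
  have hd : ∀ y, HasDerivAt (fun y => r y - r' a * y) (r' y - r' a) y := fun y => by
    have := (h.dr y).fun_sub ((hasDerivAt_id' y).const_mul (r' a))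
    exact this.congr_deriv (by ring)
  have h1 := GapQ1_ge hd (show a ≤ a + t by linarith) fun y h1 _ =>
    sub_nonpos.2 (h.anti ha0 (le_trans ha0 h1) h1)
  have h2 := h.nn (a + t) (by linarith)
  have h3 : r' a * t = -(r a + 1) := by
    rw [ht]; field_simp [hn'.ne]
  nlinarith

/-- mean value theorem on `[0, x]` -/
theorem mul_r'_le (h : ShQ q r r') {x : ℝ} (hx : 0 ≤ x) : x * r' x ≤ r x := by
  have hd : ∀ y, HasDerivAt (fun y => r y - r' x * y) (r' y - r' x) y := fun y => by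
    have := (h.dr y).fun_sub ((hasDerivAt_id' y).const_mul (r' x))
    exact this.congr_deriv (by ring)
  have h1 := GapQ1_le hd hx fun y h1 h2 => sub_nonneg.2 (h.anti h1 hx h2)
  simp only [h.r_zero, mul_zero, sub_zero] at h1
  linarith

theorem r_le (h : ShQ q r r') {x : ℝ} (hx : 0 ≤ x) : r x ≤ r' 0 * x := by
  have hd : ∀ y, HasDerivAt (fun y => r y - r' 0 * y) (r' y - r' 0) y := fun y => by
    have := (h.dr y).fun_sub ((hasDerivAt_id' y).const_mul (r' 0))
    exact this.congr_deriv (by ring)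
  have h1 := GapQ1_ge hd hx fun y h1 _ => sub_nonpos.2 (h.anti (le_refl (0 : ℝ)) h1 h1)
  simp only [h.r_zero, mul_zero, sub_zero] at h1
  linarith

theorem q_le (h : ShQ q r r') {x y : ℝ} (hxy : |x| ≤ |y|) : q y ≤ q x := by
  have e : ∀ z, q z = q |z| := fun z => by
    rcases abs_choice z with h1 | h1 <;> rw [h1]
    exact (h.even z).symm
  rw [e x, e y]
  exact GapQ1_ge h.dq hxy fun z h1 _ =>
    neg_nonpos.2 (mul_nonneg (h.nn z (le_trans (abs_nonneg x) h1)) (h.pos z).le)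

theorem const_mul (h : ShQ q r r') {a : ℝ} (ha : 0 < a) : ShQ (fun x => a * q x) r r' := by
  exact ⟨fun x => mul_pos ha (h.pos x), fun x => by rw [h.even],
    fun x => ((h.dq x).const_mul a).congr_deriv (by ring), h.dr, h.anti, h.nn⟩

theorem mul_exp (h : ShQ q r r') (hφ : Adm b φ) {c μ : ℝ} (hc : 0 ≤ c) (hs : ShE c φ)
    (hμ : 0 ≤ μ) : ShQ (fun x => q x * exp (-(μ * φ x))) (fun x => r x + μ * deriv φ x)
      fun x => r' x + μ * d2 φ x := by
  refine ⟨fun x => mul_pos (h.pos x) (exp_pos _), fun x => by rw [h.even, hφ.even], fun x => ?_,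
    fun x => (h.dr x).fun_add ((hφ.toNice.hd1 x).const_mul μ), fun x hx y hy hxy => ?_,
    fun x hx => add_nonneg (h.nn x hx) (mul_nonneg hμ (hφ.d1_nonneg hx))⟩
  · have := (h.dq x).fun_mul (((hφ.toNice.hd0 x).const_mul μ).fun_neg.exp)
    exact this.congr_deriv (by ring)
  · exact add_le_add (h.anti hx hy hxy)
      (mul_le_mul_of_nonneg_left (ShE.anti hφ hc hs hx hy hxy) hμ)

end ShQ

theorem shQ_gauss {τ : ℝ} (hτ : 0 < τ) :
    ShQ (fun x => exp (-x ^ 2 / (2 * τ))) (fun x => x / τ) fun _ => 1 / τ := by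
  refine ⟨fun x => exp_pos _, fun x => by rw [neg_sq], fun x => ?_,
    fun x => (hasDerivAt_id' x).div_const τ, fun _ _ _ _ _ => le_rfl,
    fun x hx => div_nonneg hx hτ.le⟩
  have := (((hasDerivAt_pow 2 x).fun_neg).div_const (2 * τ)).exp
  refine this.congr_deriv ?_
  simp only [Nat.cast_ofNat, Nat.add_one_sub_one, pow_one]
  field_simp

end Crest.Agent.R339.P
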