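import Crest.Agent.R339.P.GapQ1

/-!
# Row 339, part P6: a third moment inequality (single crossing)
-/

set_option autoImplicit false

noncomputable section

namespace Crest.Agent.R339.P

open MeasureTheory ProbabilityTheory Real Set Function

/-- Let `N = {t > 0 | δ t < 0}`, an initial interval.  If `N` is unbounded then `δ < 0` on `(0, ∞)`,
contradicting `h0` (`setIntegral_eq_zero_iff_of_nonneg_ae` or `integral_eq_zero_iff_of_nonneg_ae`).
Otherwise let `t₀ = sSup N` (`= 0` if `N` is empty): `t (t² - t₀²) δ t ≥ 0` for `t > 0`. -/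
theorem single_crossing {δ : ℝ → ℝ} (hδ : ∀ t' t, 0 < t' → t' ≤ t → δ t < 0 → δ t' < 0)
    (i1 : IntegrableOn (fun t => t * δ t) (Ioi 0)) (i3 : IntegrableOn (fun t => t ^ 3 * δ t) (Ioi 0))
    (h0 : ∫ t in Ioi 0, t * δ t = 0) : 0 ≤ ∫ t in Ioi 0, t ^ 3 * δ t := by
  set N : Set ℝ := {t | 0 < t ∧ δ t < 0} with hN
  by_cases hb : BddAbove N
  · have ht0 : 0 ≤ sSup N := Real.sSup_nonneg fun x hx => hx.1.le
    have key : ∀ t ∈ Ioi (0 : ℝ), 0 ≤ t ^ 3 * δ t - sSup N ^ 2 * (t * δ t) := by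
      intro t ht
      have ht' : 0 < t := ht
      have e : t ^ 3 * δ t - sSup N ^ 2 * (t * δ t) = t * ((t + sSup N) * ((t - sSup N) * δ t)) := by
        ring
      rw [e]
      refine mul_nonneg ht'.le (mul_nonneg (by linarith) ?_)
      rcases lt_or_ge (δ t) 0 with h | h
      · exact mul_nonneg_of_nonpos_of_nonpos (sub_nonpos.2 (le_csSup hb ⟨ht', h⟩)) h.le
      · refine mul_nonneg (sub_nonneg.2 ?_) h
        refine Real.sSup_le (fun s hs => ?_) ht'.le
        by_contra hlt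
        exact absurd (hδ t s ht' (not_le.1 hlt).le hs.2) (not_lt.2 h)
    have h1 := setIntegral_nonneg (μ := volume) measurableSet_Ioi key
    rw [integral_sub i3 (i1.const_mul _), integral_const_mul, h0, mul_zero, sub_zero] at h1
    exact h1
  · exfalso
    have hneg : ∀ t, 0 < t → δ t < 0 := by
      intro t ht
      obtain ⟨s, hs, hts⟩ := not_bddAbove_iff.1 hb t
      exact hδ t s ht hts.le hs.2
    have h1 : 0 < ∫ t in Ioi 0, -(t * δ t) := by
      rw [setIntegral_pos_iff_support_of_nonneg_ae (f := fun t => -(t * δ t)) _ i1.neg]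
      · have : (support fun t => -(t * δ t)) ∩ Ioi 0 = Ioi (0 : ℝ) := by
          refine inter_eq_right.2 fun t ht => ?_
          exact neg_ne_zero.2 (mul_neg_of_pos_of_neg ht (hneg t ht)).ne
        rw [this]
        simp
      · filter_upwards [ae_restrict_mem measurableSet_Ioi] with t ht
        exact neg_nonneg.2 (mul_neg_of_pos_of_neg ht (hneg t ht)).le
    rw [integral_neg, h0, neg_zero] at h1
    exact lt_irrefl _ h1

/-- `∫ f = ∫_{t > 0} (f (m + t) + f (m - t))`. -/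
theorem integral_fold {f : ℝ → ℝ} (hf : Integrable f) (m : ℝ) :
    IntegrableOn (fun t => f (m + t) + f (m - t)) (Ioi 0) ∧
      ∫ y, f y = ∫ t in Ioi 0, (f (m + t) + f (m - t)) := by
  have a1 : Integrable fun t => f (m + t) := hf.comp_add_left m
  have a2 : Integrable fun t => f (m - t) := hf.comp_sub_left m
  refine ⟨a1.integrableOn.add a2.integrableOn, ?_⟩
  rw [integral_add a1.integrableOn a2.integrableOn, ← integral_add_left_eq_self f m,
    ← setIntegral_univ, ← Iic_union_Ioi (a := (0 : ℝ)),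
    setIntegral_union (Iic_disjoint_Ioi le_rfl) measurableSet_Ioi a1.integrableOn a1.integrableOn,
    add_comm]
  congr 1
  have := integral_comp_neg_Ioi (0 : ℝ) fun t => f (m + t)
  rw [neg_zero] at this
  rw [← this]
  simp only [sub_eq_add_neg]

/-- `D t = ψ (m - t) - ψ (m + t)` has `D 0 = 0` and `D'' t = ψ'' (m - t) - ψ'' (m + t) ≥ 0` for
`t ≥ 0`, so `D` is convex on `[0, ∞)` and `D t < 0`, `0 < t' ≤ t` give `D t' < 0`.  Apply
`single_crossing` to `δ t = exp (-ψ (m + t)) - exp (-ψ (m - t))` (`integral_fold`). -/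
theorem third_nonneg {ψ ψ' ψ'' : ℝ → ℝ} (h1 : ∀ y, HasDerivAt ψ (ψ' y) y)
    (h2 : ∀ y, HasDerivAt ψ' (ψ'' y) y) (ha : ∀ x y, |x| ≤ |y| → ψ'' y ≤ ψ'' x) {m : ℝ}
    (hm : 0 ≤ m) (i1 : Integrable fun y => (y - m) * exp (-ψ y))
    (i3 : Integrable fun y => (y - m) ^ 3 * exp (-ψ y))
    (h0 : ∫ y, (y - m) * exp (-ψ y) = 0) : 0 ≤ ∫ y, (y - m) ^ 3 * exp (-ψ y) := by
  have d1 : ∀ t, HasDerivAt (fun t => ψ (m - t) - ψ (m + t)) (-ψ' (m - t) - ψ' (m + t)) t := by
    intro t
    have := ((h1 (m - t)).comp t ((hasDerivAt_id' t).const_sub m)).fun_sub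
      ((h1 (m + t)).comp t ((hasDerivAt_id' t).const_add m))
    exact this.congr_deriv (by ring)
  have d2 : ∀ t, HasDerivAt (fun t => -ψ' (m - t) - ψ' (m + t)) (ψ'' (m - t) - ψ'' (m + t)) t := by
    intro t
    have := ((h2 (m - t)).comp t ((hasDerivAt_id' t).const_sub m)).fun_neg.fun_sub
      ((h2 (m + t)).comp t ((hasDerivAt_id' t).const_add m))
    exact this.congr_deriv (by ring)
  have hD : ∀ t' t, 0 < t' → t' ≤ t → ψ (m - t) - ψ (m + t) < 0 → ψ (m - t') - ψ (m + t') < 0 := by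
    intro t' t ht' htt hlt
    by_contra hge
    have hge' := not_lt.1 hge
    obtain ⟨ξ, hξ, hξ'⟩ := exists_hasDerivAt_eq_slope _ _ ht'
      (fun x _ => (d1 x).continuousAt.continuousWithinAt) fun x _ => d1 x
    have hξ0 : 0 ≤ -ψ' (m - ξ) - ψ' (m + ξ) := by
      rw [hξ']
      simp only [sub_zero, add_zero, sub_self]
      exact div_nonneg hge' ht'.le
    have := GapQ1_le d1 htt fun y hy _ => by
      refine le_trans hξ0 (GapQ1_le d2 (le_trans hξ.2.le hy) fun z hz _ => sub_nonneg.2 (ha _ _ ?_))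
      have hz0 : 0 ≤ z := le_trans hξ.1.le hz
      rw [abs_of_nonneg (add_nonneg hm hz0), abs_le]
      constructor <;> linarith
    linarith
  obtain ⟨j1, e1⟩ := integral_fold i1 m
  obtain ⟨j3, e3⟩ := integral_fold i3 m
  have f1 : (fun t => (m + t - m) * exp (-ψ (m + t)) + (m - t - m) * exp (-ψ (m - t)))
      = fun t => t * (exp (-ψ (m + t)) - exp (-ψ (m - t))) := by
    funext t; ring
  have f3 : (fun t => (m + t - m) ^ 3 * exp (-ψ (m + t)) + (m - t - m) ^ 3 * exp (-ψ (m - t)))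
      = fun t => t ^ 3 * (exp (-ψ (m + t)) - exp (-ψ (m - t))) := by
    funext t; ring
  rw [f1] at j1 e1
  rw [f3] at j3 e3
  rw [e3]
  refine single_crossing (δ := fun t => exp (-ψ (m + t)) - exp (-ψ (m - t))) ?_ j1 j3 (e1 ▸ h0)
  intro t' t ht' htt hlt
  have a1 : -ψ (m + t) < -ψ (m - t) := exp_lt_exp.1 (sub_neg.1 hlt)
  have a2 := hD t' t ht' htt (by linarith)
  exact sub_neg.2 (exp_lt_exp.2 (by linarith))

end Crest.Agent.R339.P
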