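import Crest.Agent.R339.P.GapQ2

/-!
# Row 339, part P6: the class `ShQ` is stable under the heat flow
-/

set_option autoImplicit false

noncomputable section

namespace Crest.Agent.R339.P

open MeasureTheory ProbabilityTheory Real Set Function

variable {q r r' : ℝ → ℝ} {τ : ℝ}

/-- tilted moments -/
def Mo (q : ℝ → ℝ) (τ : ℝ) (n : ℕ) (θ : ℝ) : ℝ :=
  ∫ y, y ^ n * (q y * exp (θ * y - y ^ 2 / (2 * τ)))

/-- `q ≤ q 0` -/
theorem ShQ.integrable_Mo (h : ShQ q r r') (hτ : 0 < τ) (n : ℕ) (θ : ℝ) :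
    Integrable fun y => y ^ n * (q y * exp (θ * y - y ^ 2 / (2 * τ))) := by
  have hb : 0 < 1 / (4 * τ) := by positivity
  have h1 := (integrable_rpow_mul_exp_neg_mul_sq hb (s := (n : ℝ))
    (by linarith [Nat.cast_nonneg (α := ℝ) n])).norm.const_mul (q 0 * exp (τ * θ ^ 2))
  have hc := h.cont
  refine h1.mono' (by fun_prop) (ae_of_all _ fun y => ?_)
  rw [rpow_natCast, norm_mul, norm_mul, norm_mul, Real.norm_of_nonneg (h.pos y).le,
    Real.norm_of_nonneg (exp_pos _).le, Real.norm_of_nonneg (exp_pos _).le]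
  have h2 : q y ≤ q 0 := h.q_le (by simp)
  have h3 : exp (θ * y - y ^ 2 / (2 * τ)) ≤ exp (τ * θ ^ 2) * exp (-(1 / (4 * τ)) * y ^ 2) := by
    rw [← exp_add, exp_le_exp, ← sub_nonneg]
    have : τ * θ ^ 2 + -(1 / (4 * τ)) * y ^ 2 - (θ * y - y ^ 2 / (2 * τ)) =
        (2 * τ * θ - y) ^ 2 / (4 * τ) := by
      field_simp
      ring
    rw [this]
    positivity
  calc _ ≤ ‖y ^ n‖ * (q 0 * (exp (τ * θ ^ 2) * exp (-(1 / (4 * τ)) * y ^ 2))) :=
        mul_le_mul_of_nonneg_left (mul_le_mul h2 h3 (exp_pos _).le (h.pos 0).le) (norm_nonneg _)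
    _ = _ := by ring

/-- `hasDerivAt_integral_of_dominated_loc_of_deriv_le`; for `|θ' - θ| < 1` the derivative is bounded
by `|y| ^ (n + 1) q y (exp ((θ + 1) y - …) + exp ((θ - 1) y - …))`. -/
theorem ShQ.hasDerivAt_Mo (h : ShQ q r r') (hτ : 0 < τ) (n : ℕ) (θ : ℝ) :
    HasDerivAt (Mo q τ n) (Mo q τ (n + 1) θ) θ := by
  have hc := h.cont
  refine (hasDerivAt_integral_of_dominated_loc_of_deriv_le (μ := volume)
    (F := fun θ y => y ^ n * (q y * exp (θ * y - y ^ 2 / (2 * τ))))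
    (F' := fun θ y => y ^ (n + 1) * (q y * exp (θ * y - y ^ 2 / (2 * τ))))
    (bound := fun y => ‖y ^ (n + 1) * (q y * exp ((θ + 1) * y - y ^ 2 / (2 * τ)))‖ +
      ‖y ^ (n + 1) * (q y * exp ((θ - 1) * y - y ^ 2 / (2 * τ)))‖)
    (Ioo_mem_nhds (by linarith : θ - 1 < θ) (by linarith : θ < θ + 1))
    (Filter.Eventually.of_forall fun θ' => (h.integrable_Mo hτ n θ').aestronglyMeasurable)
    (h.integrable_Mo hτ n θ) (h.integrable_Mo hτ (n + 1) θ).aestronglyMeasurable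
    (ae_of_all _ fun y θ' hθ' => ?_)
    ((h.integrable_Mo hτ (n + 1) _).norm.add (h.integrable_Mo hτ (n + 1) _).norm)
    (ae_of_all _ fun y θ' _ => ?_)).2
  · simp only [norm_mul, Real.norm_of_nonneg (exp_pos _).le]
    rw [← mul_add, ← mul_add]
    refine mul_le_mul_of_nonneg_left (mul_le_mul_of_nonneg_left ?_ (norm_nonneg _)) (norm_nonneg _)
    rcases le_total 0 y with hy | hy
    · refine le_add_of_le_of_nonneg (exp_le_exp.2 ?_) (exp_pos _).le
      nlinarith [hθ'.2]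
    · refine le_add_of_nonneg_of_le (exp_pos _).le (exp_le_exp.2 ?_)
      nlinarith [hθ'.1]
  · have := (((((hasDerivAt_id' θ').mul_const y).sub_const (y ^ 2 / (2 * τ))).exp).const_mul
      (q y)).const_mul (y ^ n)
    exact this.congr_deriv (by ring)

theorem ShQ.Mo_pos (h : ShQ q r r') (hτ : 0 < τ) (θ : ℝ) : 0 < Mo q τ 0 θ := by
  have hc := h.cont
  refine integral_pos_of_integrable_nonneg_nonzero (x := 0) (by fun_prop) (h.integrable_Mo hτ 0 θ)
    (fun y => ?_) ?_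
  · exact mul_nonneg (by simp) (mul_pos (h.pos y) (exp_pos _)).le
  · exact (mul_pos (by simp) (mul_pos (h.pos 0) (exp_pos _))).ne'

/-- symmetrise `y ↦ -y` (`integral_neg_eq_self`) -/
theorem ShQ.Mo_one_nonneg (h : ShQ q r r') (hτ : 0 < τ) {θ : ℝ} (hθ : 0 ≤ θ) :
    0 ≤ Mo q τ 1 θ := by
  unfold Mo
  rw [(integral_fold (h.integrable_Mo hτ 1 θ) 0).2]
  refine setIntegral_nonneg measurableSet_Ioi fun t ht => ?_
  have ht' : 0 < t := ht
  rw [zero_add, zero_sub, h.even, neg_sq, pow_one, pow_one]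
  have h1 : exp (θ * -t - t ^ 2 / (2 * τ)) ≤ exp (θ * t - t ^ 2 / (2 * τ)) :=
    exp_le_exp.2 (by nlinarith)
  have := mul_le_mul_of_nonneg_left h1 (mul_pos ht' (h.pos t)).le
  linarith

/-- `exp (-x² / 2τ) (x M₀ - M₁) = ∫ (x - y) q y exp (-(y - x)² / 2τ)`, and by `integral_fold` (with
`m = x`) this is `∫_{t>0} t (q (x - t) - q (x + t)) exp (-t² / 2τ) ≥ 0` (`ShQ.q_le`). -/
theorem ShQ.Mo_one_le (h : ShQ q r r') (hτ : 0 < τ) {x : ℝ} (hx : 0 ≤ x) :
    Mo q τ 1 (x / τ) ≤ x * Mo q τ 0 (x / τ) := by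
  have i0 := h.integrable_Mo hτ 0 (x / τ)
  have i1 := h.integrable_Mo hτ 1 (x / τ)
  unfold Mo
  rw [← sub_nonneg, ← integral_const_mul, ← integral_sub (i0.const_mul x) i1,
    (integral_fold ((i0.const_mul x).sub' i1) x).2]
  refine setIntegral_nonneg measurableSet_Ioi fun t ht => ?_
  have ht' : 0 < t := ht
  have e : x / τ * (x - t) - (x - t) ^ 2 / (2 * τ) = x / τ * (x + t) - (x + t) ^ 2 / (2 * τ) := by
    field_simp
    ring
  have h1 : q (x + t) ≤ q (x - t) := h.q_le (by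
    rw [abs_of_nonneg (by linarith : 0 ≤ x + t), abs_le]
    constructor <;> linarith)
  rw [e]
  have := mul_le_mul_of_nonneg_left h1
    (mul_pos ht' (exp_pos (x / τ * (x + t) - (x + t) ^ 2 / (2 * τ)))).le
  linarith

/-- `third_nonneg` with `ψ y = -log (q y) + y² / 2τ - θ y`, `m = M₁ / M₀`; the expression is
`M₀² ∫ (y - m)³ exp (-ψ y)`. -/
theorem ShQ.kappa3 (h : ShQ q r r') (hτ : 0 < τ) {θ : ℝ} (hθ : 0 ≤ θ) :
    0 ≤ Mo q τ 3 θ * Mo q τ 0 θ ^ 2 - 3 * Mo q τ 1 θ * Mo q τ 2 θ * Mo q τ 0 θ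
      + 2 * Mo q τ 1 θ ^ 3 := by
  have i0 := h.integrable_Mo hτ 0 θ
  have i1 := h.integrable_Mo hτ 1 θ
  have i2 := h.integrable_Mo hτ 2 θ
  have i3 := h.integrable_Mo hτ 3 θ
  have hM := h.Mo_pos hτ θ
  set m := Mo q τ 1 θ / Mo q τ 0 θ with hm
  have hm0 : 0 ≤ m := div_nonneg (h.Mo_one_nonneg hτ hθ) hM.le
  have e : ∀ y, exp (-(-log (q y) + y ^ 2 / (2 * τ) - θ * y)) =
      q y * exp (θ * y - y ^ 2 / (2 * τ)) := fun y => by
    conv_rhs => rw [← exp_log (h.pos y), ← exp_add]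
    congr 1
    ring
  have e1 : (fun y => (y - m) * exp (-(-log (q y) + y ^ 2 / (2 * τ) - θ * y))) = fun y =>
      y ^ 1 * (q y * exp (θ * y - y ^ 2 / (2 * τ))) -
        m * (y ^ 0 * (q y * exp (θ * y - y ^ 2 / (2 * τ)))) := by
    funext y
    rw [e]
    ring
  have e3 : (fun y => (y - m) ^ 3 * exp (-(-log (q y) + y ^ 2 / (2 * τ) - θ * y))) = fun y =>
      (y ^ 3 * (q y * exp (θ * y - y ^ 2 / (2 * τ))) -
        3 * m * (y ^ 2 * (q y * exp (θ * y - y ^ 2 / (2 * τ))))) +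
      (3 * m ^ 2 * (y ^ 1 * (q y * exp (θ * y - y ^ 2 / (2 * τ)))) -
        m ^ 3 * (y ^ 0 * (q y * exp (θ * y - y ^ 2 / (2 * τ))))) := by
    funext y
    rw [e]
    ring
  have j1 := i3.sub' (i2.const_mul (3 * m))
  have j2 := (i1.const_mul (3 * m ^ 2)).sub' (i0.const_mul (m ^ 3))
  have key := third_nonneg (ψ := fun y => -log (q y) + y ^ 2 / (2 * τ) - θ * y)
    (ψ' := fun y => r y + y / τ - θ) (ψ'' := fun y => r' y + 1 / τ) (fun y => ?_) (fun y => ?_)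
    (fun x y hxy => by linarith [h.r'_le hxy]) hm0 (by rw [e1]; exact i1.sub (i0.const_mul m))
    (by rw [e3]; exact j1.add j2) ?_
  · rw [e3, integral_add j1 j2, integral_sub i3 (i2.const_mul _),
      integral_sub (i1.const_mul _) (i0.const_mul _), integral_const_mul, integral_const_mul,
      integral_const_mul] at key
    change 0 ≤ Mo q τ 3 θ - 3 * m * Mo q τ 2 θ + (3 * m ^ 2 * Mo q τ 1 θ - m ^ 3 * Mo q τ 0 θ)
      at key
    have e4 : Mo q τ 1 θ = m * Mo q τ 0 θ := by rw [hm, div_mul_cancel₀ _ hM.ne']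
    have := mul_nonneg key (sq_nonneg (Mo q τ 0 θ))
    rw [e4] at this ⊢
    linarith
  · have := ((((h.dq y).log (h.pos y).ne').fun_neg).fun_add
      ((hasDerivAt_pow 2 y).div_const (2 * τ))).fun_sub ((hasDerivAt_id' y).const_mul θ)
    refine this.congr_deriv ?_
    have := (h.pos y).ne'
    simp only [Nat.cast_ofNat, Nat.add_one_sub_one, pow_one]
    field_simp
  · exact ((h.dr y).fun_add ((hasDerivAt_id' y).div_const τ)).sub_const θ
  · rw [e1, integral_sub i1 (i0.const_mul m), integral_const_mul]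
    change Mo q τ 1 θ - m * Mo q τ 0 θ = 0
    rw [hm, div_mul_cancel₀ _ hM.ne', sub_self]

/-- change of variables `y = x + √τ g` (no integrability is needed:
`integral_gaussianReal_eq_integral_smul`, `Measure.integral_comp_mul_left`, `integral_add_left_eq_self`) -/
theorem heat_eq_Mo (q : ℝ → ℝ) (hτ : 0 < τ) (x : ℝ) :
    heat τ q x = (√(2 * π * τ))⁻¹ * exp (-x ^ 2 / (2 * τ)) * Mo q τ 0 (x / τ) := by
  have hs : 0 < √τ := sqrt_pos.2 hτ
  set G : ℝ → ℝ := fun y => (√(2 * π))⁻¹ * exp (-x ^ 2 / (2 * τ)) *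
    (y ^ 0 * (q y * exp (x / τ * y - y ^ 2 / (2 * τ)))) with hG
  have e : ∀ g, gaussianPDFReal 0 1 g • q (x + √τ * g) = G (x + √τ * g) := fun g => by
    have e1 : exp (-(g - 0) ^ 2 / 2) = exp (-x ^ 2 / (2 * τ)) *
        exp (x / τ * (x + √τ * g) - (x + √τ * g) ^ 2 / (2 * τ)) := by
      rw [← exp_add]
      congr 1
      have : (x + √τ * g) ^ 2 = x ^ 2 + 2 * x * (√τ * g) + τ * g ^ 2 := by
        rw [add_sq, mul_pow, sq_sqrt hτ.le]
      rw [this]
      field_simp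
      ring
    simp only [hG, gaussianPDFReal, NNReal.coe_one, smul_eq_mul, e1, mul_one]
    ring
  unfold heat
  rw [integral_gaussianReal_eq_integral_smul one_ne_zero]
  simp only [e]
  rw [Measure.integral_comp_mul_left (fun u => G (x + u)) (√τ), integral_add_left_eq_self G x,
    hG, integral_const_mul, abs_of_pos (inv_pos.2 hs), sqrt_mul (by positivity) τ, smul_eq_mul,
    mul_inv, Mo]
  ring

/-- `ρ x = x / τ - M₁ / (τ M₀)`, `ρ' x = 1 / τ - (M₂ M₀ - M₁²) / (τ² M₀²)` at `θ = x / τ`, and the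
derivative of `ρ'` is `-κ₃ / (τ³ M₀³) ≤ 0`. -/
theorem ShQ.heat (h : ShQ q r r') (hτ : 0 < τ) : ∃ ρ ρ' : ℝ → ℝ, ShQ (heat τ q) ρ ρ' := by
  have hM : ∀ n x, HasDerivAt (fun x => Mo q τ n (x / τ)) (Mo q τ (n + 1) (x / τ) * (1 / τ)) x :=
    fun n x => HasDerivAt.comp (h₂ := Mo q τ n) (h := fun x => x / τ) x
      (h.hasDerivAt_Mo hτ n (x / τ)) ((hasDerivAt_id' x).div_const τ)
  have hp : ∀ x, 0 < Mo q τ 0 (x / τ) := fun x => h.Mo_pos hτ _
  have e : P.heat τ q = fun x => (√(2 * π * τ))⁻¹ * exp (-x ^ 2 / (2 * τ)) * Mo q τ 0 (x / τ) :=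
    funext (heat_eq_Mo q hτ)
  rw [e]
  refine ⟨fun x => x / τ - Mo q τ 1 (x / τ) / (τ * Mo q τ 0 (x / τ)),
    fun x => 1 / τ - (Mo q τ 2 (x / τ) * Mo q τ 0 (x / τ) - Mo q τ 1 (x / τ) ^ 2) /
      (τ ^ 2 * Mo q τ 0 (x / τ) ^ 2), fun x => ?_, fun x => ?_, fun x => ?_, fun x => ?_,
    fun x hx y _ hxy => ?_, fun x hx => ?_⟩
  · have := hp x
    positivity
  · have : Mo q τ 0 (-x / τ) = Mo q τ 0 (x / τ) := by
      unfold Mo
      rw [← integral_neg_eq_self]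
      congr 1
      funext y
      rw [h.even, neg_sq, pow_zero, pow_zero, neg_div, neg_mul_neg]
    rw [this, neg_sq]
  · have := (((((hasDerivAt_pow 2 x).fun_neg).div_const (2 * τ)).exp).const_mul
      (√(2 * π * τ))⁻¹).fun_mul (hM 0 x)
    refine this.congr_deriv ?_
    have := (hp x).ne'
    simp only [Nat.cast_ofNat, Nat.add_one_sub_one, pow_one, zero_add]
    field_simp
    ring
  · have := ((hasDerivAt_id' x).div_const τ).fun_sub
      ((hM 1 x).fun_div ((hM 0 x).const_mul τ) (mul_pos hτ (hp x)).ne')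
    refine this.congr_deriv ?_
    have := (hp x).ne'
    simp only [zero_add, Nat.reduceAdd]
    field_simp
  · have hd : ∀ z, HasDerivAt (fun x => 1 / τ -
        (Mo q τ 2 (x / τ) * Mo q τ 0 (x / τ) - Mo q τ 1 (x / τ) ^ 2) /
          (τ ^ 2 * Mo q τ 0 (x / τ) ^ 2))
        (-((Mo q τ 3 (z / τ) * Mo q τ 0 (z / τ) ^ 2
          - 3 * Mo q τ 1 (z / τ) * Mo q τ 2 (z / τ) * Mo q τ 0 (z / τ)
          + 2 * Mo q τ 1 (z / τ) ^ 3) / (τ ^ 3 * Mo q τ 0 (z / τ) ^ 3))) z := fun z => by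
      have := ((((hM 2 z).fun_mul (hM 0 z)).fun_sub ((hM 1 z).fun_pow 2)).fun_div
        (((hM 0 z).fun_pow 2).const_mul (τ ^ 2))
        (mul_pos (pow_pos hτ 2) (pow_pos (hp z) 2)).ne').const_sub (1 / τ)
      refine this.congr_deriv ?_
      have := (hp z).ne'
      simp only [zero_add, Nat.reduceAdd, Nat.cast_ofNat, Nat.add_one_sub_one, pow_one]
      field_simp
      ring
    refine GapQ1_ge hd hxy fun z h1 _ => neg_nonpos.2 (div_nonneg
      (h.kappa3 hτ (div_nonneg (le_trans hx h1) hτ.le)) ?_)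
    have := hp z
    positivity
  · rw [sub_nonneg, div_le_div_iff₀ (mul_pos hτ (hp x)) hτ]
    have := mul_le_mul_of_nonneg_left (h.Mo_one_le hτ hx) hτ.le
    linarith

end Crest.Agent.R339.P
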