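import Crest.Agent.R339.P.BS

/-! Row 339, part P: the heat semigroup on functions of exponential growth. -/

set_option autoImplicit false

noncomputable section

namespace Crest.Agent.R339.P

open MeasureTheory ProbabilityTheory Real Set Function


theorem integrable_exp_γ (C : ℝ) : Integrable (fun x : ℝ => exp (C * (1 + |x|))) γ₁ := by
  have h := integrable_exp_mul_abs (X := fun x : ℝ => x) (t := C)
    (integrable_exp_mul_gaussianReal (μ := 0) (v := 1) C)
    (integrable_exp_mul_gaussianReal (μ := 0) (v := 1) (-C))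
  refine (h.const_mul (exp C)).congr (Filter.Eventually.of_forall fun x => ?_)
  simp only [← exp_add]
  congr 1
  ring

theorem heat_bd {f : ℝ → ℝ} {C : ℝ} (hC : 0 ≤ C) (h : ∀ x, |f x| ≤ exp (C * (1 + |x|)))
    {x σ a b : ℝ} (hx : |x| ≤ a) (hσ : |σ| ≤ b) (g : ℝ) :
    |f (x + σ * g)| ≤ exp (C * (1 + a + b) * (1 + |g|)) := by
  refine (h _).trans (exp_le_exp.2 ?_)
  rw [mul_assoc]
  refine mul_le_mul_of_nonneg_left ?_ hC
  have h1 : |x + σ * g| ≤ a + b * |g| := by
    refine (abs_add_le _ _).trans ?_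
    rw [abs_mul]
    have := mul_le_mul_of_nonneg_right hσ (abs_nonneg g)
    linarith
  have ha : 0 ≤ a := (abs_nonneg _).trans hx
  have hb : 0 ≤ b := (abs_nonneg _).trans hσ
  have hg := abs_nonneg g
  nlinarith [mul_nonneg ha hg]

theorem heat_eg_comp {f : ℝ → ℝ} (h : EG f) (x σ : ℝ) : EG fun g => f (x + σ * g) := by
  obtain ⟨C, hC, h⟩ := h.exists_nonneg
  exact ⟨_, fun g => heat_bd hC h le_rfl le_rfl g⟩

theorem heat_int {f : ℝ → ℝ} (h : EG f) (hm : Measurable f) : Integrable f γ₁ := by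
  obtain ⟨C, h⟩ := h
  exact (integrable_exp_γ C).mono' hm.aestronglyMeasurable (Filter.Eventually.of_forall h)

theorem heat_meas {f f' : ℝ → ℝ} (hf : ∀ x, HasDerivAt f (f' x) x) : Measurable f' := by
  have : f' = deriv f := funext fun x => (hf x).deriv.symm
  rw [this]
  exact measurable_deriv f

theorem heat_cont {f f' : ℝ → ℝ} (hf : ∀ x, HasDerivAt f (f' x) x) : Continuous f :=
  continuous_iff_continuousAt.2 fun x => (hf x).continuousAt

theorem EG.integrable_comp {f : ℝ → ℝ} (h : EG f) (hm : Measurable f) (x σ : ℝ) :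
    Integrable (fun g => f (x + σ * g)) γ₁ :=
  heat_int (heat_eg_comp h x σ) (hm.comp (by fun_prop))

/-- Gaussian integration by parts (copy the proof of `Crest.Agent.R164.gauss_ibp`, file R164/G2; do not
import it) -/
theorem gauss_ibp {f f' : ℝ → ℝ} (hf : ∀ x, HasDerivAt f (f' x) x) (h : EG f) (h' : EG f') :
    ∫ x, x * f x ∂γ₁ = ∫ x, f' x ∂γ₁ := by
  have hc : Continuous f := heat_cont hf
  have i0 : Integrable f (gaussianReal 0 1) := heat_int h hc.measurable
  have i1 : Integrable f' (gaussianReal 0 1) := heat_int h' (heat_meas hf)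
  have i2 : Integrable (fun x => x * f x) (gaussianReal 0 1) :=
    heat_int (EG.id.mul h) (continuous_id.mul hc).measurable
  have hv : ∀ {g : ℝ → ℝ}, Integrable g (gaussianReal 0 1) →
      Integrable (fun x => gaussianPDFReal 0 1 x * g x) := fun {g} hg => by
    rw [gaussianReal_of_var_ne_zero _ one_ne_zero,
      integrable_withDensity_iff_integrable_smul' (measurable_gaussianPDF _ _)
        (Filter.Eventually.of_forall fun _ => gaussianPDF_lt_top)] at hg
    simpa using hg
  have hp : ∀ x, HasDerivAt (gaussianPDFReal 0 1) (-(x * gaussianPDFReal 0 1 x)) x := fun x => by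
    have h1 : HasDerivAt (fun x : ℝ => -(x - 0) ^ 2 / (2 * ((1 : NNReal) : ℝ))) (-x) x := by
      have := ((((hasDerivAt_id' x).sub_const 0).fun_pow 2).fun_neg).div_const
        (2 * ((1 : NNReal) : ℝ))
      refine this.congr_deriv ?_
      simp
      ring
    have h2 := h1.exp.const_mul (√(2 * π * ((1 : NNReal) : ℝ)))⁻¹
    refine HasDerivAt.congr_deriv h2 ?_
    rw [gaussianPDFReal]
    ring
  have h0 := integral_eq_zero_of_hasDerivAt_of_integrable
    (f := fun x => gaussianPDFReal 0 1 x * f x)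
    (f' := fun x => gaussianPDFReal 0 1 x * f' x - gaussianPDFReal 0 1 x * (x * f x))
    (fun x => ((hp x).fun_mul (hf x)).congr_deriv (by ring)) ((hv i1).sub (hv i2)) (hv i0)
  rw [integral_sub (hv i1) (hv i2)] at h0
  rw [integral_gaussianReal_eq_integral_smul one_ne_zero,
    integral_gaussianReal_eq_integral_smul one_ne_zero]
  simp only [smul_eq_mul]
  linarith

theorem gauss_ibp_comp {f f' : ℝ → ℝ} (hf : ∀ x, HasDerivAt f (f' x) x) (h : EG f) (h' : EG f')
    (x σ : ℝ) : ∫ g, g * f (x + σ * g) ∂γ₁ = σ * ∫ g, f' (x + σ * g) ∂γ₁ := by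
  rw [← integral_const_mul]
  refine gauss_ibp (f := fun g => f (x + σ * g)) (f' := fun g => σ * f' (x + σ * g)) (fun g => ?_)
    (heat_eg_comp h x σ) ((EG.const σ).mul (heat_eg_comp h' x σ))
  have h1 : HasDerivAt (fun g : ℝ => x + σ * g) σ g := by
    simpa using ((hasDerivAt_id' g).const_mul σ).const_add x
  exact ((hf (x + σ * g)).comp g h1).congr_deriv (mul_comm _ _)

theorem heat_zero (f : ℝ → ℝ) (x : ℝ) : heat 0 f x = f x := by
  simp [heat]

theorem heat_pos {f : ℝ → ℝ} (h : EG f) (hc : Continuous f) (hp : ∀ x, 0 < f x) (τ x : ℝ) :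
    0 < heat τ f x := by
  refine (integral_pos_iff_support_of_nonneg (fun g => (hp _).le)
    (h.integrable_comp hc.measurable x (√τ))).2 ?_
  have : Function.support (fun g => f (x + √τ * g)) = Set.univ :=
    Set.eq_univ_of_forall fun g => (hp _).ne'
  rw [this]
  simp

/-- `continuous_of_dominated` locally (`continuousAt_of_dominated` on a unit ball) -/
theorem cg_heat {f : ℝ → ℝ} (h : EG f) (hc : Continuous f) : CG fun τ x => heat τ f x := by
  obtain ⟨C, hC, hb⟩ := h.exists_nonneg
  refine ⟨continuous_iff_continuousAt.2 fun p => ?_, ?_⟩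
  · change ContinuousAt (fun p : ℝ × ℝ => ∫ g, f (p.2 + √p.1 * g) ∂γ₁) p
    refine continuousAt_of_dominated
      (bound := fun g => exp (C * (1 + (|p.2| + 1) + (|√p.1| + 1)) * (1 + |g|))) ?_ ?_
      (integrable_exp_γ _) ?_
    · exact Filter.Eventually.of_forall fun q =>
        (hc.comp (by fun_prop : Continuous fun g : ℝ => q.2 + √q.1 * g)).aestronglyMeasurable
    · have e1 : ∀ᶠ q : ℝ × ℝ in nhds p, |q.2| < |p.2| + 1 :=
        (by fun_prop : Continuous fun q : ℝ × ℝ => |q.2|).continuousAt.eventually_lt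
          continuousAt_const (by simp)
      have e2 : ∀ᶠ q : ℝ × ℝ in nhds p, |√q.1| < |√p.1| + 1 :=
        (by fun_prop : Continuous fun q : ℝ × ℝ => |√q.1|).continuousAt.eventually_lt
          continuousAt_const (by simp)
      filter_upwards [e1, e2] with q h1 h2
      exact Filter.Eventually.of_forall fun g => heat_bd hC hb h1.le h2.le g
    · exact Filter.Eventually.of_forall fun g =>
        (hc.comp (by fun_prop : Continuous fun q : ℝ × ℝ => q.2 + √q.1 * g)).continuousAt
  · have hM : 0 ≤ ∫ g, exp (C * (1 + |g|)) ∂γ₁ := integral_nonneg fun g => (exp_pos _).le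
    refine ⟨C + ∫ g, exp (C * (1 + |g|)) ∂γ₁, fun τ hτ x => ?_⟩
    have h1 : |heat τ f x| ≤ ∫ g, exp (C * |x|) * exp (C * (1 + |g|)) ∂γ₁ := by
      refine norm_integral_le_of_norm_le (f := fun g => f (x + √τ * g))
        ((integrable_exp_γ C).const_mul _)
        (Filter.Eventually.of_forall fun g => ?_)
      refine (hb _).trans ?_
      rw [← exp_add, ← mul_add]
      refine exp_le_exp.2 (mul_le_mul_of_nonneg_left ?_ hC)
      have h2 : √τ ≤ 1 := sqrt_le_one.2 hτ.2
      have h3 : |x + √τ * g| ≤ |x| + |g| := by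
        refine (abs_add_le _ _).trans ?_
        rw [abs_mul, abs_of_nonneg (sqrt_nonneg τ)]
        have := mul_le_mul_of_nonneg_right h2 (abs_nonneg g)
        linarith
      linarith
    rw [integral_const_mul] at h1
    refine h1.trans ?_
    generalize ∫ g, exp (C * (1 + |g|)) ∂γ₁ = M at hM ⊢
    have h2 : M ≤ exp M := by linarith [add_one_le_exp M]
    refine (mul_le_mul_of_nonneg_left h2 (exp_pos _).le).trans ?_
    rw [← exp_add]
    refine exp_le_exp.2 ?_
    nlinarith [mul_nonneg hM (abs_nonneg x)]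

theorem hasDerivAt_heat {f f' : ℝ → ℝ} (hf : ∀ x, HasDerivAt f (f' x) x) (h : EG f) (h' : EG f')
    (τ x : ℝ) : HasDerivAt (heat τ f) (heat τ f' x) x := by
  obtain ⟨C, hC, hb⟩ := h'.exists_nonneg
  have hc := heat_cont hf
  refine (hasDerivAt_integral_of_dominated_loc_of_deriv_le (μ := γ₁) (x₀ := x)
    (F := fun y g => f (y + √τ * g)) (F' := fun y g => f' (y + √τ * g))
    (bound := fun g => exp (C * (1 + (|x| + 1) + |√τ|) * (1 + |g|)))
    (Metric.ball_mem_nhds x one_pos) ?_ (h.integrable_comp hc.measurable x _) ?_ ?_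
    (integrable_exp_γ _) ?_).2
  · exact Filter.Eventually.of_forall fun y =>
      (h.integrable_comp hc.measurable y _).aestronglyMeasurable
  · exact (h'.integrable_comp (heat_meas hf) x _).aestronglyMeasurable
  · refine Filter.Eventually.of_forall fun g y hy => heat_bd hC hb ?_ le_rfl g
    rw [Metric.mem_ball, Real.dist_eq] at hy
    have := abs_sub_abs_le_abs_sub y x
    linarith
  · refine Filter.Eventually.of_forall fun g y _ => ?_
    exact HasDerivAt.comp_add_const y (√τ * g) (hf _)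

theorem heat_norm_lin2 (a b : ℝ) : ‖lin2 a b‖ ≤ |a| + |b| := by
  refine ContinuousLinearMap.opNorm_le_bound _ (by positivity) fun p => ?_
  have e : lin2 a b p = a * p.1 + b * p.2 := by simp [lin2]
  rw [e, Real.norm_eq_abs, add_mul]
  refine (abs_add_le _ _).trans ?_
  rw [abs_mul, abs_mul]
  exact add_le_add (mul_le_mul_of_nonneg_left (norm_fst_le p) (abs_nonneg a))
    (mul_le_mul_of_nonneg_left (norm_snd_le p) (abs_nonneg b))

theorem heat_integrable_lin2 {a b : ℝ → ℝ} (ha : Integrable a γ₁) (hb : Integrable b γ₁) :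
    Integrable (fun g => lin2 (a g) (b g)) γ₁ :=
  (ha.smul_const (ContinuousLinearMap.fst ℝ ℝ ℝ)).add
    (hb.smul_const (ContinuousLinearMap.snd ℝ ℝ ℝ))

theorem heat_integral_lin2 {a b : ℝ → ℝ} (ha : Integrable a γ₁) (hb : Integrable b γ₁) :
    ∫ g, lin2 (a g) (b g) ∂γ₁ = lin2 (∫ g, a g ∂γ₁) (∫ g, b g ∂γ₁) := by
  unfold lin2
  rw [integral_add (ha.smul_const _) (hb.smul_const _), integral_smul_const, integral_smul_const]

/-- `hasFDerivAt_integral_of_dominated_of_fderiv_le` on the ball of radius `τ/2` for the integrand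
`f (x + √τ g)` with derivative `lin2 (f' (..) * g / (2 √τ)) (f' (..))`, then `gauss_ibp_comp`. -/
theorem hasFDerivAt_heat {f f' f'' : ℝ → ℝ} (hf : ∀ x, HasDerivAt f (f' x) x)
    (hf' : ∀ x, HasDerivAt f' (f'' x) x) (h : EG f) (h' : EG f') (h'' : EG f'') {τ : ℝ}
    (hτ : 0 < τ) (x : ℝ) :
    HasFDerivAt (uncurry fun τ x => heat τ f x) (lin2 (heat τ f'' x / 2) (heat τ f' x)) (τ, x) := by
  obtain ⟨C, hC, hb⟩ := h'.exists_nonneg
  have hc := heat_cont hf
  have hc' := heat_cont hf'
  have hs : 0 < √τ := sqrt_pos.2 hτ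
  have hs2 : 0 < √(τ / 2) := sqrt_pos.2 (by linarith)
  have i1 : Integrable (fun g => f' (x + √τ * g)) γ₁ := h'.integrable_comp hc'.measurable x _
  have i2 : Integrable (fun g => g * f' (x + √τ * g)) γ₁ :=
    heat_int (EG.id.mul (heat_eg_comp h' x _))
      (continuous_id.mul (hc'.comp (by fun_prop : Continuous fun g : ℝ => x + √τ * g))).measurable
  have i3 : Integrable (fun g => (2 * √τ)⁻¹ * (g * f' (x + √τ * g))) γ₁ := i2.const_mul _
  have key := hasFDerivAt_integral_of_dominated_of_fderiv_le (𝕜 := ℝ) (μ := γ₁) (x₀ := (τ, x))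
    (F := fun (p : ℝ × ℝ) g => f (p.2 + √p.1 * g))
    (F' := fun (p : ℝ × ℝ) g =>
      lin2 ((2 * √p.1)⁻¹ * (g * f' (p.2 + √p.1 * g))) (f' (p.2 + √p.1 * g)))
    (bound := fun g => ((2 * √(τ / 2))⁻¹ + 1) *
      exp ((C * (1 + (|x| + τ) + √(2 * τ)) + 1) * (1 + |g|)))
    (Metric.ball_mem_nhds (τ, x) (half_pos hτ))
    (Filter.Eventually.of_forall fun p =>
      (h.integrable_comp hc.measurable p.2 _).aestronglyMeasurable)
    (h.integrable_comp hc.measurable x _) (heat_integrable_lin2 i3 i1).aestronglyMeasurable ?_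
    ((integrable_exp_γ _).const_mul _) ?_
  · rw [heat_integral_lin2 i3 i1, integral_const_mul, gauss_ibp_comp hf' h' h''] at key
    have e : (2 * √τ)⁻¹ * (√τ * ∫ g, f'' (x + √τ * g) ∂γ₁) = heat τ f'' x / 2 := by
      unfold heat
      field_simp
    rw [e] at key
    exact key
  · refine Filter.Eventually.of_forall fun g p hp => ?_
    rw [Metric.mem_ball, Prod.dist_eq, max_lt_iff, Real.dist_eq, Real.dist_eq] at hp
    obtain ⟨hp1, hp2⟩ := hp
    simp only at hp1 hp2
    have a1 := abs_lt.1 hp1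
    have a2 : |p.2| ≤ |x| + τ := by
      have := abs_sub_abs_le_abs_sub p.2 x
      linarith
    have a3 : |√p.1| ≤ √(2 * τ) := by
      rw [abs_of_nonneg (sqrt_nonneg _)]
      exact sqrt_le_sqrt (by linarith [a1.2])
    have a4 : √(τ / 2) ≤ √p.1 := sqrt_le_sqrt (by linarith [a1.1])
    have a5 := heat_bd hC hb a2 a3 g
    have a6 : |(2 * √p.1)⁻¹| ≤ (2 * √(τ / 2))⁻¹ := by
      rw [abs_of_nonneg (by positivity)]
      exact inv_anti₀ (by positivity) (by linarith)
    have a7 : |g| ≤ exp (1 + |g|) := by linarith [add_one_le_exp (1 + |g|)]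
    have a8 : 1 ≤ exp (1 + |g|) := one_le_exp (by positivity)
    refine (heat_norm_lin2 _ _).trans ?_
    rw [add_mul (C * _), one_mul, exp_add, abs_mul, abs_mul, add_mul, one_mul]
    generalize exp (C * (1 + (|x| + τ) + √(2 * τ)) * (1 + |g|)) = E at a5 ⊢
    have hE : 0 ≤ E := (abs_nonneg _).trans a5
    refine add_le_add ?_ ?_
    · refine mul_le_mul a6 ?_ (by positivity) (by positivity)
      rw [mul_comm E]
      exact mul_le_mul a7 a5 (abs_nonneg _) (by positivity)
    · exact a5.trans (le_mul_of_one_le_right hE a8)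
  · refine Filter.Eventually.of_forall fun g p hp => ?_
    rw [Metric.mem_ball, Prod.dist_eq, max_lt_iff, Real.dist_eq, Real.dist_eq] at hp
    have a1 := abs_lt.1 hp.1
    simp only at a1
    have hp0 : p.1 ≠ 0 := by linarith [a1.1] |> fun (h : 0 < p.1) => h.ne'
    have d1 : HasFDerivAt (fun p : ℝ × ℝ => √p.1)
        ((1 / (2 * √p.1)) • ContinuousLinearMap.fst ℝ ℝ ℝ) p :=
      (Real.hasDerivAt_sqrt hp0).comp_hasFDerivAt p hasFDerivAt_fst
    have d2 := (hasFDerivAt_snd (𝕜 := ℝ) (p := p)).fun_add (d1.mul_const g)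
    have d3 := (hf (p.2 + √p.1 * g)).comp_hasFDerivAt p d2
    refine d3.congr_fderiv ?_
    ext <;> simp [lin2]
    ring

theorem heat_neg {f : ℝ → ℝ} (hm : Measurable f) (τ x : ℝ) :
    heat τ f (-x) = heat τ (fun y => f (-y)) x := by
  have e : γ₁.map (fun g : ℝ => -g) = γ₁ := by
    simpa using gaussianReal_map_neg (μ := 0) (v := 1)
  unfold heat
  conv_lhs => rw [← e]
  rw [integral_map (f := fun g => f (-x + √τ * g)) (by fun_prop)
    (hm.comp (by fun_prop : Measurable fun g : ℝ => -x + √τ * g)).aestronglyMeasurable]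
  congr 1
  funext g
  congr 1
  ring

end Crest.Agent.R339.P
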