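import Crest.Agent.R339.P.Defs

/-!
# Row 339, part P7: a Markov chain driven by the labels and its martingale
-/

set_option autoImplicit false

noncomputable section

namespace Crest.Agent.R339.P

open MeasureTheory ProbabilityTheory Real Set Function

/-- the label number `l` -/
def lab {K : ℕ} (x : Lab K) (l : ℕ) : ℝ := if h : l < K + 1 then x ⟨l, h⟩ else 0

/-- the chain -/
def XX (Q : ℕ → ℝ → ℝ → ℝ) {K : ℕ} : ℕ → Lab K → ℝ
  | 0, _ => 0
  | l + 1, x => Q l (XX Q l x) (lab x l)

/-- `A` depends only on the labels before `l` -/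
def Dep {K : ℕ} (l : ℕ) (A : Lab K → ℝ) : Prop :=
  ∀ x x' : Lab K, (∀ i : Fin (K + 1), (i : ℕ) < l → x i = x' i) → A x = A x'

/-- the data of the scheme -/
structure Mkv (K : ℕ) (Q : ℕ → ℝ → ℝ → ℝ) (u : ℕ → ℝ → ℝ) (μ : ℕ → Measure ℝ) : Prop where
  Qm : ∀ l, Measurable (uncurry (Q l))
  Qo : ∀ l x ξ, Q l (-x) (-ξ) = -Q l x ξ
  um : ∀ l, Measurable (u l)
  uo : ∀ l x, u l (-x) = -u l x
  ub : ∀ l x, |u l x| ≤ 1
  mart : ∀ l ≤ K, ∀ x, ∫ ξ, u (l + 1) (Q l x ξ) ∂γ₁ = u l x
  mu0 : μ 0 = Measure.dirac 0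
  mus : ∀ l ≤ K, ∀ ψ : ℝ → ℝ, Measurable ψ → (∃ C, ∀ x, |ψ x| ≤ C) →
    ∫ y, ψ y ∂μ (l + 1) = ∫ y, ∫ ξ, ψ (Q l y ξ) ∂γ₁ ∂μ l

variable {K : ℕ} {Q : ℕ → ℝ → ℝ → ℝ} {u : ℕ → ℝ → ℝ} {μ : ℕ → Measure ℝ}

theorem i1_int_id : Integrable (fun t : ℝ => t) γ₁ :=
  memLp_one_iff_integrable.1 (memLp_id_gaussianReal 1)

theorem i1_int_bdd {f : Lab K → ℝ} (hm : Measurable f) {C : ℝ} (hb : ∀ x, |f x| ≤ C) :
    Integrable f (gL K) :=
  Integrable.of_bound hm.aestronglyMeasurable C (Filter.Eventually.of_forall hb)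

theorem measurable_lab (l : ℕ) : Measurable fun x : Lab K => lab x l := by
  unfold lab
  split_ifs
  · exact measurable_pi_apply _
  · exact measurable_const

theorem lab_neg (x : Lab K) (l : ℕ) : lab (-x) l = -lab x l := by
  unfold lab
  split_ifs <;> simp

theorem integrable_lab (l : ℕ) : Integrable (fun x : Lab K => lab x l) (gL K) := by
  unfold lab
  split_ifs with h
  · have hp : MeasurePreserving (Function.eval (⟨l, h⟩ : Fin (K + 1))) (gL K) γ₁ :=
      measurePreserving_eval (fun _ => gaussianReal 0 1) _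
    exact hp.integrable_comp_of_integrable (g := fun t : ℝ => t) i1_int_id
  · exact integrable_const _

theorem dep_lab (l : ℕ) : Dep (l + 1) fun x : Lab K => lab x l := by
  intro x x' h
  simp only [lab]
  split_ifs with hl
  · exact h ⟨l, hl⟩ (Nat.lt_succ_self l)
  · rfl

theorem Dep.mono {A : Lab K → ℝ} {l l' : ℕ} (h : Dep l A) (hl : l ≤ l') : Dep l' A := by
  exact fun x x' hx => h x x' fun i hi => hx i (lt_of_lt_of_le hi hl)

theorem dep_XX (Q : ℕ → ℝ → ℝ → ℝ) (l : ℕ) : Dep l (XX Q l : Lab K → ℝ) := by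
  induction l with
  | zero => exact fun _ _ _ => rfl
  | succ l ih =>
    intro x x' hx
    have h1 := ih.mono (Nat.le_succ l) x x' hx
    have h2 : lab x l = lab x' l := dep_lab l x x' hx
    simp only [XX, h1, h2]

theorem Mkv.measurable_XX (h : Mkv K Q u μ) (l : ℕ) : Measurable (XX Q l : Lab K → ℝ) := by
  induction l with
  | zero => exact measurable_const
  | succ l ih => exact (h.Qm l).comp (ih.prodMk (measurable_lab l))

theorem Mkv.XX_neg (h : Mkv K Q u μ) (l : ℕ) (x : Lab K) : XX Q l (-x) = -XX Q l x := by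
  induction l with
  | zero => simp [XX]
  | succ l ih => simp only [XX, ih, lab_neg, h.Qo]

/-- copy the proof of `g2_update` in `R164/G2.lean` (`Measure.pi_eq` on boxes); do not import it -/
theorem measurePreserving_update (i : Fin (K + 1)) :
    MeasurePreserving (fun p : Lab K × ℝ => update p.1 i p.2) ((gL K).prod γ₁) (gL K) := by
  have hm : Measurable (fun p : Lab K × ℝ => update p.1 i p.2) := measurable_update'
  refine ⟨hm, (Measure.pi_eq fun s hs => ?_).symm⟩
  have e : (fun p : Lab K × ℝ => update p.1 i p.2) ⁻¹' Set.univ.pi s =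
      (Set.univ.pi (update s i Set.univ)) ×ˢ s i := by
    ext p
    simp only [Set.mem_preimage, Set.mem_univ_pi, Set.mem_prod]
    constructor
    · intro h
      refine ⟨fun j => ?_, by simpa using h i⟩
      by_cases hj : j = i
      · subst hj
        simp
      · simpa [hj] using h j
    · rintro ⟨h1, h2⟩ j
      by_cases hj : j = i
      · subst hj
        simpa using h2
      · simpa [hj] using h1 j
  rw [Measure.map_apply hm (MeasurableSet.univ_pi hs), e, Measure.prod_prod, gL, Measure.pi_pi,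
    ← Finset.mul_prod_erase _ _ (Finset.mem_univ i),
    ← Finset.mul_prod_erase _ (fun j => gaussianReal 0 1 (s j)) (Finset.mem_univ i)]
  rw [Function.update_self, measure_univ, one_mul, mul_comm]
  congr 1
  exact Finset.prod_congr rfl fun j hj => by rw [Function.update_of_ne (Finset.ne_of_mem_erase hj)]

/-- resampling of the label `l` -/
theorem resample {l : ℕ} (hl : l ≤ K) {F : Lab K → ℝ → ℝ} (hm : Measurable (uncurry F))
    (hd : ∀ t, Dep l fun x => F x t) (hi : Integrable (fun x => F x (lab x l)) (gL K)) :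
    ∫ x, F x (lab x l) ∂gL K = ∫ x, ∫ t, F x t ∂γ₁ ∂gL K := by
  have hl' : l < K + 1 := Nat.lt_succ_of_le hl
  have hp := measurePreserving_update (K := K) ⟨l, hl'⟩
  have hG : Measurable fun x : Lab K => F x (lab x l) :=
    hm.comp (measurable_id.prodMk (measurable_lab l))
  have e : ∀ (x : Lab K) (t : ℝ), F (update x ⟨l, hl'⟩ t) (lab (update x ⟨l, hl'⟩ t) l) = F x t := by
    intro x t
    have e1 : lab (update x ⟨l, hl'⟩ t) l = t := by simp [lab, hl']
    rw [e1]
    refine hd t _ _ fun i hi => update_of_ne ?_ _ _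
    rintro rfl
    exact lt_irrefl _ hi
  have h1 := integral_prod _ (hp.integrable_comp_of_integrable hi)
  simp only [Function.comp_apply, e] at h1
  rw [← h1]
  conv_lhs => rw [← hp.map_eq]
  rw [integral_map hp.measurable.aemeasurable hG.aestronglyMeasurable]
  simp only [e]

theorem Mkv.law_XX (h : Mkv K Q u μ) {l : ℕ} (hl : l ≤ K + 1) {ψ : ℝ → ℝ} (hm : Measurable ψ)
    (hb : ∃ C, ∀ x, |ψ x| ≤ C) : ∫ x, ψ (XX Q l x) ∂gL K = ∫ y, ψ y ∂μ l := by
  induction l generalizing ψ with
  | zero => simp [XX, h.mu0]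
  | succ l ih =>
    obtain ⟨C, hC⟩ := hb
    have hl' : l ≤ K := by omega
    have hF : Measurable (uncurry fun (x : Lab K) (t : ℝ) => ψ (Q l (XX Q l x) t)) :=
      hm.comp ((h.Qm l).comp (((h.measurable_XX l).comp measurable_fst).prodMk measurable_snd))
    have h1 := resample hl' hF (fun t x x' hx => by simp only [dep_XX Q l x x' hx])
      (i1_int_bdd (hm.comp (h.measurable_XX (l + 1))) fun x => hC _)
    rw [h.mus l hl' ψ hm ⟨C, hC⟩]
    refine h1.trans (ih (by omega) (ψ := fun y => ∫ ξ, ψ (Q l y ξ) ∂γ₁) ?_ ⟨C, fun y => ?_⟩)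
    · exact (StronglyMeasurable.integral_prod_right (f := fun y ξ => ψ (Q l y ξ))
        (hm.comp (h.Qm l)).stronglyMeasurable).measurable
    · simpa using norm_integral_le_of_norm_le_const (μ := γ₁) (f := fun ξ => ψ (Q l y ξ)) (C := C)
        (Filter.Eventually.of_forall fun ξ => hC _)

/-- the martingale property -/
theorem Mkv.martingale (h : Mkv K Q u μ) {A : Lab K → ℝ} {l j : ℕ} (hm : Measurable A)
    (hi : Integrable A (gL K)) (hd : Dep l A) (hlj : l ≤ j) (hj : j ≤ K + 1) :
    ∫ x, A x * u j (XX Q j x) ∂gL K = ∫ x, A x * u l (XX Q l x) ∂gL K := by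
  induction j, hlj using Nat.le_induction with
  | base => rfl
  | succ j hlj ih =>
    rw [← ih (by omega)]
    have hj' : j ≤ K := by omega
    have hF : Measurable (uncurry fun (x : Lab K) (t : ℝ) => A x * u (j + 1) (Q j (XX Q j x) t)) :=
      (hm.comp measurable_fst).mul ((h.um _).comp ((h.Qm j).comp
        (((h.measurable_XX j).comp measurable_fst).prodMk measurable_snd)))
    have h1 := resample hj' hF
      (fun t x x' hx => by simp only [dep_XX Q j x x' hx, hd.mono hlj x x' hx])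
      (hi.mul_bdd ((h.um _).comp (h.measurable_XX (j + 1))).aestronglyMeasurable
        (Filter.Eventually.of_forall fun x => h.ub _ _))
    refine h1.trans ?_
    simp only [integral_const_mul, h.mart j hj']

theorem Mkv.inner (h : Mkv K Q u μ) {l j : ℕ} (hlj : l ≤ j) (hj : j ≤ K + 1) :
    ∫ x, u l (XX Q l x) * u j (XX Q j x) ∂gL K = ∫ y, u l y ^ 2 ∂μ l := by
  have hm := (h.um l).comp (h.measurable_XX l)
  have h1 := h.martingale (A := fun x => u l (XX Q l x)) hm (i1_int_bdd hm fun x => h.ub _ _)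
    (fun x x' hx => by simp only [dep_XX Q l x x' hx]) hlj hj
  rw [h1, ← h.law_XX (hlj.trans hj) ((h.um l).pow_const 2) ⟨1, fun y => by
    rw [abs_pow]; exact pow_le_one₀ (abs_nonneg _) (h.ub _ _)⟩]
  simp only [sq]

theorem Mkv.cross (h : Mkv K Q u μ) {l : ℕ} (hl : l ≤ K) :
    ∫ x, lab x l * u (K + 1) (XX Q (K + 1) x) ∂gL K =
      ∫ y, ∫ ξ, ξ * u (l + 1) (Q l y ξ) ∂γ₁ ∂μ l := by
  rw [h.martingale (measurable_lab l) (integrable_lab l) (dep_lab l) (Nat.succ_le_succ hl) le_rfl]
  have hF : Measurable (uncurry fun (x : Lab K) (t : ℝ) => t * u (l + 1) (Q l (XX Q l x) t)) :=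
    measurable_snd.mul ((h.um _).comp ((h.Qm l).comp
      (((h.measurable_XX l).comp measurable_fst).prodMk measurable_snd)))
  have h1 := resample hl hF (fun t x x' hx => by simp only [dep_XX Q l x x' hx])
    ((integrable_lab l).mul_bdd ((h.um _).comp (h.measurable_XX (l + 1))).aestronglyMeasurable
      (Filter.Eventually.of_forall fun x => h.ub _ _))
  refine h1.trans (h.law_XX (by omega) (ψ := fun y => ∫ ξ, ξ * u (l + 1) (Q l y ξ) ∂γ₁) ?_
    ⟨∫ ξ, |ξ| ∂γ₁, fun y => ?_⟩)
  · exact (StronglyMeasurable.integral_prod_right (f := fun y ξ => ξ * u (l + 1) (Q l y ξ))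
      (measurable_snd.mul ((h.um _).comp (h.Qm l))).stronglyMeasurable).measurable
  · rw [← Real.norm_eq_abs]
    refine norm_integral_le_of_norm_le i1_int_id.abs (Filter.Eventually.of_forall fun ξ => ?_)
    rw [Real.norm_eq_abs, abs_mul]
    exact mul_le_of_le_one_right (abs_nonneg _) (h.ub _ _)

/-- `f m = (M (m + 1) - M m) / n m`, `M = M (K + 1)` with `M l x = u l (XX Q l x)` -/
theorem Mkv.exists_iamp (h : Mkv K Q u μ)
    (he : ∀ m < K, ∫ y, u m y ^ 2 ∂μ m < ∫ y, u (m + 1) y ^ 2 ∂μ (m + 1)) :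
    ∃ I : Iamp K, I.value = ∑ m ∈ Finset.range K,
      √(∫ y, u (m + 1) y ^ 2 ∂μ (m + 1) - ∫ y, u m y ^ 2 ∂μ m) *
        ∫ y, ∫ ξ, ξ * u (m + 2) (Q (m + 1) y ξ) ∂γ₁ ∂μ (m + 1) := by
  set e : ℕ → ℝ := fun l => ∫ y, u l y ^ 2 ∂μ l with hedef
  set M : ℕ → Lab K → ℝ := fun l x => u l (XX Q l x) with hM
  have hMm : ∀ l, Measurable (M l) := fun l => (h.um l).comp (h.measurable_XX l)
  have hMb : ∀ l x, |M l x| ≤ 1 := fun l x => h.ub _ _
  have hMi : ∀ l j, Integrable (fun x => M l x * M j x) (gL K) := fun l j =>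
    i1_int_bdd ((hMm l).mul (hMm j)) (C := 1) fun x => by
      rw [abs_mul]; exact mul_le_one₀ (hMb _ _) (abs_nonneg _) (hMb _ _)
  have hin : ∀ l j, l ≤ j → j ≤ K + 1 → ∫ x, M l x * M j x ∂gL K = e l := fun l j h1 h2 =>
    h.inner h1 h2
  have hin' : ∀ l j, l ≤ j → j ≤ K + 1 → ∫ x, M j x * M l x ∂gL K = e l := fun l j h1 h2 => by
    rw [← hin l j h1 h2]; simp only [mul_comm]
  have hpos : ∀ m : Fin K, 0 < e (m + 1) - e m := fun m => sub_pos.2 (he m m.2)
  have hn : ∀ m : Fin K, 0 < √(e (m + 1) - e m) := fun m => sqrt_pos.2 (hpos m)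
  have hexp : ∀ a b a' b' : ℕ, ∫ x, (M a x - M b x) * (M a' x - M b' x) ∂gL K =
      ∫ x, M a x * M a' x ∂gL K - ∫ x, M a x * M b' x ∂gL K - ∫ x, M b x * M a' x ∂gL K
        + ∫ x, M b x * M b' x ∂gL K := by
    intro a b a' b'
    have i1 : Integrable (fun x => M a x * M a' x - M a x * M b' x) (gL K) :=
      (hMi _ _).sub (hMi _ _)
    have i2 : Integrable (fun x => M a x * M a' x - M a x * M b' x - M b x * M a' x) (gL K) :=
      i1.sub (hMi _ _)
    rw [← integral_sub (hMi _ _) (hMi _ _), ← integral_sub i1 (hMi _ _),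
      ← integral_add i2 (hMi _ _)]
    refine integral_congr_ae (Filter.Eventually.of_forall fun x => ?_)
    simp only
    ring
  have horth : ∀ m m' : ℕ, m < m' → m' < K →
      ∫ x, (M (m + 1) x - M m x) * (M (m' + 1) x - M m' x) ∂gL K = 0 := by
    intro m m' h1 h2
    rw [hexp, hin _ _ (by omega) (by omega), hin _ _ (by omega) (by omega),
      hin _ _ (by omega) (by omega), hin _ _ (by omega) (by omega)]
    ring
  refine ⟨{ f := fun m x => (√(e (m + 1) - e m))⁻¹ * (M (m + 1) x - M m x)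
            M := M (K + 1)
            f_meas := fun m => ((hMm _).sub (hMm _)).const_mul _
            f_bdd := fun m => ⟨(√(e (m + 1) - e m))⁻¹ * 2, fun x => ?_⟩
            f_odd := fun m x => ?_
            f_dep := fun m x x' hx => ?_
            f_on := fun m m' => ?_
            M_meas := hMm _
            M_odd := fun x => ?_
            M_le := hMb _ }, ?_⟩
  · rw [abs_mul, abs_of_pos (inv_pos.2 (hn m))]
    refine mul_le_mul_of_nonneg_left ?_ (inv_pos.2 (hn m)).le
    have := abs_sub (M (m + 1) x) (M m x)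
    linarith [hMb (m + 1) x, hMb m x]
  · simp only [hM, h.XX_neg, h.uo]
    ring
  · have h1 := dep_XX Q (m + 1) x x' fun i hi => hx i (Nat.lt_succ_iff.1 hi)
    have h2 := dep_XX Q m x x' fun i hi => hx i hi.le
    simp only [hM, h1, h2]
  · have e1 : ∀ x, (√(e (m + 1) - e m))⁻¹ * (M (m + 1) x - M m x) *
        ((√(e (m' + 1) - e m'))⁻¹ * (M (m' + 1) x - M m' x)) =
        (√(e (m + 1) - e m))⁻¹ * (√(e (m' + 1) - e m'))⁻¹ *
          ((M (m + 1) x - M m x) * (M (m' + 1) x - M m' x)) := fun x => by ring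
    simp only [e1, integral_const_mul]
    split_ifs with hmm
    · subst hmm
      have hm2 := m.2
      rw [hexp, hin _ _ le_rfl (by omega), hin' _ _ (by omega) (by omega),
        hin _ _ (by omega) (by omega), hin _ _ le_rfl (by omega), ← mul_inv,
        mul_self_sqrt (hpos m).le]
      have := hpos m
      field_simp
      ring
    · rcases lt_or_gt_of_ne hmm with h1 | h1
      · rw [horth _ _ h1 m'.2, mul_zero]
      · simp only [mul_comm (M (m + 1) _ - M m _)]
        rw [horth _ _ h1 m.2, mul_zero]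
  · simp only [hM, h.XX_neg, h.uo]
  · rw [Iamp.value, Finset.sum_range]
    refine Finset.sum_congr rfl fun m _ => ?_
    have hm2 := m.2
    congr 1
    · have e1 : ∀ x, (√(e (m + 1) - e m))⁻¹ * (M (m + 1) x - M m x) * M (K + 1) x =
          (√(e (m + 1) - e m))⁻¹ * (M (m + 1) x * M (K + 1) x - M m x * M (K + 1) x) :=
        fun x => by ring
      simp only [e1, integral_const_mul]
      rw [integral_sub (hMi _ _) (hMi _ _), hin _ _ (by omega) le_rfl, hin _ _ (by omega) le_rfl,
        inv_mul_eq_div, div_sqrt]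
    · rw [← h.cross (l := m + 1) (by omega)]
      refine integral_congr_ae (Filter.Eventually.of_forall fun x => ?_)
      have e1 : lab x (m + 1) = x m.succ := by
        unfold lab
        rw [dif_pos (by omega)]
        rfl
      simp only [e1, hM]

end Crest.Agent.R339.P
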