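import Crest.Agent.R339.P.Iamp0
import Crest.Agent.R339.P.Iamp1
import Crest.Agent.R339.P.Chain

/-!
# Row 339, part P7: the message passing scheme
-/

set_option autoImplicit false

noncomputable section

namespace Crest.Agent.R339.P

open MeasureTheory ProbabilityTheory Real Set Function

theorem iamp : IampStmt := by
  intro b K c h K' hK he
  have hΔ : (0 : ℝ) < 1 / K := by have := h.hK; positivity
  have hA := adm_Ph h
  choose Q hQ using fun l => exists_drv (hA (l + 1)) (h.pos l) (h.le l) hΔ
  have hum : ∀ l, Measurable (deriv (Ph b K c l)) := fun l => measurable_deriv _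
  have hM : Mkv K' Q (fun l => deriv (Ph b K c l)) (mu b K c) :=
    { Qm := fun l => (hQ l).meas
      Qo := fun l => (hQ l).odd
      um := hum
      uo := fun l x => (hA l).deriv_neg x
      ub := fun l x => (hA l).lip x
      mart := fun l hl x => by
        rw [(hQ l).law _ (hum _), ← U_eq_TE (hA _).toNice (h.pos l), Ph_succ b c (by omega : l < K)]
      mu0 := rfl
      mus := fun l _ ψ hm hb => by
        rw [integral_mu_succ h l (EG.of_bdd hb) hm]
        simp only [(hQ l).law ψ hm] }
  obtain ⟨I, hI⟩ := hM.exists_iamp he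
  refine ⟨I, ?_⟩
  rw [hI]
  refine Finset.sum_le_sum fun m hm => ?_
  have hm' : m + 1 < K := by have := Finset.mem_range.1 hm; omega
  rw [mul_assoc]
  refine mul_le_mul_of_nonneg_left ?_ (sqrt_nonneg _)
  have := (em_mu h (m + 1)).prob
  have h1 := (hQ (m + 1)).lower_int (hA _).toNice (h.pos _) h.b_pos.le hΔ (mu b K c (m + 1))
  have hb2 : EG fun y => deriv (Ph b K c (m + 1 + 1)) y ^ 2 :=
    EG.of_bdd ⟨1, fun y => by
      rw [abs_pow]; exact pow_le_one₀ (abs_nonneg _) ((hA _).lip y)⟩
  rw [← integral_mu_succ h (m + 1) hb2 ((hum _).pow_const 2)] at h1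
  simp only [U, V, ← Ph_succ b c hm'] at h1
  exact h1

end Crest.Agent.R339.P
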