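import Crest.Agent.R339.P.StepA

/-! Row 339, part P: tilted expectations, admissibility is preserved. -/

set_option autoImplicit false

noncomputable section

namespace Crest.Agent.R339.P

open MeasureTheory ProbabilityTheory Real Set Function


variable {c τ : ℝ} {φ ψ ψ' : ℝ → ℝ}

theorem stepb_fun (c τ : ℝ) (φ ψ : ℝ → ℝ) (x : ℝ) :
    (fun g => ψ (x + √τ * g) * exp (c * (φ (x + √τ * g) - chStep c τ φ x))) =
      fun g => exp (c * φ (x + √τ * g)) * ψ (x + √τ * g) * exp (-c * chStep c τ φ x) := by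
  funext g
  rw [mul_sub, sub_eq_add_neg, exp_add, neg_mul]
  ring

theorem stepb_TE (c τ : ℝ) (φ ψ : ℝ → ℝ) (x : ℝ) :
    TE c τ φ ψ x = heat τ (fun y => exp (c * φ y) * ψ y) x * exp (-c * chStep c τ φ x) := by
  rw [TE, stepb_fun, integral_mul_const, heat]

theorem stepb_sq (hψ : EG ψ) : EG fun y => ψ y ^ 2 := by
  simpa only [sq] using hψ.mul hψ

theorem TE_eq (h : Nice φ) (hc : 0 < c) (τ : ℝ) (ψ : ℝ → ℝ) (x : ℝ) :
    TE c τ φ ψ x = heat τ (fun y => exp (c * φ y) * ψ y) x / Ek c φ 0 τ x := by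
  rw [stepb_TE, neg_mul, exp_neg, exp_chStep h hc, div_eq_mul_inv]

theorem TE_integrable (h : Nice φ) (c τ : ℝ) (hψ : EG ψ) (hm : Measurable ψ) (x : ℝ) :
    Integrable (fun g => ψ (x + √τ * g) * exp (c * (φ (x + √τ * g) - chStep c τ φ x))) γ₁ := by
  rw [stepb_fun]
  exact (((h.eg_exp c).mul hψ).integrable_comp
    ((measurable_const.mul h.cont.measurable).exp.mul hm) x √τ).mul_const _

theorem TE_const (h : Nice φ) (hc : 0 < c) (τ a x : ℝ) : TE c τ φ (fun _ => a) x = a := by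
  rw [TE_eq h hc, div_eq_iff (Ek_zero_pos h c τ x).ne', Ek, heat, heat, ← integral_const_mul]
  refine integral_congr_ae (.of_forall fun g => ?_)
  simp only [pk]
  ring

theorem TE_add (h : Nice φ) (c τ : ℝ) (hψ : EG ψ) (hm : Measurable ψ) (hψ' : EG ψ')
    (hm' : Measurable ψ') (x : ℝ) :
    TE c τ φ (fun y => ψ y + ψ' y) x = TE c τ φ ψ x + TE c τ φ ψ' x := by
  rw [TE, TE, TE, ← integral_add (TE_integrable h c τ hψ hm x) (TE_integrable h c τ hψ' hm' x)]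
  simp only [add_mul]

theorem TE_sub (h : Nice φ) (c τ : ℝ) (hψ : EG ψ) (hm : Measurable ψ) (hψ' : EG ψ')
    (hm' : Measurable ψ') (x : ℝ) :
    TE c τ φ (fun y => ψ y - ψ' y) x = TE c τ φ ψ x - TE c τ φ ψ' x := by
  rw [TE, TE, TE, ← integral_sub (TE_integrable h c τ hψ hm x) (TE_integrable h c τ hψ' hm' x)]
  simp only [sub_mul]

theorem TE_const_mul (c τ a : ℝ) (φ ψ : ℝ → ℝ) (x : ℝ) :
    TE c τ φ (fun y => a * ψ y) x = a * TE c τ φ ψ x := by
  rw [TE, TE, ← integral_const_mul]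
  simp only [mul_assoc]

theorem TE_nonneg (c τ : ℝ) (φ : ℝ → ℝ) (h0 : ∀ y, 0 ≤ ψ y) (x : ℝ) : 0 ≤ TE c τ φ ψ x :=
  integral_nonneg fun _ => mul_nonneg (h0 _) (exp_pos _).le

theorem TE_pos (h : Nice φ) (c τ : ℝ) (hψ : EG ψ) (hm : Continuous ψ) (h0 : ∀ y, 0 < ψ y) (x : ℝ) :
    0 < TE c τ φ ψ x := by
  rw [stepb_TE]
  exact mul_pos (heat_pos ((h.eg_exp c).mul hψ) ((continuous_const.mul h.cont).rexp.mul hm)
    (fun y => mul_pos (exp_pos _) (h0 y)) τ x) (exp_pos _)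

theorem TE_mono (h : Nice φ) (c τ : ℝ) (hψ : EG ψ) (hm : Measurable ψ) (hψ' : EG ψ')
    (hm' : Measurable ψ') (hle : ∀ y, ψ y ≤ ψ' y) (x : ℝ) : TE c τ φ ψ x ≤ TE c τ φ ψ' x :=
  integral_mono (TE_integrable h c τ hψ hm x) (TE_integrable h c τ hψ' hm' x) fun _ =>
    mul_le_mul_of_nonneg_right (hle _) (exp_pos _).le

/-- `0 ≤ TE (ψ - a)²` with `a = TE ψ x` -/
theorem sq_TE_le (h : Nice φ) (hc : 0 < c) (τ : ℝ) (hψ : EG ψ) (hm : Measurable ψ) (x : ℝ) :
    TE c τ φ ψ x ^ 2 ≤ TE c τ φ (fun y => ψ y ^ 2) x := by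
  set a := TE c τ φ ψ x with ha
  have h1 := TE_nonneg c τ φ (ψ := fun y => (ψ y ^ 2 - 2 * a * ψ y) + a ^ 2)
    (fun y => by nlinarith only [sq_nonneg (ψ y - a)]) x
  have e1 : EG fun y => 2 * a * ψ y := (EG.const _).mul hψ
  have m1 : Measurable fun y => 2 * a * ψ y := measurable_const.mul hm
  have m2 : Measurable fun y => ψ y ^ 2 := hm.pow_const 2
  rw [TE_add h c τ ((stepb_sq hψ).sub e1) (m2.sub m1) (EG.const _) measurable_const,
    TE_sub h c τ (stepb_sq hψ) m2 e1 m1, TE_const_mul, TE_const h hc, ← ha] at h1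
  linarith only [h1]

theorem continuous_TE (h : Nice φ) (hc : 0 < c) (τ : ℝ) (hψ : EG ψ) (hm : Continuous ψ) :
    Continuous (TE c τ φ ψ) := by
  have e : TE c τ φ ψ = fun x => heat τ (fun y => exp (c * φ y) * ψ y) x / Ek c φ 0 τ x :=
    funext fun x => TE_eq h hc τ ψ x
  rw [e]
  exact ((cg_heat ((h.eg_exp c).mul hψ) ((continuous_const.mul h.cont).rexp.mul hm)).cont τ).div
    ((cg_Ek h c 0).cont τ) fun x => (Ek_zero_pos h c τ x).ne' 

/-- the density is at most `exp (c (|g| + c⁻¹ + c + 1))` by `abs_chStep_sub_le` -/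
theorem eg_TE (h : Nice φ) (hc : 0 < c) (hτ : τ ∈ Icc (0 : ℝ) 1) (hψ : EG ψ) :
    EG (TE c τ φ ψ) := by
  obtain ⟨C, hC⟩ := hψ
  have e1 : EG fun y => exp (C * (1 + |y|)) := ⟨C, fun y => (abs_of_pos (exp_pos _)).le⟩
  have c1 : Continuous fun y : ℝ => exp (C * (1 + |y|)) := by fun_prop
  obtain ⟨D, hD⟩ := ((cg_heat ((h.eg_exp c).mul e1)
    ((continuous_const.mul h.cont).rexp.mul c1)).eg hτ).mul ((h.chStep hc τ).eg_exp (-c))
  refine ⟨D, fun x => le_trans ?_ ((le_abs_self _).trans (hD x))⟩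
  refine le_trans ?_ (stepb_TE c τ φ (fun y => exp (C * (1 + |y|))) x).le
  rw [← Real.norm_eq_abs, TE, TE]
  refine norm_integral_le_of_norm_le (TE_integrable h c τ e1 c1.measurable x)
    (.of_forall fun g => ?_)
  rw [norm_mul, Real.norm_of_nonneg (exp_pos _).le]
  exact mul_le_mul_of_nonneg_right (hC _) (exp_pos _).le

/-- Stein's identity for the tilted law -/
theorem TE_stein (h : Nice φ) (c : ℝ) (hτ : 0 ≤ τ) (hd : ∀ y, HasDerivAt ψ (ψ' y) y) (hψ : EG ψ)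
    (hψ' : EG ψ') (x : ℝ) :
    TE c τ φ (fun y => ψ y * (y - x)) x = τ * TE c τ φ (fun y => ψ' y + c * deriv φ y * ψ y) x := by
  have h1 := gauss_ibp_comp (f := fun y => exp (c * φ y) * ψ y)
    (f' := fun y => exp (c * φ y) * (ψ' y + c * deriv φ y * ψ y))
    (fun y => (((h.hd0 y).const_mul c).exp.mul (hd y)).congr_deriv (by ring))
    ((h.eg_exp c).mul hψ)
    ((h.eg_exp c).mul (hψ'.add (((EG.const c).mul (h.bs 0).eg).mul hψ))) x √τ
  have h2 : heat τ (fun y => exp (c * φ y) * (ψ y * (y - x))) x =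
      √τ * ∫ g, g * (exp (c * φ (x + √τ * g)) * ψ (x + √τ * g)) ∂γ₁ := by
    rw [heat, ← integral_const_mul]
    refine integral_congr_ae (.of_forall fun g => ?_)
    beta_reduce
    ring
  rw [stepb_TE, stepb_TE, h2, h1, ← mul_assoc √τ, mul_self_sqrt hτ, heat, mul_assoc]

theorem U_eq_TE (h : Nice φ) (hc : 0 < c) (τ x : ℝ) : U c φ τ x = TE c τ φ (deriv φ) x := by
  rw [U_eq h hc, mk_eq_TE h hc, funext (pk_one c φ), TE_const_mul, inv_mul_cancel_left₀ hc.ne']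

theorem V_eq_TE (h : Nice φ) (hc : 0 < c) (τ x : ℝ) :
    V c φ τ x = TE c τ φ (d2 φ) x + c * (TE c τ φ (fun y => deriv φ y ^ 2) x - U c φ τ x ^ 2) := by
  have e1 := stepb_sq (h.bs 0).eg
  rw [V_eq h hc, U_eq h hc, mk_eq_TE h hc 2, funext (h.pk_two c),
    TE_add h c τ ((EG.const c).mul (h.bs2 0).eg) (measurable_const.mul (h.bs2 0).cont.measurable)
      ((EG.const _).mul e1) (measurable_const.mul ((h.bs 0).cont.measurable.pow_const 2)),
    TE_const_mul, TE_const_mul]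
  field_simp
  ring

theorem chStep_neg (h : Nice φ) (he : ∀ x, φ (-x) = φ x) (c τ x : ℝ) :
    chStep c τ φ (-x) = chStep c τ φ x := by
  rw [chStep_eq, chStep_eq, Ek, Ek, heat_neg]
  · simp only [he, pk]
  · exact (measurable_const.mul h.cont.measurable).exp.mul (h.bs_pk c 0 0).cont.measurable

/-- `V = TE v + c Var`, `TE v ≤ b (1 - TE u²)`, `U² ≤ TE u²` -/
theorem Adm.chStep {b : ℝ} (h : Adm b φ) (hc : 0 < c) (hcb : c ≤ b) (τ : ℝ) :
    Adm b (chStep c τ φ) := by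
  have hn := h.toNice
  have e1 := (hn.bs 0).eg
  have m1 := (hn.bs 0).cont.measurable
  have e2 := stepb_sq e1
  have m2 := m1.pow_const 2
  have hv : ∀ x, U c φ τ x ^ 2 ≤ TE c τ φ (fun y => deriv φ y ^ 2) x := fun x => by
    rw [U_eq_TE hn hc]
    exact sq_TE_le hn hc τ e1 m1 x
  refine ⟨hn.chStep hc τ, chStep_neg hn h.even c τ, fun x => ?_, fun x => ?_⟩
  · change 0 < V c φ τ x
    rw [V_eq_TE hn hc]
    exact add_pos_of_pos_of_nonneg (TE_pos hn c τ (hn.bs2 0).eg (hn.bs2 0).cont h.pos x)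
      (mul_nonneg hc.le (sub_nonneg.2 (hv x)))
  · change V c φ τ x ≤ b * (1 - U c φ τ x ^ 2)
    have h1 := TE_mono hn c τ (hn.bs2 0).eg (hn.bs2 0).cont.measurable
      ((EG.const b).mul ((EG.const 1).sub e2)) (measurable_const.mul (measurable_const.sub m2))
      h.le x
    rw [TE_const_mul, TE_sub hn c τ (EG.const 1) measurable_const e2 m2, TE_const hn hc] at h1
    have h2 := mul_le_mul_of_nonneg_right hcb (sub_nonneg.2 (hv x))
    rw [V_eq_TE hn hc]
    linarith only [h1, h2]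

theorem Adm.deriv_neg {b : ℝ} (h : Adm b φ) (x : ℝ) : deriv φ (-x) = -deriv φ x := by
  have := deriv_comp_neg φ x
  rw [funext h.even] at this
  rw [this, neg_neg]

theorem Adm.deriv_zero {b : ℝ} (h : Adm b φ) : deriv φ 0 = 0 := by
  have := h.deriv_neg 0
  rw [neg_zero] at this
  linarith only [this]

theorem Adm.d2_le {b : ℝ} (h : Adm b φ) (x : ℝ) : d2 φ x ≤ b := by
  have h1 := h.le x
  have h2 : 0 ≤ 1 - deriv φ x ^ 2 := sub_nonneg.2 ((sq_le_one_iff_abs_le_one _).2 (h.lip x))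
  have h3 : 0 < b := by
    by_contra hb
    exact absurd ((h.pos x).trans_le h1) (not_lt.2 (mul_nonpos_of_nonpos_of_nonneg (not_lt.1 hb) h2))
  nlinarith only [h1, h3, sq_nonneg (deriv φ x)]

end Crest.Agent.R339.P
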