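import Crest.Agent.R339.P.Quant
import Crest.Agent.R339.P.StepB

/-!
# Row 339, part P7: one step of the scheme
-/

set_option autoImplicit false

noncomputable section

namespace Crest.Agent.R339.P

open MeasureTheory ProbabilityTheory Real Set Function

/-- `Q x` transports the standard Gaussian to the tilted transition law started at `x` -/
structure Drv (b c Δ : ℝ) (φ : ℝ → ℝ) (Q : ℝ → ℝ → ℝ) : Prop where
  meas : Measurable (uncurry Q)
  odd : ∀ x ξ, Q (-x) (-ξ) = -Q x ξ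
  near : ∀ x ξ, |Q x ξ - x - √Δ * ξ| ≤ b * Δ
  law : ∀ ψ : ℝ → ℝ, Measurable ψ → ∀ x, ∫ ξ, ψ (Q x ξ) ∂γ₁ = TE c Δ φ ψ x

variable {b c Δ : ℝ} {φ : ℝ → ℝ} {Q : ℝ → ℝ → ℝ}

/-- `exists_quantile` with `W x g = exp (c (φ (x + √Δ g) - chStep c Δ φ x))`, `a = c √Δ`
(`TE_integrable`, `TE_const`, `chStep_neg`, `Nice.abs_sub_le`), `Q x ξ = x + √Δ * S x ξ`;
`integral_map`, `integral_withDensity_eq_integral_toReal_smul` -/
theorem exists_drv (h : Adm b φ) (hc : 0 < c) (hcb : c ≤ b) (hΔ : 0 < Δ) :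
    ∃ Q, Drv b c Δ φ Q := by
  have hN := h.toNice
  have c1 := hN.cont
  have c2 := (hN.chStep hc Δ).cont
  have hs : 0 ≤ √Δ := sqrt_nonneg _
  have hWc : Continuous (uncurry fun x g : ℝ => exp (c * (φ (x + √Δ * g) - chStep c Δ φ x))) := by
    unfold uncurry
    fun_prop
  obtain ⟨S, hSm, hSo, hSn, hSl⟩ := exists_quantile (a := c * √Δ) (by positivity) hWc.measurable
    (fun _ _ => exp_pos _)
    (fun x => by simpa using TE_integrable hN c Δ (EG.const 1) measurable_const x)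
    (fun x => by simpa [TE] using TE_const hN hc Δ 1 x)
    (fun x g => by
      rw [chStep_neg hN h.even, show -x + √Δ * -g = -(x + √Δ * g) by ring, h.even])
    (fun x g g' hg => by
      rw [← exp_add, exp_le_exp]
      have h1 := (abs_le.1 ((hN.abs_sub_le (x + √Δ * g') (x + √Δ * g)).trans_eq
        (abs_of_nonneg (by nlinarith)))).2
      nlinarith)
  refine ⟨fun x ξ => x + √Δ * S x ξ, measurable_fst.add (hSm.const_mul _), fun x ξ => ?_,
    fun x ξ => ?_, fun ψ hψ x => ?_⟩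
  · rw [hSo]; ring
  · rw [show x + √Δ * S x ξ - x - √Δ * ξ = √Δ * (S x ξ - ξ) by ring, abs_mul, abs_of_nonneg hs]
    calc √Δ * |S x ξ - ξ| ≤ √Δ * (c * √Δ) := mul_le_mul_of_nonneg_left (hSn x ξ) hs
      _ = c * Δ := by rw [mul_left_comm, mul_self_sqrt hΔ.le]
      _ ≤ b * Δ := mul_le_mul_of_nonneg_right hcb hΔ.le
  · have hm : Measurable fun g : ℝ => ψ (x + √Δ * g) := hψ.comp (by fun_prop)
    have hSx : Measurable (S x) := hSm.comp measurable_prodMk_left
    have hW : Measurable fun g : ℝ =>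
        ENNReal.ofReal (exp (c * (φ (x + √Δ * g) - chStep c Δ φ x))) :=
      ENNReal.measurable_ofReal.comp (by fun_prop)
    rw [← integral_map hSx.aemeasurable hm.aestronglyMeasurable, hSl,
      integral_withDensity_eq_integral_toReal_smul hW
        (Filter.Eventually.of_forall fun _ => ENNReal.ofReal_lt_top), TE]
    refine integral_congr_ae (Filter.Eventually.of_forall fun g => ?_)
    simp only [ENNReal.toReal_ofReal (exp_pos _).le, smul_eq_mul, mul_comm]

/-- `0 ≤ ∫ (|f| - a)²` with `a = ∫ |f|` -/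
theorem sq_integral_abs_le {α : Type*} [MeasurableSpace α] (ν : Measure α)
    [IsProbabilityMeasure ν] {f : α → ℝ} (hm : Measurable f) {C : ℝ} (hb : ∀ x, |f x| ≤ C) :
    (∫ x, |f x| ∂ν) ^ 2 ≤ ∫ x, f x ^ 2 ∂ν := by
  have i1 : Integrable (fun x => |f x|) ν :=
    (Integrable.of_bound hm.aestronglyMeasurable C (Filter.Eventually.of_forall hb)).abs
  have i2 : Integrable (fun x => f x ^ 2) ν :=
    Integrable.of_bound (hm.pow_const 2).aestronglyMeasurable (C ^ 2)
      (Filter.Eventually.of_forall fun x => by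
        rw [Real.norm_eq_abs, abs_pow]; exact pow_le_pow_left₀ (abs_nonneg _) (hb x) 2)
  set a := ∫ x, |f x| ∂ν with ha
  have h1 : ∫ x, (2 * a * |f x| - a ^ 2) ∂ν ≤ ∫ x, f x ^ 2 ∂ν :=
    integral_mono ((i1.const_mul _).sub (integrable_const _)) i2 fun x => by
      simp only
      nlinarith [sq_nonneg (|f x| - a), sq_abs (f x)]
  rw [integral_sub (i1.const_mul _) (integrable_const _), integral_const_mul, ← ha] at h1
  simp only [integral_const, probReal_univ, smul_eq_mul, one_mul] at h1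
  linarith

theorem i0_eg1 (h : Nice φ) : EG (deriv φ) := (h.bs 0).eg

theorem i0_eg2 (h : Nice φ) : EG fun y => deriv φ y ^ 2 := by
  simpa only [sq] using (i0_eg1 h).mul (i0_eg1 h)

/-- `TE_stein` for `ψ y = u y - U x`, `U_eq_TE`, `V_eq_TE` -/
theorem TE_cov (h : Nice φ) (hc : 0 < c) (hΔ : 0 ≤ Δ) (x : ℝ) :
    TE c Δ φ (fun y => (deriv φ y - U c φ Δ x) * (y - x)) x = Δ * V c φ Δ x := by
  have m1 : Measurable (deriv φ) := measurable_deriv _
  have m2 : Measurable (d2 φ) := measurable_deriv _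
  have e1 := i0_eg1 h
  have e2 := i0_eg2 h
  rw [TE_stein h c hΔ (fun y => (h.hd1 y).sub_const _) (e1.sub (EG.const _)) (h.bs2 0).eg,
    V_eq_TE h hc]
  congr 1
  have e : (fun y => d2 φ y + c * deriv φ y * (deriv φ y - U c φ Δ x)) =
      fun y => d2 φ y + (c * deriv φ y ^ 2 - (c * U c φ Δ x) * deriv φ y) := by
    funext y; ring
  rw [e, TE_add h c Δ (h.bs2 0).eg m2 (((EG.const c).mul e2).sub ((EG.const _).mul e1))
      (by fun_prop), TE_sub h c Δ ((EG.const c).mul e2) (by fun_prop) ((EG.const _).mul e1)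
      (by fun_prop), TE_const_mul, TE_const_mul, ← U_eq_TE h hc]
  ring

theorem TE_var (h : Nice φ) (hc : 0 < c) (Δ x : ℝ) :
    TE c Δ φ (fun y => (deriv φ y - U c φ Δ x) ^ 2) x =
      TE c Δ φ (fun y => deriv φ y ^ 2) x - U c φ Δ x ^ 2 := by
  have m1 : Measurable (deriv φ) := measurable_deriv _
  have e1 := i0_eg1 h
  have e2 := i0_eg2 h
  have e : (fun y => (deriv φ y - U c φ Δ x) ^ 2) =
      fun y => (deriv φ y ^ 2 - (2 * U c φ Δ x) * deriv φ y) + U c φ Δ x ^ 2 := by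
    funext y; ring
  rw [e, TE_add h c Δ (e2.sub ((EG.const _).mul e1)) (by fun_prop) (EG.const _) measurable_const,
    TE_sub h c Δ e2 (by fun_prop) ((EG.const _).mul e1) (by fun_prop), TE_const_mul,
    TE_const h hc, ← U_eq_TE h hc]
  ring

theorem i0_int_id : Integrable (fun t : ℝ => t) γ₁ :=
  memLp_one_iff_integrable.1 (memLp_id_gaussianReal 1)

theorem i0_D_le (h : Nice φ) (hc : 0 < c) (Δ x y : ℝ) : |deriv φ y - U c φ Δ x| ≤ 2 := by
  have h1 := h.lip y
  have h2 : |U c φ Δ x| ≤ 1 := (h.chStep hc Δ).lip x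
  linarith [abs_sub (deriv φ y) (U c φ Δ x)]

/-- With `D ξ = u (Q x ξ) - U x`: `∫ ξ u (Q x ξ) = ∫ ξ D`, and
`√Δ ∫ ξ D = ∫ D (Q - x) - ∫ D (Q - x - √Δ ξ) ≥ Δ V - b Δ ∫ |D|`. -/
theorem Drv.lower (hQ : Drv b c Δ φ Q) (h : Nice φ) (hc : 0 < c) (hΔ : 0 < Δ) (x : ℝ) :
    √Δ * (V c φ Δ x - b * ∫ ξ, |deriv φ (Q x ξ) - U c φ Δ x| ∂γ₁) ≤
      ∫ ξ, ξ * deriv φ (Q x ξ) ∂γ₁ := by
  have m1 : Measurable (deriv φ) := measurable_deriv _
  have mQ : Measurable (Q x) := hQ.meas.comp measurable_prodMk_left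
  have hs : 0 < √Δ := sqrt_pos.2 hΔ
  set D : ℝ → ℝ := fun ξ => deriv φ (Q x ξ) - U c φ Δ x with hD
  have mD : Measurable D := (m1.comp mQ).sub measurable_const
  have bD : ∀ ξ, |D ξ| ≤ 2 := fun ξ => i0_D_le h hc Δ x _
  have iD : Integrable D γ₁ :=
    Integrable.of_bound mD.aestronglyMeasurable 2 (Filter.Eventually.of_forall bD)
  have i1 : Integrable (fun ξ => ξ * D ξ) γ₁ :=
    i0_int_id.mul_bdd mD.aestronglyMeasurable (Filter.Eventually.of_forall bD)
  have mR : Measurable fun ξ => Q x ξ - x - √Δ * ξ := by fun_prop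
  have i2 : Integrable (fun ξ => D ξ * (Q x ξ - x - √Δ * ξ)) γ₁ :=
    iD.mul_bdd mR.aestronglyMeasurable (Filter.Eventually.of_forall (hQ.near x))
  have e1 : ∫ ξ, ξ * deriv φ (Q x ξ) ∂γ₁ = ∫ ξ, ξ * D ξ ∂γ₁ := by
    have e : (fun ξ => ξ * deriv φ (Q x ξ)) = fun ξ => ξ * D ξ + ξ * U c φ Δ x := by
      funext ξ; simp only [hD]; ring
    rw [e, integral_add i1 (i0_int_id.mul_const _), integral_mul_const, integral_id_gaussianReal]
    simp
  have e2 : Δ * V c φ Δ x =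
      √Δ * ∫ ξ, ξ * D ξ ∂γ₁ + ∫ ξ, D ξ * (Q x ξ - x - √Δ * ξ) ∂γ₁ := by
    rw [← TE_cov h hc hΔ.le, ← hQ.law _ (by fun_prop), ← integral_const_mul,
      ← integral_add (i1.const_mul _) i2]
    refine integral_congr_ae (Filter.Eventually.of_forall fun ξ => ?_)
    simp only [hD]
    ring
  have e3 : ∫ ξ, D ξ * (Q x ξ - x - √Δ * ξ) ∂γ₁ ≤ (∫ ξ, |D ξ| ∂γ₁) * (b * Δ) := by
    rw [← integral_mul_const]
    refine integral_mono i2 (iD.abs.mul_const _) fun ξ => ?_
    refine (le_abs_self _).trans ?_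
    rw [abs_mul]
    exact mul_le_mul_of_nonneg_left (hQ.near x ξ) (abs_nonneg _)
  rw [e1]
  refine le_of_mul_le_mul_left ?_ hs
  rw [← mul_assoc, mul_self_sqrt hΔ.le]
  change Δ * (V c φ Δ x - b * ∫ ξ, |D ξ| ∂γ₁) ≤ _
  nlinarith

/-- integrate `Drv.lower`; `g x = ∫ |D|` has `g² ≤ TE u² - U²` (`sq_integral_abs_le`, `TE_var`)
and `(∫ g)² ≤ ∫ g²`.  All functions are bounded and measurable
(`StronglyMeasurable.integral_prod_right`). -/
theorem Drv.lower_int (hQ : Drv b c Δ φ Q) (h : Nice φ) (hc : 0 < c) (hb : 0 ≤ b) (hΔ : 0 < Δ)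
    (μ : Measure ℝ) [IsProbabilityMeasure μ] :
    √Δ * (∫ x, V c φ Δ x ∂μ - b * √(∫ x, TE c Δ φ (fun y => deriv φ y ^ 2) x ∂μ
      - ∫ x, U c φ Δ x ^ 2 ∂μ)) ≤ ∫ x, ∫ ξ, ξ * deriv φ (Q x ξ) ∂γ₁ ∂μ := by
  have m1 : Measurable (deriv φ) := measurable_deriv _
  have hN := h.chStep hc Δ
  have mU : Measurable (U c φ Δ) := measurable_deriv _
  have mV : Measurable (V c φ Δ) := measurable_deriv _
  have hQm := hQ.meas
  have mD : Measurable (uncurry fun x ξ => deriv φ (Q x ξ) - U c φ Δ x) :=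
    (m1.comp hQm).sub (mU.comp measurable_fst)
  set g : ℝ → ℝ := fun x => ∫ ξ, |deriv φ (Q x ξ) - U c φ Δ x| ∂γ₁ with hg
  have mg : Measurable g :=
    (StronglyMeasurable.integral_prod_right (f := fun x ξ => |deriv φ (Q x ξ) - U c φ Δ x|)
      (continuous_abs.measurable.comp mD).stronglyMeasurable).measurable
  have g0 : ∀ x, 0 ≤ g x := fun x => integral_nonneg fun _ => abs_nonneg _
  have bg : ∀ x, |g x| ≤ 2 := fun x => by
    simpa using norm_integral_le_of_norm_le_const (μ := γ₁) (C := 2)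
      (f := fun ξ => |deriv φ (Q x ξ) - U c φ Δ x|)
      (Filter.Eventually.of_forall fun ξ => by simpa using i0_D_le h hc Δ x _)
  have ig : Integrable g μ :=
    Integrable.of_bound mg.aestronglyMeasurable 2 (Filter.Eventually.of_forall bg)
  have ig2 : Integrable (fun x => g x ^ 2) μ :=
    Integrable.of_bound (mg.pow_const 2).aestronglyMeasurable (2 ^ 2)
      (Filter.Eventually.of_forall fun x => by
        rw [Real.norm_eq_abs, abs_pow]; exact pow_le_pow_left₀ (abs_nonneg _) (bg x) 2)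
  obtain ⟨CV, hCV⟩ := (hN.bs2 0).bdd
  have iV : Integrable (V c φ Δ) μ :=
    Integrable.of_bound mV.aestronglyMeasurable CV (Filter.Eventually.of_forall hCV)
  have iU : Integrable (fun x => U c φ Δ x ^ 2) μ :=
    Integrable.of_bound (mU.pow_const 2).aestronglyMeasurable 1
      (Filter.Eventually.of_forall fun x => by
        rw [Real.norm_eq_abs, abs_pow]; exact pow_le_one₀ (abs_nonneg _) (hN.lip x))
  have iT : Integrable (fun x => TE c Δ φ (fun y => deriv φ y ^ 2) x) μ := by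
    refine Integrable.of_bound (continuous_TE h hc Δ (i0_eg2 h)
      ((h.bs 0).cont.pow 2)).aestronglyMeasurable 1 (Filter.Eventually.of_forall fun x => ?_)
    rw [Real.norm_eq_abs, abs_of_nonneg (TE_nonneg c Δ φ (fun _ => sq_nonneg _) x),
      ← TE_const h hc Δ 1 x]
    exact TE_mono h c Δ (i0_eg2 h) (m1.pow_const 2) (EG.const 1) measurable_const
      (fun y => by rw [← sq_abs]; exact pow_le_one₀ (abs_nonneg _) (h.lip y)) x
  have iR : Integrable (fun x => ∫ ξ, ξ * deriv φ (Q x ξ) ∂γ₁) μ := by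
    refine Integrable.of_bound (StronglyMeasurable.integral_prod_right
      (f := fun x ξ => ξ * deriv φ (Q x ξ))
      (measurable_snd.mul (m1.comp hQm)).stronglyMeasurable).aestronglyMeasurable
      (∫ ξ, |ξ| ∂γ₁) (Filter.Eventually.of_forall fun x => ?_)
    refine norm_integral_le_of_norm_le i0_int_id.abs (Filter.Eventually.of_forall fun ξ => ?_)
    rw [Real.norm_eq_abs, abs_mul]
    exact mul_le_of_le_one_right (abs_nonneg _) (h.lip _)
  have h1 : ∀ x, g x ^ 2 ≤ TE c Δ φ (fun y => deriv φ y ^ 2) x - U c φ Δ x ^ 2 := fun x => by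
    rw [← TE_var h hc, ← hQ.law _ (by fun_prop)]
    exact sq_integral_abs_le γ₁ (mD.comp measurable_prodMk_left) fun ξ => i0_D_le h hc Δ x _
  have h2 : ∫ x, g x ∂μ ≤ √(∫ x, TE c Δ φ (fun y => deriv φ y ^ 2) x ∂μ
      - ∫ x, U c φ Δ x ^ 2 ∂μ) := by
    refine le_sqrt_of_sq_le ?_
    have h3 := sq_integral_abs_le μ mg bg
    simp only [abs_of_nonneg (g0 _)] at h3
    rw [← integral_sub iT iU]
    exact h3.trans (integral_mono ig2 (iT.sub iU) h1)
  have h4 : ∫ x, √Δ * (V c φ Δ x - b * g x) ∂μ ≤ ∫ x, ∫ ξ, ξ * deriv φ (Q x ξ) ∂γ₁ ∂μ :=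
    integral_mono ((iV.sub (ig.const_mul b)).const_mul _) iR fun x => hQ.lower h hc hΔ x
  rw [integral_const_mul, integral_sub iV (ig.const_mul b), integral_const_mul] at h4
  refine le_trans (mul_le_mul_of_nonneg_left ?_ (sqrt_nonneg _)) h4
  linarith [mul_le_mul_of_nonneg_left h2 hb]

end Crest.Agent.R339.P
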