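import Crest.Agent.R339.P.StepB

/-! Row 339, part P: the law inside a cell. -/

set_option autoImplicit false

noncomputable section

namespace Crest.Agent.R339.P

open MeasureTheory ProbabilityTheory Real Set Function


variable {μ : Measure ℝ} {φ ψ : ℝ → ℝ} {c Δ s : ℝ}

theorem EM.dirac (x : ℝ) : EM (Measure.dirac x) := by
  exact ⟨inferInstance, fun C => integrable_dirac (by simp)⟩

theorem EM.integrable (hμ : EM μ) (hψ : EG ψ) (hm : Measurable ψ) : Integrable ψ μ := by
  obtain ⟨C, hC⟩ := hψ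
  exact (hμ.mom C).mono' hm.aestronglyMeasurable (.of_forall hC)

theorem law_meas (h : Nice φ) (hc : 0 < c) (Δ s : ℝ) : Measurable fun p : ℝ × ℝ =>
    exp (c * (chStep c (Δ - s) φ (p.1 + √s * p.2) - chStep c Δ φ p.1)) := by
  have h1 := (h.chStep hc (Δ - s)).cont
  have h2 := (h.chStep hc Δ).cont
  fun_prop

theorem integral_law (hμ : EM μ) (h : Nice φ) (hc : 0 < c) (Δ s : ℝ) (hm : Measurable ψ) :
    ∫ x, ψ x ∂law μ φ c Δ s = ∫ p : ℝ × ℝ, ψ (p.1 + √s * p.2) *
      exp (c * (chStep c (Δ - s) φ (p.1 + √s * p.2) - chStep c Δ φ p.1)) ∂μ.prod γ₁ := by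
  have := hμ.prob
  unfold law
  rw [integral_map (by fun_prop) hm.aestronglyMeasurable,
    integral_withDensity_eq_integral_toReal_smul (law_meas h hc Δ s).ennreal_ofReal
      (.of_forall fun _ => ENNReal.ofReal_lt_top)]
  refine integral_congr_ae (.of_forall fun p => ?_)
  simp only [ENNReal.toReal_ofReal (exp_pos _).le, smul_eq_mul, mul_comm]

theorem integrable_law_iff (hμ : EM μ) (h : Nice φ) (hc : 0 < c) (Δ s : ℝ) (hm : Measurable ψ) :
    Integrable ψ (law μ φ c Δ s) ↔ Integrable (fun p : ℝ × ℝ => ψ (p.1 + √s * p.2) *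
      exp (c * (chStep c (Δ - s) φ (p.1 + √s * p.2) - chStep c Δ φ p.1))) (μ.prod γ₁) := by
  have := hμ.prob
  unfold law
  rw [integrable_map_measure hm.aestronglyMeasurable (by fun_prop),
    integrable_withDensity_iff (law_meas h hc Δ s).ennreal_ofReal
      (.of_forall fun _ => ENNReal.ofReal_lt_top)]
  simp only [ENNReal.toReal_ofReal (exp_pos _).le, comp_apply]

/-- `exp (C (1 + |y|)) * exp (C (1 + |g|))` is integrable on the product -/
theorem integrable_prod_of_le (hμ : EM μ) {F : ℝ × ℝ → ℝ} (hm : Measurable F) {C : ℝ}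
    (hle : ∀ p, |F p| ≤ exp (C * (1 + |p.1|)) * exp (C * (1 + |p.2|))) :
    Integrable F (μ.prod γ₁) := by
  have := hμ.prob
  exact ((hμ.mom C).mul_prod (integrable_exp_γ C)).mono' hm.aestronglyMeasurable (.of_forall hle)

theorem law_int2 (hμ : EM μ) {f g : ℝ → ℝ} (hf : EG f) (hfm : Measurable f) (hg : EG g)
    (hgm : Measurable g) {σ : ℝ} (hσ : 0 ≤ σ) :
    Integrable (fun p : ℝ × ℝ => f (p.1 + σ * p.2) * g p.1) (μ.prod γ₁) := by
  obtain ⟨C, hC0, hC⟩ := hf.exists_nonneg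
  obtain ⟨D, hD0, hD⟩ := hg.exists_nonneg
  refine integrable_prod_of_le hμ (by fun_prop) (C := C + D + C * σ) fun p => ?_
  rw [abs_mul, ← exp_add]
  refine (mul_le_mul (hC _) (hD _) (abs_nonneg _) (exp_pos _).le).trans ?_
  rw [← exp_add, exp_le_exp]
  have h1 : |p.1 + σ * p.2| ≤ |p.1| + σ * |p.2| := by
    refine (abs_add_le _ _).trans_eq ?_
    rw [abs_mul, abs_of_nonneg hσ]
  have h2 := mul_le_mul_of_nonneg_left h1 hC0
  have h3 := abs_nonneg p.1
  have h4 := abs_nonneg p.2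
  have h5 : 0 ≤ C * σ := mul_nonneg hC0 hσ
  nlinarith [mul_nonneg h5 h3, mul_nonneg hC0 h4, mul_nonneg hD0 h4]

theorem law_int (hμ : EM μ) (h : Nice φ) (hc : 0 < c) (Δ s : ℝ) (hψ : EG ψ)
    (hm : Measurable ψ) : Integrable (fun p : ℝ × ℝ => ψ (p.1 + √s * p.2) *
      exp (c * (chStep c (Δ - s) φ (p.1 + √s * p.2) - chStep c Δ φ p.1))) (μ.prod γ₁) := by
  have h1 := h.chStep hc (Δ - s)
  have h2 := h.chStep hc Δ
  have c1 := h1.cont
  have c2 := h2.cont
  have := law_int2 hμ (hψ.mul (h1.eg_exp c)) (by fun_prop) (h2.eg_exp (-c)) (by fun_prop)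
    (sqrt_nonneg s)
  refine this.congr (.of_forall fun p => ?_)
  simp only [mul_assoc, ← exp_add]
  congr 2
  ring

theorem law_zero (hμ : EM μ) (φ : ℝ → ℝ) (c Δ : ℝ) : law μ φ c Δ 0 = μ := by
  have := hμ.prob
  unfold law
  simp only [sqrt_zero, zero_mul, add_zero, sub_zero, sub_self, mul_zero, exp_zero,
    ENNReal.ofReal_one]
  rw [show (fun _ : ℝ × ℝ => (1 : ENNReal)) = 1 from rfl, withDensity_one, Measure.map_fst_prod]
  simp

theorem law_map (s : ℝ) : γ₁.map (fun g => √s * g) = gaussianReal 0 s.toNNReal := by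
  rw [gaussianReal_map_const_mul, mul_zero, mul_one]
  congr 1
  ext
  simp only [NNReal.coe_mk, Real.coe_toNNReal', sq_sqrt']

theorem law_heat {f : ℝ → ℝ} (hm : Measurable f) (s x : ℝ) :
    heat s f x = ∫ y, f (x + y) ∂gaussianReal 0 s.toNNReal := by
  rw [← law_map, integral_map (by fun_prop) (Measurable.aestronglyMeasurable (by fun_prop))]
  rfl

/-- semigroup property `P_s P_{t} = P_{s+t}` (`gaussianReal_add_gaussianReal_of_indepFun` or
`gaussianReal_conv_gaussianReal`) -/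
theorem heat_heat {f : ℝ → ℝ} (hf : EG f) (hm : Measurable f) {s t : ℝ} (hs : 0 ≤ s) (ht : 0 ≤ t)
    (x : ℝ) : heat s (heat t f) x = heat (s + t) f x := by
  have hi : Integrable (fun y => f (x + y)) (gaussianReal 0 (s + t).toNNReal) := by
    rw [← law_map, integrable_map_measure (Measurable.aestronglyMeasurable (by fun_prop))
      (by fun_prop)]
    exact hf.integrable_comp hm x _
  rw [law_heat hm (s + t) x]
  rw [Real.toNNReal_add hs ht, ← add_zero (0 : ℝ), ← gaussianReal_conv_gaussianReal] at hi ⊢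
  rw [integral_conv hi]
  have hmeas : Measurable (heat t f) := by
    have : StronglyMeasurable fun p : ℝ × ℝ => f (p.1 + √t * p.2) :=
      Measurable.stronglyMeasurable (by fun_prop)
    exact this.integral_prod_right'.measurable
  rw [law_heat hmeas s x]
  refine integral_congr_ae (.of_forall fun y => ?_)
  simp only [law_heat hm t, add_assoc]

theorem chStep_chStep (h : Nice φ) (hc : 0 < c) {s t : ℝ} (hs : 0 ≤ s) (ht : 0 ≤ t) :
    chStep c s (chStep c t φ) = chStep c (s + t) φ := by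
  funext x
  have e : (fun y => exp (c * chStep c t φ y)) = heat t fun y => exp (c * φ y) := by
    funext y
    rw [exp_chStep h hc]
    simp only [Ek, pk, mul_one]
  have hcont := h.cont
  have := heat_heat (h.eg_exp c) (by fun_prop) hs ht x
  rw [← e] at this
  exact congrArg (fun r => c⁻¹ * log r) this

theorem integral_law_eq_TE (hμ : EM μ) (h : Nice φ) (hc : 0 < c) (hΔ : Δ ≤ 1) (hs : s ∈ Icc 0 Δ)
    (hψ : EG ψ) (hm : Measurable ψ) :
    ∫ x, ψ x ∂law μ φ c Δ s = ∫ x, TE c s (chStep c (Δ - s) φ) ψ x ∂μ := by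
  have := hμ.prob
  rw [integral_law hμ h hc Δ s hm, integral_prod _ (law_int hμ h hc Δ s hψ hm)]
  refine integral_congr_ae (.of_forall fun x => ?_)
  simp only [TE, chStep_chStep h hc hs.1 (sub_nonneg.2 hs.2), add_sub_cancel]

theorem integral_law_end (hμ : EM μ) (h : Nice φ) (hc : 0 < c) (hΔ : Δ ∈ Icc (0 : ℝ) 1)
    (hψ : EG ψ) (hm : Measurable ψ) : ∫ x, ψ x ∂law μ φ c Δ Δ = ∫ x, TE c Δ φ ψ x ∂μ := by
  rw [integral_law_eq_TE hμ h hc hΔ.2 ⟨hΔ.1, le_rfl⟩ hψ hm, sub_self, chStep_zero hc]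

theorem EM.law (hμ : EM μ) (h : Nice φ) (hc : 0 < c) (hΔ : Δ ≤ 1) (hs : s ∈ Icc 0 Δ) :
    EM (law μ φ c Δ s) := by
  have := hμ.prob
  have hi : ∀ {ψ : ℝ → ℝ}, EG ψ → Measurable ψ → Integrable ψ (P.law μ φ c Δ s) :=
    fun hψ hm => (integrable_law_iff hμ h hc Δ s hm).2 (law_int hμ h hc Δ s hψ hm)
  refine ⟨?_, fun C => hi ⟨C, fun x => (abs_of_pos (exp_pos _)).le⟩ (by fun_prop)⟩
  have h1 := hi (EG.const 1) measurable_const
  have h2 := integral_law_eq_TE hμ h hc hΔ hs (EG.const 1) measurable_const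
  simp only [TE_const (h.chStep hc _) hc, integral_const, smul_eq_mul, mul_one,
    probReal_univ] at h2
  exact isProbabilityMeasure_iff_real.2 h2

end Crest.Agent.R339.P
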