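import Crest.Agent.R339.P.Asm
import Crest.Agent.R339.P.Gap
import Crest.Agent.R339.P.Iamp

/-! Row 339, part P. -/

namespace Crest.Agent.R339

theorem partA (hG : GuerraStmt) : PartAStmt := P.partA_of P.gap P.iamp hG

end Crest.Agent.R339
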