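import Crest.Agent.R339.P.Defs
import Crest.Agent.R215.Basic

/-!
# Row 339, part P7: the quantile transform

`Crest.Agent.R215.Phi` is the standard Gaussian distribution function (file `R215/Basic.lean`).
-/

set_option autoImplicit false

noncomputable section

namespace Crest.Agent.R339.P

open MeasureTheory ProbabilityTheory Real Set Function

/-- distribution function of the law with density `w` with respect to `γ₁` -/
def qF (w : ℝ → ℝ) (t : ℝ) : ℝ := ∫ g in Iic t, w g ∂γ₁

instance qu_null : NullSingletonClass γ₁ := nullSingletonClass_gaussianReal one_ne_zero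

theorem qF_sub {w : ℝ → ℝ} (hi : Integrable w γ₁) (a b : ℝ) :
    qF w b - qF w a = ∫ g in a..b, w g ∂γ₁ :=
  intervalIntegral.integral_Iic_sub_Iic hi.integrableOn hi.integrableOn

theorem qF_add {w : ℝ → ℝ} (hi : Integrable w γ₁) (t : ℝ) :
    qF w t + ∫ g in Ioi t, w g ∂γ₁ = ∫ g, w g ∂γ₁ :=
  intervalIntegral.integral_Iic_add_Ioi hi.integrableOn hi.integrableOn

/-- `γ₁` has no atoms (`noAtoms_gaussianReal`); e.g. `qF w = cdf` of a measure without atoms, or
`intervalIntegral.integral_Iic_sub_Iic` and `intervalIntegral.continuous_primitive` -/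
theorem continuous_qF {w : ℝ → ℝ} (hi : Integrable w γ₁) : Continuous (qF w) := by
  have h : qF w = fun b => qF w 0 + ∫ g in (0 : ℝ)..b, w g ∂γ₁ := by
    funext b; rw [← qF_sub hi]; ring
  rw [h]
  exact continuous_const.add (hi.continuous_primitive 0)

/-- `γ₁ (Ioc a b) ≠ 0` (`gaussianReal_absolutelyContinuous'`), `setIntegral_pos_iff_support_of_nonneg_ae` -/
theorem strictMono_qF {w : ℝ → ℝ} (hi : Integrable w γ₁) (hp : ∀ g, 0 < w g) :
    StrictMono (qF w) := by
  intro a b hab
  rw [← sub_pos, qF_sub hi, intervalIntegral.integral_of_le hab.le,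
    setIntegral_pos_iff_support_of_nonneg_ae (Filter.Eventually.of_forall fun g => (hp g).le)
      hi.integrableOn]
  have : support w = univ := eq_univ_of_forall fun g => (hp g).ne'
  rw [this, univ_inter, pos_iff_ne_zero]
  intro h0
  have := gaussianReal_absolutelyContinuous' 0 one_ne_zero h0
  rw [Real.volume_Ioc, ENNReal.ofReal_eq_zero] at this
  linarith

/-- `γ₁` is symmetric (`gaussianReal_map_neg`) and has no atoms -/
theorem qF_neg {w : ℝ → ℝ} (hm : Measurable w) (hi : Integrable w γ₁) (h1 : ∫ g, w g ∂γ₁ = 1)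
    (t : ℝ) : qF (fun g => w (-g)) (-t) = 1 - qF w t := by
  have hmap : γ₁.map (fun x => -x) = γ₁ := by rw [gaussianReal_map_neg, neg_zero]
  have h2 := qF_add hi t
  have h3 : ∫ g in Ici t, w g ∂γ₁ = qF (fun g => w (-g)) (-t) := by
    conv_lhs => rw [← hmap]
    rw [setIntegral_map measurableSet_Ici hm.aestronglyMeasurable measurable_neg.aemeasurable]
    have : (fun x : ℝ => -x) ⁻¹' Ici t = Iic (-t) := by
      ext x; simp only [mem_preimage, mem_Ici, mem_Iic]; constructor <;> intro h <;> linarith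
    rw [this]; rfl
  rw [← h3, integral_Ici_eq_integral_Ioi]
  linarith

theorem qu_phi (a g : ℝ) : R215.phi g * exp (a * g - a ^ 2 / 2) = R215.phi (g - a) := by
  unfold R215.phi
  rw [mul_assoc, ← exp_add]
  congr 2
  ring

/-- `phi g * exp (a g - a² / 2) = phi (g - a)` -/
theorem qF_exp (a t : ℝ) : qF (fun g => exp (a * g - a ^ 2 / 2)) t = R215.Phi (t - a) := by
  rw [qF, ← integral_indicator measurableSet_Iic, R215.integral_gam, R215.Phi,
    ← integral_indicator measurableSet_Iic,
    ← integral_sub_right_eq_self (fun g => (Iic (t - a)).indicator R215.phi g) a]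
  refine integral_congr_ae (Filter.Eventually.of_forall fun g => ?_)
  by_cases hg : g ≤ t
  · have h1 : g ∈ Iic t := hg
    have h2 : g - a ∈ Iic (t - a) := sub_le_sub_right hg a
    simp only [indicator_of_mem h1, indicator_of_mem h2, qu_phi]
  · have h1 : g ∉ Iic t := hg
    have h2 : g - a ∉ Iic (t - a) := fun h => hg (by simpa using h)
    simp only [indicator_of_notMem h1, indicator_of_notMem h2, mul_zero]

theorem integral_exp_tilt (a : ℝ) : Integrable (fun g => exp (a * g - a ^ 2 / 2)) γ₁ ∧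
    ∫ g, exp (a * g - a ^ 2 / 2) ∂γ₁ = 1 := by
  constructor
  · rw [R215.integrable_gam_iff]
    simp only [qu_phi]
    exact R215.integrable_phi.comp_sub_right a
  · rw [R215.integral_gam]
    simp only [qu_phi]
    rw [integral_sub_right_eq_self R215.phi a, R215.integral_phi]

/-- Monotone likelihood ratio.  With `e g = exp (a g - a² / 2)`, the ratio `w / e` is antitone.
If `e t ≤ w t` then `e ≤ w` on `Iic t`; otherwise `w ≤ e` on `Ioi t`, and both have integral `1`
(`integral_add_compl`). -/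
theorem Phi_le_qF {w : ℝ → ℝ} {a : ℝ} (hi : Integrable w γ₁) (h1 : ∫ g, w g ∂γ₁ = 1)
    (hl : ∀ g g', g ≤ g' → w g' ≤ w g * exp (a * (g' - g))) (t : ℝ) :
    R215.Phi (t - a) ≤ qF w t := by
  obtain ⟨ie, e1⟩ := integral_exp_tilt a
  rw [← qF_exp]
  by_cases ht : exp (a * t - a ^ 2 / 2) ≤ w t
  · refine setIntegral_mono_on ie.integrableOn hi.integrableOn measurableSet_Iic fun g hg => ?_
    have h2 := ht.trans (hl g t hg)
    have h3 : exp (a * t - a ^ 2 / 2) = exp (a * g - a ^ 2 / 2) * exp (a * (t - g)) := by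
      rw [← exp_add]; congr 1; ring
    rw [h3] at h2
    exact le_of_mul_le_mul_right h2 (exp_pos _)
  · have h2 : ∫ g in Ioi t, w g ∂γ₁ ≤ ∫ g in Ioi t, exp (a * g - a ^ 2 / 2) ∂γ₁ := by
      refine setIntegral_mono_on hi.integrableOn ie.integrableOn measurableSet_Ioi fun g hg => ?_
      have h3 : exp (a * g - a ^ 2 / 2) = exp (a * t - a ^ 2 / 2) * exp (a * (g - t)) := by
        rw [← exp_add]; congr 1; ring
      rw [h3]
      exact (hl t g (le_of_lt hg)).trans
        (mul_le_mul_of_nonneg_right (not_le.1 ht).le (exp_pos _).le)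
    linarith [qF_add hi t, qF_add ie t]

/-- `Measure.ext_of_Iic`: `{ξ | S ξ ≤ t} = {ξ | Phi ξ ≤ qF w t} = Iic (PhiInv (qF w t))` -/
theorem map_quantile {w S : ℝ → ℝ} (hi : Integrable w γ₁) (hp : ∀ g, 0 < w g)
    (h01 : ∀ t, 0 < qF w t ∧ qF w t < 1) (hS : ∀ ξ, qF w (S ξ) = R215.Phi ξ) (hm : Measurable S) :
    γ₁.map S = γ₁.withDensity fun g => ENNReal.ofReal (w g) := by
  have hP : IsProbabilityMeasure (γ₁.map S) := Measure.isProbabilityMeasure_map hm.aemeasurable
  refine Measure.ext_of_Iic _ _ fun t => ?_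
  have e : S ⁻¹' Iic t = Iic (R215.PhiInv (qF w t)) := by
    ext ξ
    simp only [mem_preimage, mem_Iic]
    rw [R215.le_PhiInv_iff (h01 t).1 (h01 t).2, ← hS, (strictMono_qF hi hp).le_iff_le]
  rw [Measure.map_apply hm measurableSet_Iic, e, withDensity_apply _ measurableSet_Iic,
    ← ofReal_integral_eq_lintegral_ofReal hi.integrableOn
      (Filter.Eventually.of_forall fun g => (hp g).le), ← ofReal_measureReal (measure_ne_top _ _),
    ← R215.Phi_eq_real, R215.Phi_PhiInv (h01 t).1 (h01 t).2]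
  rfl

/-- `Phi (t - a) ≤ qF (W x) t ≤ Phi (t + a)`, so the intermediate value theorem on `[ξ - a, ξ + a]`
gives `S x ξ` with `qF (W x) (S x ξ) = Phi ξ`, unique by `strictMono_qF`.  Measurability:
`measurable_of_Iic`, `{S ≤ t} = {p | Phi p.2 ≤ qF (W p.1) t}`
(`StronglyMeasurable.integral_prod_right`). -/
theorem exists_quantile {W : ℝ → ℝ → ℝ} {a : ℝ} (ha : 0 ≤ a) (hm : Measurable (uncurry W))
    (hp : ∀ x g, 0 < W x g) (hi : ∀ x, Integrable (W x) γ₁) (h1 : ∀ x, ∫ g, W x g ∂γ₁ = 1)
    (hs : ∀ x g, W (-x) (-g) = W x g)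
    (hl : ∀ x g g', g ≤ g' → W x g' ≤ W x g * exp (a * (g' - g))) :
    ∃ S : ℝ → ℝ → ℝ, Measurable (uncurry S) ∧ (∀ x ξ, S (-x) (-ξ) = -S x ξ) ∧
      (∀ x ξ, |S x ξ - ξ| ≤ a) ∧
      ∀ x, γ₁.map (S x) = γ₁.withDensity fun g => ENNReal.ofReal (W x g) := by
  have hmx : ∀ x, Measurable (W x) := fun x => hm.comp measurable_prodMk_left
  have hneg : ∀ x t, qF (W (-x)) (-t) = 1 - qF (W x) t := by
    intro x t
    rw [← qF_neg (hmx x) (hi x) (h1 x)]
    congr 1
    funext g
    rw [← hs x (-g), neg_neg]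
  have lo : ∀ x t, R215.Phi (t - a) ≤ qF (W x) t := fun x t => Phi_le_qF (hi x) (h1 x) (hl x) t
  have up : ∀ x t, qF (W x) t ≤ R215.Phi (t + a) := by
    intro x t
    have h2 := lo (-x) (-t)
    rw [hneg, show -t - a = -(t + a) by ring, R215.Phi_neg] at h2
    linarith
  have ex : ∀ x ξ, ∃ s ∈ Icc (ξ - a) (ξ + a), qF (W x) s = R215.Phi ξ := by
    intro x ξ
    refine intermediate_value_Icc (by linarith) (continuous_qF (hi x)).continuousOn ⟨?_, ?_⟩
    · simpa using up x (ξ - a)
    · simpa using lo x (ξ + a)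
  choose S hS1 hS2 using ex
  have hsm := fun x => strictMono_qF (hi x) (hp x)
  have hSm : Measurable (uncurry S) := by
    refine measurable_of_Iic fun t => ?_
    have e : uncurry S ⁻¹' Iic t = {p : ℝ × ℝ | R215.Phi p.2 ≤ qF (W p.1) t} := by
      ext p
      simp only [mem_preimage, mem_Iic, mem_ofPred_eq]
      rw [← hS2 p.1 p.2, (hsm p.1).le_iff_le]
      rfl
    rw [e]
    have h2 : Measurable fun x => qF (W x) t :=
      (StronglyMeasurable.integral_prod_right (ν := γ₁.restrict (Iic t)) (f := W)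
        hm.stronglyMeasurable).measurable
    exact measurableSet_le (R215.measurable_Phi.comp measurable_snd) (h2.comp measurable_fst)
  refine ⟨S, hSm, fun x ξ => ?_, fun x ξ => ?_, fun x => ?_⟩
  · refine (hsm (-x)).injective ?_
    rw [hS2, hneg, hS2, R215.Phi_neg]
  · have := hS1 x ξ
    exact abs_le.2 ⟨by linarith [this.1], by linarith [this.2]⟩
  · exact map_quantile (hi x) (hp x)
      (fun t => ⟨(R215.Phi_pos _).trans_le (lo x t), (up x t).trans_lt (R215.Phi_lt_one _)⟩)
      (hS2 x) (hSm.comp measurable_prodMk_left)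

end Crest.Agent.R339.P
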