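import Crest.Agent.R339.P.Heat

/-! Row 339, part P: one Cole-Hopf step, the ratios `m k = E^{(k)} / E`. -/

set_option autoImplicit false

noncomputable section

namespace Crest.Agent.R339.P

open MeasureTheory ProbabilityTheory Real Set Function


variable {c : ℝ} {φ : ℝ → ℝ}

/-- `∂_x^k exp (c Φ)` -/
def Ek (c : ℝ) (φ : ℝ → ℝ) (k : ℕ) (τ x : ℝ) : ℝ := heat τ (fun y => exp (c * φ y) * pk c φ k y) x

/-- the ratios -/
def mk (c : ℝ) (φ : ℝ → ℝ) (k : ℕ) (τ x : ℝ) : ℝ := Ek c φ k τ x / Ek c φ 0 τ x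

theorem stepa_eg (h : Nice φ) (c : ℝ) (k : ℕ) : EG fun y => exp (c * φ y) * pk c φ k y :=
  (h.eg_exp c).mul (h.bs_pk c k 0).eg

theorem stepa_cont (h : Nice φ) (c : ℝ) (k : ℕ) :
    Continuous fun y => exp (c * φ y) * pk c φ k y :=
  continuous_iff_continuousAt.2 fun x => (h.hasDerivAt_exp_pk c k x).continuousAt

theorem stepa_int (h : Nice φ) (c : ℝ) (k : ℕ) (x σ : ℝ) :
    Integrable (fun g => exp (c * φ (x + σ * g)) * pk c φ k (x + σ * g)) γ₁ :=
  (stepa_eg h c k).integrable_comp (stepa_cont h c k).measurable x σ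

theorem Ek_zero_pos (h : Nice φ) (c τ x : ℝ) : 0 < Ek c φ 0 τ x := heat_pos (stepa_eg h c 0) (stepa_cont h c 0) (fun _ => mul_pos (exp_pos _) one_pos) τ x

theorem chStep_eq (c τ : ℝ) (φ : ℝ → ℝ) (x : ℝ) : chStep c τ φ x = c⁻¹ * log (Ek c φ 0 τ x) := by
  simp only [chStep, Ek, heat, pk, mul_one]

theorem exp_chStep (h : Nice φ) (hc : 0 < c) (τ x : ℝ) :
    exp (c * chStep c τ φ x) = Ek c φ 0 τ x := by
  rw [chStep_eq, mul_inv_cancel_left₀ hc.ne', exp_log (Ek_zero_pos h c τ x)]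

theorem chStep_zero (hc : 0 < c) (φ : ℝ → ℝ) : chStep c 0 φ = φ := by
  funext x
  rw [chStep_eq, Ek, heat_zero, pk, mul_one, log_exp, inv_mul_cancel_left₀ hc.ne']

theorem chStep_add_const (h : Nice φ) (hc : 0 < c) (τ a x : ℝ) :
    chStep c τ (fun y => φ y + a) x = chStep c τ φ x + a := by
  have e : Ek c (fun y => φ y + a) 0 τ x = Ek c φ 0 τ x * exp (c * a) := by
    simp only [Ek, heat, pk, mul_one, mul_add c, exp_add, integral_mul_const]
  rw [chStep_eq, chStep_eq, e, log_mul (Ek_zero_pos h c τ x).ne' (exp_pos _).ne', log_exp, mul_add,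
    inv_mul_cancel_left₀ hc.ne']

theorem cg_Ek (h : Nice φ) (c : ℝ) (k : ℕ) : CG (Ek c φ k) := cg_heat (stepa_eg h c k) (stepa_cont h c k)

theorem hasDerivAt_Ek (h : Nice φ) (c : ℝ) (k : ℕ) (τ x : ℝ) :
    HasDerivAt (Ek c φ k τ) (Ek c φ (k + 1) τ x) x := hasDerivAt_heat (h.hasDerivAt_exp_pk c k) (stepa_eg h c k) (stepa_eg h c (k + 1)) τ x

theorem hasFDerivAt_Ek (h : Nice φ) (c : ℝ) (k : ℕ) {τ : ℝ} (hτ : 0 < τ) (x : ℝ) :
    HasFDerivAt (uncurry (Ek c φ k)) (lin2 (Ek c φ (k + 2) τ x / 2) (Ek c φ (k + 1) τ x)) (τ, x) := hasFDerivAt_heat (h.hasDerivAt_exp_pk c k) (h.hasDerivAt_exp_pk c (k + 1)) (stepa_eg h c k)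
    (stepa_eg h c (k + 1)) (stepa_eg h c (k + 2)) hτ x

theorem mk_zero (h : Nice φ) (c τ x : ℝ) : mk c φ 0 τ x = 1 := div_self (Ek_zero_pos h c τ x).ne'

theorem mk_eq_TE (h : Nice φ) (hc : 0 < c) (k : ℕ) (τ x : ℝ) :
    mk c φ k τ x = TE c τ φ (pk c φ k) x := by
  rw [mk, ← exp_chStep h hc, Ek, heat, ← integral_div, TE]
  simp only [mul_sub, exp_sub, mul_comm (exp _), mul_div_assoc]

theorem stepa_bd (h : Nice φ) (c : ℝ) (k : ℕ) {C : ℝ} (hC : ∀ x, |pk c φ k x| ≤ C) (τ x : ℝ) :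
    |mk c φ k τ x| ≤ C := by
  have h0 := Ek_zero_pos h c τ x
  rw [mk, abs_div, abs_of_pos h0, div_le_iff₀ h0, Ek, Ek, heat, heat, ← integral_const_mul]
  refine abs_integral_le_integral_abs.trans (integral_mono (stepa_int h c k x _).abs
    ((stepa_int h c 0 x _).const_mul C) fun g => ?_)
  simp only [abs_mul, abs_exp, pk, mul_one, mul_comm C]
  exact mul_le_mul_of_nonneg_left (hC _) (exp_pos _).le

/-- `|E_k| ≤ sup |pk| * E_0` -/
theorem mk_bdd (h : Nice φ) (c : ℝ) (k : ℕ) : ∃ C, ∀ τ x, |mk c φ k τ x| ≤ C := (h.bs_pk c k 0).bdd.imp fun _ hC => stepa_bd h c k hC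

theorem cg_mk (h : Nice φ) (c : ℝ) (k : ℕ) : CG (mk c φ k) := CG.of_bdd ((cg_Ek h c k).1.div (cg_Ek h c 0).1 fun p => (Ek_zero_pos h c p.1 p.2).ne')
    (mk_bdd h c k)

theorem hasDerivAt_mk (h : Nice φ) (c : ℝ) (k : ℕ) (τ x : ℝ) :
    HasDerivAt (mk c φ k τ) (mk c φ (k + 1) τ x - mk c φ 1 τ x * mk c φ k τ x) x := by
  have h0 := (Ek_zero_pos h c τ x).ne'
  refine ((hasDerivAt_Ek h c k τ x).fun_div (hasDerivAt_Ek h c 0 τ x) h0).congr_deriv ?_
  unfold mk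
  field_simp

theorem stepa_hd (h : Nice φ) (c τ x : ℝ) : HasDerivAt (chStep c τ φ) (c⁻¹ * mk c φ 1 τ x) x := by
  rw [funext (chStep_eq c τ φ)]
  exact ((hasDerivAt_Ek h c 0 τ x).log (Ek_zero_pos h c τ x).ne').const_mul c⁻¹

theorem U_eq (h : Nice φ) (hc : 0 < c) (τ x : ℝ) : U c φ τ x = c⁻¹ * mk c φ 1 τ x := (stepa_hd h c τ x).deriv

theorem V_eq (h : Nice φ) (hc : 0 < c) (τ x : ℝ) :
    V c φ τ x = c⁻¹ * (mk c φ 2 τ x - mk c φ 1 τ x ^ 2) := by
  rw [V, d2, show deriv (chStep c τ φ) = _ from funext (U_eq h hc τ),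
    ((hasDerivAt_mk h c 1 τ x).const_mul c⁻¹).deriv, sq]

theorem W_eq (h : Nice φ) (hc : 0 < c) (τ x : ℝ) :
    W c φ τ x = c⁻¹ * (mk c φ 3 τ x - 3 * mk c φ 1 τ x * mk c φ 2 τ x + 2 * mk c φ 1 τ x ^ 3) := by
  rw [W, d3, show d2 (chStep c τ φ) = _ from funext (V_eq h hc τ),
    (((hasDerivAt_mk h c 2 τ x).fun_sub ((hasDerivAt_mk h c 1 τ x).fun_pow 2)).const_mul c⁻¹).deriv]
  simp only [Nat.cast_ofNat, Nat.reduceAdd, Nat.reduceSub]
  ring

theorem Z_eq (h : Nice φ) (hc : 0 < c) (τ x : ℝ) :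
    Z c φ τ x = c⁻¹ * (mk c φ 4 τ x - 4 * mk c φ 1 τ x * mk c φ 3 τ x - 3 * mk c φ 2 τ x ^ 2
      + 12 * mk c φ 1 τ x ^ 2 * mk c φ 2 τ x - 6 * mk c φ 1 τ x ^ 4) := by
  have m := fun k => hasDerivAt_mk h c k τ x
  rw [Z, d4, show d3 (chStep c τ φ) = _ from funext (W_eq h hc τ),
    ((((m 3).fun_sub (((m 1).const_mul 3).fun_mul (m 2))).fun_add
      (((m 1).fun_pow 3).const_mul 2)).const_mul c⁻¹).deriv]
  simp only [Nat.cast_ofNat, Nat.reduceAdd, Nat.reduceSub]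
  ring

/-- `|E_1| ≤ c E_0`; `bs_of_family` -/
theorem Nice.chStep (h : Nice φ) (hc : 0 < c) (τ : ℝ) : Nice (chStep c τ φ) := by
  refine ⟨fun x => (stepa_hd h c τ x).differentiableAt, fun n => ?_, fun x => ?_⟩
  · rw [show deriv (R339.chStep c τ φ) = _ from funext (U_eq h hc τ)]
    exact (bs_of_family (m := fun k => P.mk c φ k τ) (fun k => (mk_bdd h c k).imp fun _ hC => hC τ)
      (fun k => hasDerivAt_mk h c k τ) n 1).const_mul _
  · rw [(stepa_hd h c τ x).deriv, abs_mul, abs_inv, abs_of_pos hc, inv_mul_le_one₀ hc]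
    refine stepa_bd h c 1 (fun y => ?_) τ x
    rw [pk_one, abs_mul, abs_of_pos hc]
    exact mul_le_of_le_one_right hc.le (h.lip y)

/-- `exp (c φ x - c √τ |g|) ≤ exp (c φ (x + √τ g)) ≤ exp (c φ x + c √τ |g|)`; upper bound from
`E exp (a |g|) ≤ 2 exp (a² / 2)`... or simply: Jensen for the lower bound (`E |g| ≤ 1`), and
`exp (c φ(x + y)) ≤ exp (c φ x) (exp (c y) + exp (-c y))`, `E exp (a g) = exp (a² / 2)`. -/
theorem abs_chStep_sub_le (h : Nice φ) (hc : 0 < c) {τ : ℝ} (hτ : τ ∈ Icc (0 : ℝ) 1) (x : ℝ) :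
    |chStep c τ φ x - φ x| ≤ c⁻¹ + c + 1 := by
  obtain ⟨D, hD⟩ : ∃ D, D = c⁻¹ + c + 1 := ⟨_, rfl⟩
  have hi := fun t => integrable_exp_mul_gaussianReal (μ := 0) (v := 1) t
  have hH : Integrable (fun g => exp (c * √τ * g) + exp (-(c * √τ) * g)) γ₁ :=
    (hi _).add (hi _)
  have h1 : ∫ g, (exp (c * √τ * g) + exp (-(c * √τ) * g)) ∂γ₁ ≤ exp (c * D) := by
    have e : ∀ t, ∫ g, exp (t * g) ∂γ₁ = exp (t ^ 2 / 2) := fun t => by
      simpa [mgf] using congrFun (mgf_id_gaussianReal (μ := 0) (v := 1)) t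
    rw [integral_add (hi _) (hi _), e, e, neg_sq, mul_pow, sq_sqrt hτ.1, ← two_mul, hD, mul_add,
      mul_add, mul_inv_cancel₀ hc.ne', add_assoc, exp_add]
    refine mul_le_mul (by linarith [add_one_le_exp 1]) (exp_le_exp.2 ?_) (exp_pos _).le
      (exp_pos _).le
    nlinarith [mul_le_of_le_one_right (sq_nonneg c) hτ.2]
  have h2 : ∀ g, exp (c * |φ (x + √τ * g) - φ x|) ≤ exp (c * √τ * g) + exp (-(c * √τ) * g) := by
    intro g
    have := mul_le_mul_of_nonneg_left (h.abs_sub_le (x + √τ * g) x) hc.le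
    rw [add_sub_cancel_left] at this
    refine (exp_le_exp.2 this).trans ?_
    rcases abs_cases (√τ * g) with ⟨e, -⟩ | ⟨e, -⟩
    · rw [e, ← mul_assoc]
      exact le_add_of_nonneg_right (exp_pos _).le
    · rw [e, mul_neg, ← mul_assoc, ← neg_mul]
      exact le_add_of_nonneg_left (exp_pos _).le
  have hA := exp_pos (c * φ x)
  have hB := exp_pos (c * D)
  have h3 : Ek c φ 0 τ x ≤ exp (c * φ x) * exp (c * D) := by
    refine le_trans ?_ (mul_le_mul_of_nonneg_left h1 hA.le)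
    rw [← integral_const_mul]
    refine integral_mono (stepa_int h c 0 x _) (hH.const_mul _) fun g => ?_
    refine le_trans ?_ (mul_le_mul_of_nonneg_left (h2 g) hA.le)
    simp only [pk, mul_one, ← exp_add, ← mul_add]
    gcongr
    linarith [le_abs_self (φ (x + √τ * g) - φ x)]
  have h4 : exp (c * φ x) * exp (-(c * D)) ≤ Ek c φ 0 τ x := by
    have h5 := integral_mono (((integrable_const (2 * (exp (c * D))⁻¹)).sub
      (hH.const_mul ((exp (c * D))⁻¹ ^ 2))).const_mul (exp (c * φ x))) (stepa_int h c 0 x √τ)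
      fun g => by
        have a1 : exp (c * φ x) * (exp (c * |φ (x + √τ * g) - φ x|))⁻¹ ≤
            exp (c * φ (x + √τ * g)) := by
          rw [← exp_neg, ← exp_add, ← mul_neg, ← mul_add]
          gcongr
          linarith [neg_abs_le (φ (x + √τ * g) - φ x)]
        simp only [pk, mul_one, Pi.sub_apply]
        refine le_trans (mul_le_mul_of_nonneg_left ?_ hA.le) a1
        have a2 := mul_le_mul_of_nonneg_left (h2 g) (sq_nonneg (exp (c * D))⁻¹)
        have a3 := exp_pos (c * |φ (x + √τ * g) - φ x|)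
        generalize exp (c * |φ (x + √τ * g) - φ x|) = s at *
        have a4 : 2 * (exp (c * D))⁻¹ - (exp (c * D))⁻¹ ^ 2 * s ≤ s⁻¹ := by
          rw [← mul_le_mul_iff_right₀ a3, mul_inv_cancel₀ a3.ne']
          nlinarith [sq_nonneg ((exp (c * D))⁻¹ * s - 1)]
        linarith
    refine le_trans ?_ h5
    simp only [Pi.sub_apply]
    rw [integral_const_mul, integral_sub (integrable_const _) (hH.const_mul _), integral_const,
      integral_const_mul, probReal_univ, one_smul, exp_neg]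
    have a1 := mul_le_mul_of_nonneg_left h1 (sq_nonneg (exp (c * D))⁻¹)
    rw [sq, mul_assoc _ _ (exp _), inv_mul_cancel₀ hB.ne', ← sq] at a1
    exact mul_le_mul_of_nonneg_left (by linarith) hA.le
  rw [← exp_chStep h hc, ← exp_add, exp_le_exp] at h3 h4
  rw [← hD, abs_le]
  exact ⟨le_of_mul_le_mul_left (by linarith) hc, le_of_mul_le_mul_left (by linarith) hc⟩

theorem cg_PH (h : Nice φ) (hc : 0 < c) : CG (PH c φ) := by
  obtain ⟨C, hC⟩ := h.eg.abs.add (EG.const (c⁻¹ + c + 1))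
  refine ⟨?_, C, fun τ hτ x => le_trans ?_ ((le_abs_self _).trans (hC x))⟩
  · rw [show uncurry (PH c φ) = fun p => c⁻¹ * log (uncurry (Ek c φ 0) p) from
      funext fun p => chStep_eq c p.1 φ p.2]
    exact continuous_const.mul ((cg_Ek h c 0).1.log fun p => (Ek_zero_pos h c p.1 p.2).ne')
  · linarith [abs_chStep_sub_le h hc hτ x, abs_sub_abs_le_abs_sub (chStep c τ φ x) (φ x)]

end Crest.Agent.R339.P
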