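import Crest.Agent.R339.P.StepB

/-! Row 339, part P: variation of one step. -/

set_option autoImplicit false

noncomputable section

namespace Crest.Agent.R339.P

open MeasureTheory ProbabilityTheory Real Set Function


variable {c τ : ℝ} {φ φ' : ℝ → ℝ}

theorem vara_key {c' : ℝ} (h' : Nice φ') (hc' : 0 < c') (c τ x : ℝ) (φ : ℝ → ℝ) (a : ℝ) :
    TE c τ φ (fun y => exp (c' * φ' y - c * φ y + a)) x =
      exp (c' * chStep c' τ φ' x - c * chStep c τ φ x + a) := by
  have e := exp_chStep h' hc' τ x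
  rw [show c' * chStep c' τ φ' x - c * chStep c τ φ x + a =
    c' * chStep c' τ φ' x + (a - c * chStep c τ φ x) by ring, exp_add, e]
  simp only [TE, Ek, heat, pk, mul_one]
  rw [← integral_mul_const]
  congr 1
  funext g
  rw [← exp_add, ← exp_add]
  congr 1; ring

theorem vara_exp (_h : Nice φ) (h' : Nice φ') (hc : 0 < c) (τ x : ℝ) :
    exp (c * (chStep c τ φ' x - chStep c τ φ x)) =
      TE c τ φ (fun y => exp (c * (φ' y - φ y))) x := by
  have e := vara_key h' hc c τ x φ 0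
  simp only [add_zero, ← mul_sub] at e
  exact e.symm

theorem vara_eg (hc : 0 < c) {η : ℝ} (hη : ∀ y, |φ' y - φ y| ≤ η) :
    EG fun y => exp (c * (φ' y - φ y)) :=
  EG.of_bdd ⟨exp (c * η), fun y => by
    rw [abs_of_pos (exp_pos _)]
    exact exp_le_exp.2 (mul_le_mul_of_nonneg_left (abs_le.1 (hη y)).2 hc.le)⟩

theorem vara_cont (h : Nice φ) (h' : Nice φ') (c : ℝ) :
    Continuous fun y => exp (c * (φ' y - φ y)) :=
  (continuous_const.mul (h'.cont.sub h.cont)).rexp

theorem vara_exp_le (y : ℝ) : exp y ≤ 1 + y + y ^ 2 * exp |y| := by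
  have h1 : 1 ≤ exp |y| := one_le_exp (abs_nonneg y)
  rcases le_total |y| 1 with h | h
  · have := (abs_le.1 (abs_exp_sub_one_sub_id_le h)).2
    nlinarith [sq_nonneg y]
  · rcases le_total 0 y with h0 | h0
    · rw [abs_of_nonneg h0] at h h1 ⊢
      have : 1 ≤ y ^ 2 := by nlinarith
      nlinarith [exp_pos y]
    · have h2 : exp y ≤ 1 := exp_le_one_iff.2 h0
      rw [abs_of_nonpos h0] at h
      nlinarith [sq_nonneg y]

theorem chStep_sub_eq (h : Nice φ) (h' : Nice φ') (hc : 0 < c) (τ x : ℝ) :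
    chStep c τ φ' x - chStep c τ φ x = c⁻¹ * log (TE c τ φ (fun y => exp (c * (φ' y - φ y))) x) := by
  rw [← vara_exp h h' hc, log_exp]
  field_simp

/-- contraction in the sup norm -/
theorem abs_chStep_sub_chStep_le (h : Nice φ) (h' : Nice φ') (hc : 0 < c) (τ : ℝ) {η : ℝ}
    (hη : ∀ y, |φ' y - φ y| ≤ η) (x : ℝ) : |chStep c τ φ' x - chStep c τ φ x| ≤ η := by
  have hb : ∀ y, |c * (φ' y - φ y)| ≤ c * η := fun y => by
    rw [abs_mul, abs_of_pos hc]; exact mul_le_mul_of_nonneg_left (hη y) hc.le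
  have hE := vara_eg hc hη
  have hm : Measurable fun y => exp (c * (φ' y - φ y)) := (vara_cont h h' c).measurable
  have h1 := TE_mono h c τ hE hm (EG.const (exp (c * η))) measurable_const
    (fun y => exp_le_exp.2 (abs_le.1 (hb y)).2) x
  have h2 := TE_mono h c τ (EG.const (exp (-(c * η)))) measurable_const hE hm
    (fun y => exp_le_exp.2 (abs_le.1 (hb y)).1) x
  rw [TE_const h hc, ← vara_exp h h' hc, exp_le_exp] at h1 h2
  rw [abs_le]
  constructor <;> nlinarith

/-- `log y ≤ y - 1`, `exp y ≤ 1 + y + y²` for `|y| ≤ 1` -/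
theorem chStep_sub_le (h : Nice φ) (h' : Nice φ') (hc : 0 < c) (τ : ℝ) {η : ℝ}
    (hη : ∀ y, |φ' y - φ y| ≤ η) (hcη : c * η ≤ 1) (x : ℝ) :
    chStep c τ φ' x - chStep c τ φ x ≤ TE c τ φ (fun y => φ' y - φ y) x + c * η ^ 2 := by
  have hb : ∀ y, |c * (φ' y - φ y)| ≤ c * η := fun y => by
    rw [abs_mul, abs_of_pos hc]; exact mul_le_mul_of_nonneg_left (hη y) hc.le
  have hE := vara_eg hc hη
  have hm : Measurable fun y => exp (c * (φ' y - φ y)) := (vara_cont h h' c).measurable
  have hd : EG fun y => c * (φ' y - φ y) := EG.of_bdd ⟨_, hb⟩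
  have hdm : Measurable fun y => c * (φ' y - φ y) :=
    (continuous_const.mul (h'.cont.sub h.cont)).measurable
  have h1 := TE_mono h c τ hE hm (hd.add (EG.const (1 + (c * η) ^ 2)))
    (hdm.add measurable_const) (fun y => by
      have h2 := (abs_le.1 (abs_exp_sub_one_sub_id_le ((hb y).trans hcη))).2
      have h3 : (c * (φ' y - φ y)) ^ 2 ≤ (c * η) ^ 2 := by
        rw [← sq_abs]; exact pow_le_pow_left₀ (abs_nonneg _) (hb y) 2
      linarith) x
  rw [TE_add h c τ hd hdm (EG.const _) measurable_const, TE_const h hc, TE_const_mul,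
    ← vara_exp h h' hc] at h1
  have h2 := add_one_le_exp (c * (chStep c τ φ' x - chStep c τ φ x))
  refine le_of_mul_le_mul_left ?_ hc
  nlinarith

/-- Variation of the exponent.  With `ψ y = φ y - chStep c τ φ x` one has
`chStep c' τ φ x - chStep c τ φ x = c'⁻¹ log (TE (exp ((c' - c) ψ)) x)`, `|ψ (x + √τ g)| ≤ |g| + C₁`,
and the tilt density is at most `exp (b (|g| + C₁))`, `C₁ = c₀⁻¹ + b + 1` (`abs_chStep_sub_le`).
Upper bound: `log y ≤ y - 1`, `exp y ≤ 1 + y + y² exp |y|`, `|c' - c| ≤ b`,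
`|c'⁻¹ - c⁻¹| ≤ |c' - c| / c₀²`.  Lower bound: `exp y ≥ 1 + y` applied to `y - TE y` (Jensen). -/
theorem exists_var_const {c₀ b : ℝ} (hc₀ : 0 < c₀) : ∃ C : ℝ, 0 ≤ C ∧
    ∀ (φ : ℝ → ℝ) (c c' τ x : ℝ), Nice φ → c ∈ Icc c₀ b → c' ∈ Icc c₀ b → τ ∈ Icc (0 : ℝ) 1 →
      |chStep c' τ φ x - chStep c τ φ x| ≤ C * |c' - c| ∧
      chStep c' τ φ x - chStep c τ φ x ≤
        (c' - c) * (c⁻¹ * (TE c τ φ φ x - chStep c τ φ x)) + C * (c' - c) ^ 2 := by
  set A : ℝ := (2 + 2 * |b|) * (c₀⁻¹ + |b| + 2) with hA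
  set K : ℝ := ∫ g, exp (A * (1 + |g|)) ∂γ₁ with hK
  have hK0 : 0 ≤ K := integral_nonneg fun g => (exp_pos _).le
  refine ⟨K * (1 + |b|) / c₀ + K / c₀ ^ 2, by positivity, ?_⟩
  intro φ c c' τ x h hc hc' hτ
  have c0 : 0 < c := hc₀.trans_le hc.1
  have c0' : 0 < c' := hc₀.trans_le hc'.1
  have hb : 0 < b := c0.trans_le hc.2
  rw [abs_of_pos hb] at hA ⊢
  have hδ : |c' - c| ≤ b := by
    rw [abs_le]; constructor <;> linarith [hc.2, hc'.2]
  set Φ := chStep c τ φ x with hΦ
  have hψ : ∀ g : ℝ, |φ (x + √τ * g) - Φ| ≤ (c₀⁻¹ + b + 2) * (1 + |g|) := by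
    intro g
    have h1 := h.abs_sub_le (x + √τ * g) x
    have h2 := abs_chStep_sub_le h c0 hτ x
    have h3 : |x + √τ * g - x| ≤ |g| := by
      rw [add_sub_cancel_left, abs_mul, abs_of_nonneg (sqrt_nonneg τ)]
      exact mul_le_of_le_one_left (abs_nonneg g) (sqrt_le_one.2 hτ.2)
    have h4 : c⁻¹ ≤ c₀⁻¹ := inv_anti₀ hc₀ hc.1
    have h5 : |φ (x + √τ * g) - Φ| ≤ |φ (x + √τ * g) - φ x| + |Φ - φ x| := by
      rw [abs_sub_comm Φ]; exact abs_sub_le _ _ _
    have h6 : 0 < c₀⁻¹ := inv_pos.2 hc₀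
    nlinarith [abs_nonneg g, hc.2]
  have hB : ∀ g : ℝ, exp ((2 + 2 * b) * |φ (x + √τ * g) - Φ|) ≤ exp (A * (1 + |g|)) := by
    intro g
    rw [hA, mul_assoc]
    exact exp_le_exp.2 (mul_le_mul_of_nonneg_left (hψ g) (by linarith))
  have hψE : EG fun y => φ y - Φ := h.eg.sub (EG.const Φ)
  have hψm : Measurable fun y => φ y - Φ := (h.cont.sub continuous_const).measurable
  have i0 : Integrable (fun g => exp (c * (φ (x + √τ * g) - Φ))) γ₁ := by
    simpa using TE_integrable h c τ (EG.const 1) measurable_const x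
  have e0 : ∫ g, exp (c * (φ (x + √τ * g) - Φ)) ∂γ₁ = 1 := by
    simpa [TE] using TE_const h c0 τ 1 x
  have i1 : Integrable (fun g => (φ (x + √τ * g) - Φ) * exp (c * (φ (x + √τ * g) - Φ))) γ₁ :=
    TE_integrable h c τ hψE hψm x
  have e1 : ∫ g, (φ (x + √τ * g) - Φ) * exp (c * (φ (x + √τ * g) - Φ)) ∂γ₁ =
      TE c τ φ φ x - Φ := by
    have := TE_sub h c τ h.eg h.cont.measurable (EG.const Φ) measurable_const x
    rw [TE_const h c0] at this
    exact this
  have i2 : Integrable (fun g => exp ((c' - c) * (φ (x + √τ * g) - Φ)) *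
      exp (c * (φ (x + √τ * g) - Φ))) γ₁ := by
    have := TE_integrable h c τ ((h.add_const (-Φ)).eg_exp (c' - c))
      ((continuous_const.mul (h.cont.add continuous_const)).rexp.measurable) x
    simpa only [← sub_eq_add_neg] using this
  have e2 : ∫ g, exp ((c' - c) * (φ (x + √τ * g) - Φ)) * exp (c * (φ (x + √τ * g) - Φ)) ∂γ₁ =
      exp (c' * (chStep c' τ φ x - Φ)) := by
    have e := vara_key h c0' c τ x φ (-((c' - c) * Φ))
    have e' : (fun y => exp (c' * φ y - c * φ y + -((c' - c) * Φ))) =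
        fun y => exp ((c' - c) * (φ y - Φ)) := by
      funext y; congr 1; ring
    rw [e'] at e
    refine e.trans ?_
    congr 1; ring
  set m := TE c τ φ φ x - Φ with hm
  set D := chStep c' τ φ x - Φ with hD
  have iB := integrable_exp_γ A
  have hmK : |m| ≤ K := by
    rw [← e1]
    refine abs_integral_le_integral_abs.trans (integral_mono i1.abs iB fun g => ?_)
    refine le_trans ?_ (hB g)
    generalize φ (x + √τ * g) - Φ = y
    rw [abs_mul, abs_of_pos (exp_pos _)]
    have h1 : |y| ≤ exp |y| := by linarith [add_one_le_exp |y|]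
    refine (mul_le_mul_of_nonneg_right h1 (exp_pos _).le).trans ?_
    rw [← exp_add, exp_le_exp]
    nlinarith [le_abs_self y, abs_nonneg y, hc.2]
  have up : c' * D ≤ (c' - c) * m + (c' - c) ^ 2 * K := by
    have h1 : exp (c' * D) ≤ 1 + (c' - c) * m + (c' - c) ^ 2 * K := by
      have i3 : Integrable (fun g => exp (c * (φ (x + √τ * g) - Φ)) + (c' - c) *
          ((φ (x + √τ * g) - Φ) * exp (c * (φ (x + √τ * g) - Φ)))) γ₁ := i0.add (i1.const_mul _)
      rw [← e2, ← e0, ← e1, hK, ← integral_const_mul, ← integral_const_mul,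
        ← integral_add i0 (i1.const_mul _), ← integral_add i3 (iB.const_mul _)]
      refine integral_mono i2 (i3.add (iB.const_mul _)) fun g => ?_
      have hg := hB g
      simp only
      generalize φ (x + √τ * g) - Φ = y at hg ⊢
      have h2 := mul_le_mul_of_nonneg_right (vara_exp_le ((c' - c) * y)) (exp_pos (c * y)).le
      have h3 : y ^ 2 * exp |(c' - c) * y| * exp (c * y) ≤ exp ((2 + 2 * b) * |y|) := by
        have h4 : |y| ≤ exp |y| := by linarith [add_one_le_exp |y|]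
        have h5 : y ^ 2 ≤ exp |y| * exp |y| := by
          rw [← sq_abs, sq]; exact mul_le_mul h4 h4 (abs_nonneg _) (exp_pos _).le
        refine (mul_le_mul_of_nonneg_right
          (mul_le_mul_of_nonneg_right h5 (exp_pos _).le) (exp_pos _).le).trans ?_
        rw [← exp_add, ← exp_add, ← exp_add, exp_le_exp, abs_mul]
        nlinarith [le_abs_self y, abs_nonneg y, hc.2,
          mul_le_mul_of_nonneg_right hδ (abs_nonneg y)]
      nlinarith [mul_le_mul_of_nonneg_left (h3.trans hg) (sq_nonneg (c' - c))]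
    linarith [add_one_le_exp (c' * D)]
  have lo : (c' - c) * m ≤ c' * D := by
    rw [← exp_le_exp, ← e2]
    have h1 : exp ((c' - c) * m) = ∫ g, (exp ((c' - c) * m) * (1 - (c' - c) * m) *
        exp (c * (φ (x + √τ * g) - Φ)) + exp ((c' - c) * m) * (c' - c) *
        ((φ (x + √τ * g) - Φ) * exp (c * (φ (x + √τ * g) - Φ)))) ∂γ₁ := by
      rw [integral_add (i0.const_mul _) (i1.const_mul _), integral_const_mul, integral_const_mul,
        e0, e1]
      ring
    rw [h1]
    refine integral_mono ((i0.const_mul _).add (i1.const_mul _)) i2 fun g => ?_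
    simp only
    generalize φ (x + √τ * g) - Φ = y
    have h2 := add_one_le_exp ((c' - c) * y - (c' - c) * m)
    have h3 := mul_le_mul_of_nonneg_left h2 (exp_pos ((c' - c) * m)).le
    rw [← exp_add, add_sub_cancel] at h3
    nlinarith [mul_le_mul_of_nonneg_right h3 (exp_pos (c * y)).le]
  have hm1 : |(c' - c) * m| ≤ |c' - c| * K := by
    rw [abs_mul]; exact mul_le_mul_of_nonneg_left hmK (abs_nonneg _)
  have hsq : (c' - c) ^ 2 * K ≤ b * |c' - c| * K := by
    rw [← sq_abs, sq]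
    exact mul_le_mul_of_nonneg_right (mul_le_mul_of_nonneg_right hδ (abs_nonneg _)) hK0
  constructor
  · have h1 : c' * |D| ≤ K * (1 + b) * |c' - c| := by
      rw [← abs_of_pos c0', ← abs_mul, abs_of_pos c0', abs_le]
      have := abs_le.1 hm1
      have h2 : 0 ≤ b * |c' - c| * K := by positivity
      constructor <;> linarith [this.1, this.2]
    have h2 : |D| ≤ K * (1 + b) / c₀ * |c' - c| := by
      rw [div_mul_eq_mul_div, le_div_iff₀ hc₀]
      nlinarith [abs_nonneg D, hc'.1]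
    have h3 : 0 ≤ K / c₀ ^ 2 * |c' - c| := by positivity
    linarith
  · have h1 : D ≤ (c' - c) * m / c' + (c' - c) ^ 2 * K / c' := by
      rw [← add_div, le_div_iff₀ c0']; linarith
    have h2 : (c' - c) * m / c' = (c' - c) * (c⁻¹ * m) + (c' - c) ^ 2 * (-m / (c * c')) := by
      field_simp; ring
    have h3 : -m / (c * c') ≤ K / c₀ ^ 2 := by
      refine (div_le_div_of_nonneg_right (neg_le_abs m |>.trans hmK) (by positivity)).trans ?_
      refine div_le_div_of_nonneg_left hK0 (by positivity) ?_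
      rw [sq]; exact mul_le_mul hc.1 hc'.1 hc₀.le c0.le
    have h4 : K / c' ≤ K * (1 + b) / c₀ := by
      refine (div_le_div_of_nonneg_left hK0 hc₀ hc'.1).trans ?_
      refine div_le_div_of_nonneg_right ?_ hc₀.le
      nlinarith
    have h5 := mul_le_mul_of_nonneg_left h3 (sq_nonneg (c' - c))
    have h6 := mul_le_mul_of_nonneg_left h4 (sq_nonneg (c' - c))
    rw [mul_div_assoc ((c' - c) ^ 2)] at h1
    linarith

end Crest.Agent.R339.P
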